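import Mathlib

namespace Vale.Agent.P249

open MeasureTheory Real

variable {Ω : Type*} [MeasurableSpace Ω] {μ : Measure Ω} {Q : Type*} [Fintype Q]

lemma exp_lin {u M Z : ℝ} (hM : 0 < M) (h0 : 0 ≤ Z) (h1 : Z ≤ M) :
    exp (u / M * Z) ≤ 1 + (exp u - 1) / M * Z := by
  have ht0 : 0 ≤ Z / M := by positivity
  have ht1 : Z / M ≤ 1 := (div_le_one hM).mpr h1
  have h := convexOn_exp.2 (Set.mem_univ 0) (Set.mem_univ u) (sub_nonneg.mpr ht1) ht0
    (sub_add_cancel 1 (Z / M))
  simp only [smul_eq_mul, mul_zero, zero_add, exp_zero, mul_one] at h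
  have e1 : u / M * Z = Z / M * u := by ring
  rw [e1]
  refine h.trans (le_of_eq ?_)
  field_simp
  ring

lemma exists_good_point (s : Q → Ω → ℝ) (h : Ω → ℝ) (H T : ℝ) (hH : 0 < H)
    (hint : Integrable h μ) (hsum : ∫ ω, h ω ∂μ = H) (hpos : ∀ ω, 0 ≤ h ω)
    (sint : ∀ q, Integrable (s q) μ) (ssum : ∀ q, ∫ ω, s q ω ∂μ = 1)
    (s0 : ∀ q ω, 0 ≤ s q ω) (hdom : ∀ q ω, s q ω ≤ T * h ω) (c : Q → ℝ) :
    ∃ ω, 0 < h ω ∧ ∑ q, c q * (H * s q ω / h ω) ≤ ∑ q, c q := by
  set G : Ω → ℝ := fun ω => ∑ q, c q * s q ω - (∑ q, c q) / H * h ω with hG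
  have hGint : Integrable G μ :=
    (integrable_finsetSum _ fun q _ => (sint q).const_mul _).sub (hint.const_mul _)
  have hG0 : ∫ ω, G ω ∂μ = 0 := by
    rw [hG, integral_sub (integrable_finsetSum _ fun q _ => (sint q).const_mul _)
      (hint.const_mul _), integral_finsetSum _ fun q _ => (sint q).const_mul _]
    simp only [integral_const_mul, ssum, hsum, mul_one]
    field_simp
    ring
  by_contra hcon
  push Not at hcon
  have hGpos : ∀ ω, 0 < h ω → 0 < G ω := by
    intro ω hω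
    have h1 := hcon ω hω
    have h2 : ∑ q, c q * (H * s q ω / h ω) = H / h ω * ∑ q, c q * s q ω := by
      rw [Finset.mul_sum]; exact Finset.sum_congr rfl fun q _ => by ring
    rw [h2, div_mul_eq_mul_div, lt_div_iff₀ hω] at h1
    simp only [hG]
    rw [sub_pos, div_mul_eq_mul_div, div_lt_iff₀ hH]
    linarith
  have hGnn : 0 ≤ G := by
    intro ω
    rcases (hpos ω).lt_or_eq with hω | hω
    · exact (hGpos ω hω).le
    · have hz : ∀ q, s q ω = 0 := fun q => le_antisymm (by simpa [← hω] using hdom q ω) (s0 q ω)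
      simp [hG, hz, ← hω]
  have hae := (integral_eq_zero_iff_of_nonneg hGnn hGint).mp hG0
  have hh0 : h =ᵐ[μ] 0 := by
    filter_upwards [hae] with ω hω
    by_contra hne
    exact (hGpos ω (lt_of_le_of_ne (hpos ω) (Ne.symm hne))).ne' hω
  rw [integral_congr_ae hh0] at hsum
  simp at hsum
  linarith

/-- Derandomised Chernoff sampling. -/
lemma exists_sample (s : Q → Ω → ℝ) (h : Ω → ℝ) (H T ε : ℝ) (hH : 0 < H) (hT : 0 < T)
    (hε : 0 < ε) (hε1 : ε ≤ 1)
    (hint : Integrable h μ) (hsum : ∫ ω, h ω ∂μ = H) (hpos : ∀ ω, 0 ≤ h ω)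
    (sint : ∀ q, Integrable (s q) μ) (ssum : ∀ q, ∫ ω, s q ω ∂μ = 1)
    (s0 : ∀ q ω, 0 ≤ s q ω) (hdom : ∀ q ω, s q ω ≤ T * h ω)
    (N : ℕ) (hN : 4 * (H * T) / ε ^ 2 * Real.log (2 * Fintype.card Q + 1) < N) :
    ∃ w : Fin N → Ω, (∀ i, 0 < h (w i)) ∧
      ∀ q, (1 - ε) * N ≤ ∑ i, H * s q (w i) / h (w i) ∧
        ∑ i, H * s q (w i) / h (w i) ≤ (1 + ε) * N := by
  set M := H * T with hM
  have hM0 : 0 < M := mul_pos hH hT
  set u := ε / 2 with hu
  set lam := u / M with hlam
  set ρ := exp (-ε ^ 2 / (4 * M)) with hρ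
  let Z : Q → Ω → ℝ := fun q ω => H * s q ω / h ω
  have hZ : ∀ q ω, 0 < h ω → 0 ≤ Z q ω ∧ Z q ω ≤ M := by
    intro q ω hω
    refine ⟨div_nonneg (mul_nonneg hH.le (s0 q ω)) hω.le, ?_⟩
    rw [div_le_iff₀ hω, hM, mul_assoc]
    exact mul_le_mul_of_nonneg_left (hdom q ω) hH.le
  let Φ : (m : ℕ) → (Fin m → Ω) → ℝ := fun m w => ∑ q,
    (exp (lam * (∑ i, Z q (w i) - (1 + ε) * m)) + exp (lam * ((1 - ε) * m - ∑ i, Z q (w i))))
  have step : ∀ m : ℕ, ∃ w : Fin m → Ω, (∀ i, 0 < h (w i)) ∧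
      Φ m w ≤ 2 * Fintype.card Q * ρ ^ m := by
    intro m
    induction m with
    | zero => exact ⟨Fin.elim0, fun i => i.elim0, le_of_eq (by simp [Φ, Z]; norm_num; ring)⟩
    | succ m ih =>
      obtain ⟨w, hw, hΦ⟩ := ih
      set A : Q → ℝ := fun q => exp (lam * (∑ i, Z q (w i) - (1 + ε) * m)) with hA
      set B : Q → ℝ := fun q => exp (lam * ((1 - ε) * m - ∑ i, Z q (w i))) with hB
      set a := (exp u - 1) / M with ha
      set b := (exp (-u) - 1) / M with hb
      set cA := exp (-(lam * (1 + ε))) with hcA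
      set cB := exp (lam * (1 - ε)) with hcB
      obtain ⟨ω, hω, hle⟩ := exists_good_point s h H T hH hint hsum hpos sint ssum s0 hdom
        (fun q => A q * cA * a + B q * cB * b)
      refine ⟨Fin.snoc w ω, ?_, ?_⟩
      · intro i
        induction i using Fin.lastCases with
        | last => simpa using hω
        | cast i => simpa using hw i
      have hu1 : |u| ≤ 1 := by rw [abs_of_nonneg (by positivity)]; linarith
      have e1 := (abs_le.mp (Real.abs_exp_sub_one_sub_id_le hu1)).2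
      have e2 := (abs_le.mp (Real.abs_exp_sub_one_sub_id_le (x := -u) (by rwa [abs_neg]))).2
      have hfA : cA * (1 + a) ≤ ρ := by
        refine (mul_le_mul_of_nonneg_left (by linarith [add_one_le_exp a]) (exp_pos _).le
          : cA * (1 + a) ≤ cA * exp a).trans ?_
        rw [hcA, ← exp_add, hρ]
        refine exp_le_exp.mpr ?_
        calc -(lam * (1 + ε)) + a ≤ -(lam * (1 + ε)) + (u + u ^ 2) / M := by
              rw [ha]; gcongr; linarith
          _ = -ε ^ 2 / (4 * M) := by rw [hlam, hu]; field_simp; ring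
      have hfB : cB * (1 + b) ≤ ρ := by
        refine (mul_le_mul_of_nonneg_left (by linarith [add_one_le_exp b]) (exp_pos _).le
          : cB * (1 + b) ≤ cB * exp b).trans ?_
        rw [hcB, ← exp_add, hρ]
        refine exp_le_exp.mpr ?_
        calc lam * (1 - ε) + b ≤ lam * (1 - ε) + (-u + u ^ 2) / M := by
              rw [hb]; gcongr; nlinarith
          _ = -ε ^ 2 / (4 * M) := by rw [hlam, hu]; field_simp; ring
      have hnext : Φ (m + 1) (Fin.snoc w ω) ≤
          ∑ q, (A q * cA + B q * cB + (A q * cA * a + B q * cB * b) * Z q ω) := by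
        refine Finset.sum_le_sum fun q _ => ?_
        rw [Fin.sum_univ_castSucc]
        simp only [Fin.snoc_castSucc, Fin.snoc_last]
        push_cast
        have p1 : exp (lam * (∑ i, Z q (w i) + Z q ω - (1 + ε) * ((m : ℝ) + 1)))
            = A q * cA * exp (lam * Z q ω) := by
          rw [hA, hcA, ← exp_add, ← exp_add]; congr 1; ring
        have p2 : exp (lam * ((1 - ε) * ((m : ℝ) + 1) - (∑ i, Z q (w i) + Z q ω)))
            = B q * cB * exp (-u / M * Z q ω) := by
          rw [hB, hcB, ← exp_add, ← exp_add, hlam]; congr 1; ring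
        rw [p1, p2]
        obtain ⟨z0, z1⟩ := hZ q ω hω
        have q1 := mul_le_mul_of_nonneg_left (exp_lin (u := u) hM0 z0 z1)
          (show (0 : ℝ) ≤ A q * cA by positivity)
        have q2 := mul_le_mul_of_nonneg_left (exp_lin (u := -u) hM0 z0 z1)
          (show (0 : ℝ) ≤ B q * cB by positivity)
        rw [← hlam, ← ha] at q1
        rw [← hb] at q2
        linarith
      refine hnext.trans ?_
      rw [Finset.sum_add_distrib]
      refine (add_le_add le_rfl hle).trans ?_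
      rw [← Finset.sum_add_distrib]
      calc ∑ q, (A q * cA + B q * cB + (A q * cA * a + B q * cB * b))
          = ∑ q, (A q * (cA * (1 + a)) + B q * (cB * (1 + b))) :=
            Finset.sum_congr rfl fun q _ => by ring
        _ ≤ ∑ q, (A q * ρ + B q * ρ) := by
            refine Finset.sum_le_sum fun q _ => add_le_add ?_ ?_ <;>
              exact mul_le_mul_of_nonneg_left ‹_› (exp_pos _).le
        _ = Φ m w * ρ := by
            simp only [Φ, hA, hB, Finset.sum_mul, add_mul]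
        _ ≤ 2 * Fintype.card Q * ρ ^ m * ρ := mul_le_mul_of_nonneg_right hΦ (exp_pos _).le
        _ = _ := by rw [pow_succ]; ring
  obtain ⟨w, hw, hΦ⟩ := step N
  refine ⟨w, hw, fun q => ?_⟩
  have hlt : Φ N w < 1 := by
    refine lt_of_le_of_lt hΦ ?_
    rw [hρ, ← exp_nat_mul]
    have hL : Real.log (2 * Fintype.card Q + 1) < (N : ℝ) * (ε ^ 2 / (4 * M)) := by
      rw [div_mul_eq_mul_div, div_lt_iff₀ (by positivity)] at hN
      rw [← mul_div_assoc, lt_div_iff₀ (by positivity)]
      linarith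
    have hpos' : (0 : ℝ) < 2 * Fintype.card Q + 1 := by positivity
    calc 2 * (Fintype.card Q : ℝ) * exp ((N : ℝ) * (-ε ^ 2 / (4 * M)))
        < (2 * Fintype.card Q + 1) * exp ((N : ℝ) * (-ε ^ 2 / (4 * M))) := by
          nlinarith [exp_pos ((N : ℝ) * (-ε ^ 2 / (4 * M)))]
      _ = exp (Real.log (2 * Fintype.card Q + 1) + (N : ℝ) * (-ε ^ 2 / (4 * M))) := by
          rw [exp_add, exp_log hpos']
      _ ≤ 1 := by
          rw [exp_le_one_iff, neg_div, mul_neg]; linarith
  have hterm := (Finset.single_le_sum (f := fun q =>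
      exp (lam * (∑ i, Z q (w i) - (1 + ε) * N)) + exp (lam * ((1 - ε) * N - ∑ i, Z q (w i))))
    (fun q _ => by positivity) (Finset.mem_univ q)).trans_lt hlt
  have hlam0 : 0 < lam := by positivity
  constructor
  · by_contra hc
    push Not at hc
    have : 1 ≤ exp (lam * ((1 - ε) * N - ∑ i, Z q (w i))) :=
      one_le_exp (mul_nonneg hlam0.le (by linarith))
    linarith [exp_pos (lam * (∑ i, Z q (w i) - (1 + ε) * N))]
  · by_contra hc
    push Not at hc
    have : 1 ≤ exp (lam * (∑ i, Z q (w i) - (1 + ε) * N)) :=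
      one_le_exp (mul_nonneg hlam0.le (by linarith))
    linarith [exp_pos (lam * ((1 - ε) * N - ∑ i, Z q (w i)))]

end Vale.Agent.P249
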