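import Vale.Agent.P249.Mean
import Vale.Agent.P249.Sampling

/-!
Low-dimensional images of point sets of bounded aspect ratio in a finite-dimensional space.
-/

namespace Vale.Agent.P249

open MeasureTheory Real Finset

/-- Uniform phase. -/
noncomputable def phaseLaw : Measure ℝ :=
  (ENNReal.ofReal (2 * π))⁻¹ • volume.restrict (Set.Ioc 0 (2 * π))

instance : IsProbabilityMeasure phaseLaw := by
  refine ⟨?_⟩
  simp only [phaseLaw, Measure.smul_apply, Measure.restrict_apply_univ, Real.volume_Ioc, sub_zero,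
    smul_eq_mul]
  exact ENNReal.inv_mul_cancel (by simp [pi_pos]) ENNReal.ofReal_ne_top

/-- Mean of `|cos| ^ p`. -/
noncomputable def cosMean (p : ℝ) : ℝ := (2 * π)⁻¹ * ∫ x in (0 : ℝ)..2 * π, |cos x| ^ p

lemma integral_phase {p : ℝ} (c : ℝ) : ∫ u, |cos (c + u)| ^ p ∂phaseLaw = cosMean p := by
  rw [phaseLaw, integral_smul_measure, cosMean, ← intervalIntegral.integral_of_le (by positivity),
    ENNReal.toReal_inv, ENNReal.toReal_ofReal (by positivity), smul_eq_mul]
  congr 1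
  rw [intervalIntegral.integral_comp_add_left (fun x => |cos x| ^ p) c, add_zero]
  have hper : Function.Periodic (fun x => |cos x| ^ p) (2 * π) := fun x => by
    simp [cos_add_two_pi]
  simpa using hper.intervalIntegral_add_eq c 0

lemma cosMean_pos {p : ℝ} (hp : 0 ≤ p) : 0 < cosMean p := by
  refine mul_pos (by positivity) (intervalIntegral.integral_pos (by positivity) ?_ ?_ ?_)
  · exact (continuous_cos.abs.rpow_const fun _ => Or.inr hp).continuousOn
  · exact fun x _ => rpow_nonneg (abs_nonneg _) _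
  · exact ⟨0, ⟨le_rfl, by positivity⟩, by simp⟩

lemma cosMean_le_one {p : ℝ} (hp : 0 ≤ p) : cosMean p ≤ 1 := by
  rw [← integral_phase (p := p) 0]
  calc ∫ u, |cos (0 + u)| ^ p ∂phaseLaw ≤ ∫ _, (1 : ℝ) ∂phaseLaw :=
        integral_mono_of_nonneg (.of_forall fun u => rpow_nonneg (abs_nonneg _) _)
          (integrable_const _)
          (.of_forall fun u => rpow_le_one (abs_nonneg _) (abs_cos_le_one _) hp)
    _ = 1 := by simp

/-- The random feature of a point. -/
noncomputable def feature {M : ℕ} (p T : ℝ) (z : Fin M → ℝ) (ω : (Fin M → ℝ) × ℝ) : ℝ :=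
  T * sin (form p z ω.1 / T + ω.2)

lemma feature_diff {M : ℕ} {p T : ℝ} (hT : T ≠ 0) (z z' : Fin M → ℝ) (ω : (Fin M → ℝ) × ℝ) :
    |feature p T z ω - feature p T z' ω| ^ p = wave p T (form p (z - z') ω.1) *
      |cos ((form p z ω.1 + form p z' ω.1) / (2 * T) + ω.2)| ^ p := by
  rw [wave, ← mul_rpow (abs_nonneg _) (abs_nonneg _), ← abs_mul, form_sub]
  congr 2
  rw [feature, feature, ← mul_sub, sin_sub_sin]
  rw [show (form p z ω.1 / T + ω.2 - (form p z' ω.1 / T + ω.2)) / 2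
      = (form p z ω.1 - form p z' ω.1) / (2 * T) by field_simp; ring,
    show (form p z ω.1 / T + ω.2 + (form p z' ω.1 / T + ω.2)) / 2
      = (form p z ω.1 + form p z' ω.1) / (2 * T) + ω.2 by field_simp; ring]
  ring

lemma measurable_feature {M : ℕ} (p T : ℝ) (z : Fin M → ℝ) : Measurable (feature p T z) :=
  ((((measurable_form p z).comp measurable_fst).div_const T).add measurable_snd).sin.const_mul T

lemma feature_bound {M : ℕ} {p T : ℝ} (hp : 0 ≤ p) (hT : 0 < T) (z z' : Fin M → ℝ)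
    (ω : (Fin M → ℝ) × ℝ) : |feature p T z ω - feature p T z' ω| ^ p ≤ (2 * T) ^ p := by
  rw [feature_diff hT.ne']
  calc _ ≤ (2 * T) ^ p * 1 := mul_le_mul (wave_le_top hp hT _)
        (rpow_le_one (abs_nonneg _) (abs_cos_le_one _) hp) (rpow_nonneg (abs_nonneg _) _)
        (by positivity)
    _ = _ := mul_one _

lemma integrable_feature {M : ℕ} {p T : ℝ} (hp : 0 ≤ p) (hT : 0 < T) (z z' : Fin M → ℝ) :
    Integrable (fun ω => |feature p T z ω - feature p T z' ω| ^ p)
      ((law M).prod phaseLaw) :=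
  Integrable.of_bound ((((measurable_feature p T z).sub (measurable_feature p T z')).norm).pow_const
    p).aestronglyMeasurable ((2 * T) ^ p) (.of_forall fun ω => by
      rw [Real.norm_eq_abs, abs_of_nonneg (rpow_nonneg (abs_nonneg _) _)]
      exact feature_bound hp hT z z' ω)

lemma integral_feature {M : ℕ} {p T : ℝ} (hp : 0 ≤ p) (hT : 0 < T) (z z' : Fin M → ℝ) :
    ∫ ω, |feature p T z ω - feature p T z' ω| ^ p ∂(law M).prod phaseLaw =
      (∫ w, wave p T (form p (z - z') w) ∂law M) * cosMean p := by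
  rw [integral_prod _ (integrable_feature hp hT z z'), ← integral_mul_const]
  refine integral_congr_ae (.of_forall fun w => ?_)
  simp only [feature_diff hT.ne']
  rw [integral_const_mul, integral_phase]

/-- For `1 ≤ p < 2`, point sets whose `p`-th power distances lie in `[1, R]` embed in dimension
`C * R ^ k * log n`. -/
theorem exists_lowdim {p : ℝ} (hp1 : 1 ≤ p) (hp2 : p < 2) {D : ℝ} (hD : 1 < D) :
    ∃ C : ℝ, ∃ k : ℕ, ∀ n : ℕ, 2 ≤ n → ∀ R : ℝ, 1 ≤ R →
      ∃ N : ℕ, (N : ℝ) ≤ C * R ^ k * Real.log n ∧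
        ∀ (M : ℕ) (y : Fin n → Fin M → ℝ),
          (∀ i j, i ≠ j → 1 ≤ ∑ l, |y i l - y j l| ^ p ∧ ∑ l, |y i l - y j l| ^ p ≤ R) →
          ∃ F : Fin n → Fin N → ℝ, ∀ i j,
            (∑ l, |y i l - y j l| ^ p) ≤ ∑ m, |F i m - F j m| ^ p ∧
              ∑ m, |F i m - F j m| ^ p ≤ D * ∑ l, |y i l - y j l| ^ p := by
  have hp : 0 < p := by linarith
  set x := min (1 / 4) ((D - 1) / 5) with hx
  have hx0 : 0 < x := lt_min (by norm_num) (by linarith)
  have hx4 : x ≤ 1 / 4 := min_le_left _ _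
  have hxD : 1 + 5 * x ≤ D := by linarith [min_le_right (1 / 4) ((D - 1) / 5)]
  obtain ⟨K, hK, j₁, Q, hmean⟩ := exists_mean hp1 hp2 (δ := x / 20) (by positivity) (by linarith)
  set ρ := 1 + x / 20 with hρ
  have hρ1 : 1 < ρ := by linarith
  have hcp := cosMean_pos hp.le
  set B : ℝ := 4 * (K * ρ ^ (2 * Q + j₁)) / cosMean p / x ^ 2 with hB
  have hB0 : 0 ≤ B := by positivity
  refine ⟨4 * B + 2 / Real.log 2, Q, fun n hn R hR => ?_⟩
  obtain ⟨i₀, hi₀, hi₀'⟩ := exists_nat_pow_near hR hρ1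
  set j₀ := i₀ + 1 with hj₀
  set T : ℝ := level K ρ (Q * (j₀ + 1)) ^ (1 / p) / (x / 20) with hT
  obtain ⟨hTp, α, hα, hα'⟩ := hmean j₀ R hi₀'.le T rfl
  have hT0 : 0 < T := by
    have : 0 < level K ρ (Q * (j₀ + 1)) := by simp only [level]; positivity
    positivity
  set Λ : ℝ := (2 * T) ^ p / cosMean p with hΛ
  have hΛ0 : 0 < Λ := by positivity
  have hn2 : (2 : ℝ) ≤ n := by exact_mod_cast hn
  have hl0 : 0 ≤ Real.log (2 * (n : ℝ) ^ 2 + 1) := Real.log_nonneg (by nlinarith)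
  set N := ⌈4 * (1 * Λ) / x ^ 2 * Real.log (2 * (n : ℝ) ^ 2 + 1)⌉₊ + 1 with hN
  have hNpos : (0 : ℝ) < N := by rw [hN]; positivity
  refine ⟨N, ?_, ?_⟩
  · set L := Real.log (n : ℝ) with hL
    have hl2 : 0 < Real.log 2 := Real.log_pos one_lt_two
    have hL2 : Real.log 2 ≤ L := Real.log_le_log two_pos hn2
    have hlog : Real.log (2 * (n : ℝ) ^ 2 + 1) ≤ 4 * L := by
      rw [hL, show (4 : ℝ) * Real.log n = Real.log ((n : ℝ) ^ 4) by rw [Real.log_pow]; norm_num]
      refine Real.log_le_log (by positivity) ?_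
      have h4 : (4 : ℝ) ≤ (n : ℝ) ^ 2 := by nlinarith
      nlinarith
    have hΛle : 4 * (1 * Λ) / x ^ 2 ≤ B * R ^ Q := by
      have h1 : ρ ^ (Q * (j₀ + 1) + j₁) ≤ ρ ^ (2 * Q + j₁) * R ^ Q := by
        rw [show Q * (j₀ + 1) + j₁ = (2 * Q + j₁) + i₀ * Q by rw [hj₀]; ring, pow_add,
          pow_mul ρ i₀ Q]
        gcongr
      have h2 : (2 * T) ^ p ≤ K * (ρ ^ (2 * Q + j₁) * R ^ Q) :=
        hTp.trans (mul_le_mul_of_nonneg_left h1 (by linarith))
      calc 4 * (1 * Λ) / x ^ 2 ≤ 4 * (1 * (K * (ρ ^ (2 * Q + j₁) * R ^ Q) / cosMean p)) / x ^ 2 := by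
            rw [hΛ]; gcongr
        _ = B * R ^ Q := by rw [hB]; ring
    have hone : 2 ≤ 2 / Real.log 2 * R ^ Q * L := by
      have h1 : 1 ≤ R ^ Q := one_le_pow₀ hR
      calc (2 : ℝ) = 2 / Real.log 2 * 1 * Real.log 2 := by field_simp
        _ ≤ _ := by gcongr
    rw [hN]; push_cast
    calc (⌈4 * (1 * Λ) / x ^ 2 * Real.log (2 * (n : ℝ) ^ 2 + 1)⌉₊ : ℝ) + 1
        ≤ 4 * (1 * Λ) / x ^ 2 * Real.log (2 * (n : ℝ) ^ 2 + 1) + 2 := by
          linarith [(Nat.ceil_lt_add_one (show 0 ≤ 4 * (1 * Λ) / x ^ 2 *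
            Real.log (2 * (n : ℝ) ^ 2 + 1) by positivity)).le]
      _ ≤ B * R ^ Q * (4 * L) + 2 / Real.log 2 * R ^ Q * L := by
          refine add_le_add (mul_le_mul hΛle hlog hl0 (by positivity)) hone
      _ = _ := by ring
  intro M y hy
  classical
  let P := { q : Fin n × Fin n // q.1 ≠ q.2 }
  set m : P → ℝ := fun q => ∑ l, |y q.1.1 l - y q.1.2 l| ^ p with hm
  set E : P → ℝ := fun q =>
    ∫ ω, |feature p T (y q.1.1) ω - feature p T (y q.1.2) ω| ^ p ∂(law M).prod phaseLaw with hE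
  have hEb : ∀ q : P, α * m q * cosMean p ≤ E q ∧ E q ≤ (1 + x) * α * m q * cosMean p ∧
      cosMean p ≤ E q := by
    intro q
    obtain ⟨h1, h2⟩ := hy _ _ q.2
    obtain ⟨g1, g2⟩ := hα' M (y q.1.1 - y q.1.2) h1 h2
    simp only [Pi.sub_apply] at g1 g2
    rw [show 20 * (x / 20) = x by ring] at g2
    have e : E q = (∫ w, wave p T (form p (y q.1.1 - y q.1.2) w) ∂law M) * cosMean p :=
      integral_feature hp.le hT0 _ _
    rw [e]
    refine ⟨mul_le_mul_of_nonneg_right g1 hcp.le, mul_le_mul_of_nonneg_right g2 hcp.le, ?_⟩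
    refine le_mul_of_one_le_left hcp.le (le_trans ?_ g1)
    exact one_le_mul_of_one_le_of_one_le hα h1
  set s : P → (Fin M → ℝ) × ℝ → ℝ := fun q ω =>
    |feature p T (y q.1.1) ω - feature p T (y q.1.2) ω| ^ p / E q with hs
  have hE0 : ∀ q, 0 < E q := fun q => hcp.trans_le (hEb q).2.2
  obtain ⟨w, -, hw⟩ := exists_sample (μ := (law M).prod phaseLaw) s (fun _ => (1 : ℝ)) 1 Λ x
    one_pos hΛ0 hx0 (by linarith) (integrable_const _) (by simp) (fun _ => zero_le_one)
    (fun q => (integrable_feature hp.le hT0 _ _).div_const _)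
    (fun q => by simp only [hs]; rw [integral_div]; exact div_self (hE0 q).ne')
    (fun q ω => div_nonneg (rpow_nonneg (abs_nonneg _) _) (hE0 q).le)
    (fun q ω => by
      rw [mul_one]
      exact div_le_div₀ (by positivity) (feature_bound hp.le hT0 _ _ ω) hcp (hEb q).2.2)
    N (by
      have hQ : (Fintype.card P : ℝ) ≤ (n : ℝ) ^ 2 := by
        have := Fintype.card_subtype_le (fun q : Fin n × Fin n => q.1 ≠ q.2)
        rw [Fintype.card_prod, Fintype.card_fin] at this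
        rw [sq]; exact_mod_cast this
      calc 4 * (1 * Λ) / x ^ 2 * Real.log (2 * (Fintype.card P : ℝ) + 1)
          ≤ 4 * (1 * Λ) / x ^ 2 * Real.log (2 * (n : ℝ) ^ 2 + 1) := by gcongr
        _ < (N : ℝ) := by
            rw [hN]; push_cast
            linarith [Nat.le_ceil (4 * (1 * Λ) / x ^ 2 * Real.log (2 * (n : ℝ) ^ 2 + 1))])
  set c : ℝ := (1 / ((N : ℝ) * ((1 - x) * α * cosMean p))) ^ (1 / p) with hc
  have hx1 : 0 < 1 - x := by linarith
  have hden : 0 < (N : ℝ) * ((1 - x) * α * cosMean p) := by positivity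
  have hc0 : 0 < c := rpow_pos_of_pos (by positivity) _
  refine ⟨fun i l => c * feature p T (y i) (w l), fun i j => ?_⟩
  by_cases hij : i = j
  · subst hij
    simp [zero_rpow hp.ne']
  set q : P := ⟨(i, j), hij⟩ with hq
  obtain ⟨hlo, hhi⟩ := hw q
  simp only [one_mul, div_one] at hlo hhi
  have hsum : ∑ l, |c * feature p T (y i) (w l) - c * feature p T (y j) (w l)| ^ p
      = (∑ l, s q (w l)) * E q / ((N : ℝ) * ((1 - x) * α * cosMean p)) := by
    rw [Finset.sum_mul, Finset.sum_div]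
    refine Finset.sum_congr rfl fun l _ => ?_
    rw [← mul_sub, abs_mul, abs_of_pos hc0, mul_rpow hc0.le (abs_nonneg _), hc,
      ← rpow_mul (by positivity), one_div_mul_cancel hp.ne', rpow_one]
    simp only [hs, hq]
    rw [div_mul_cancel₀ _ (hE0 q).ne', mul_comm, mul_one_div]
  obtain ⟨hb1, hb2, -⟩ := hEb q
  have hS0 : 0 ≤ ∑ l, s q (w l) := (mul_nonneg hx1.le hNpos.le).trans hlo
  have hm0 : 0 < m q := by linarith [(hy i j hij).1]
  rw [hsum]
  change m q ≤ _ ∧ _ ≤ D * m q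
  constructor
  · rw [le_div_iff₀ hden]
    calc m q * ((N : ℝ) * ((1 - x) * α * cosMean p))
        = (1 - x) * N * (α * m q * cosMean p) := by ring
      _ ≤ _ := mul_le_mul hlo hb1 (by positivity) hS0
  · rw [div_le_iff₀ hden]
    calc (∑ l, s q (w l)) * E q ≤ (1 + x) * N * ((1 + x) * α * m q * cosMean p) :=
          mul_le_mul hhi hb2 (hE0 q).le (by positivity)
      _ = ((1 + x) ^ 2) * (N * α * m q * cosMean p) := by ring
      _ ≤ ((1 + 5 * x) * (1 - x)) * (N * α * m q * cosMean p) := by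
          gcongr; nlinarith
      _ ≤ (D * (1 - x)) * (N * α * m q * cosMean p) := by gcongr
      _ = _ := by ring

end Vale.Agent.P249
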