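import Vale.Agent.P249.Feature

/-!
Feature maps that are exact up to a constant below a threshold, Lipschitz on all pairs, and bounded.
-/

namespace Vale.Agent.P249

open MeasureTheory Real Finset

lemma abs_sin_nat_mul (k : ℕ) (t : ℝ) : |sin (k * t)| ≤ k * |sin t| := by
  induction k with
  | zero => simp
  | succ k ih =>
    push_cast
    rw [add_one_mul (k : ℝ) t, sin_add]
    refine (abs_add_le _ _).trans ?_
    rw [abs_mul, abs_mul, add_one_mul (k : ℝ) |sin t|]
    exact add_le_add ((mul_le_of_le_one_right (abs_nonneg _) (abs_cos_le_one _)).trans ih)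
      (mul_le_of_le_one_left (abs_nonneg _) (abs_cos_le_one _))

lemma wave_nat_mul {p T : ℝ} (hp : 0 ≤ p) (k : ℕ) (s : ℝ) :
    wave p T (k * s) ≤ (k : ℝ) ^ p * wave p T s := by
  rw [wave, wave, ← mul_rpow (by positivity) (abs_nonneg _)]
  refine rpow_le_rpow (abs_nonneg _) ?_ hp
  calc |2 * T * sin ((k : ℝ) * s / (2 * T))| = |2 * T| * |sin ((k : ℝ) * (s / (2 * T)))| := by
        rw [← abs_mul, mul_div_assoc]
    _ ≤ |2 * T| * ((k : ℝ) * |sin (s / (2 * T))|) :=
        mul_le_mul_of_nonneg_left (abs_sin_nat_mul k _) (abs_nonneg _)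
    _ = (k : ℝ) * |2 * T * sin (s / (2 * T))| := by rw [abs_mul (2 * T)]; ring

lemma integrable_wave {p T : ℝ} (hp : 0 ≤ p) (hT : 0 < T) {N : ℕ} (a : Fin N → ℝ) :
    Integrable (fun w => wave p T (form p a w)) (law N) :=
  Integrable.of_bound ((((measurable_form p a).div_const _).sin.const_mul _).norm.pow_const p
    ).aestronglyMeasurable ((2 * T) ^ p)
    (.of_forall fun w => by
      rw [Real.norm_eq_abs, abs_of_nonneg (wave_nonneg ..)]
      exact wave_le_top hp hT _)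

/-- An upper mean bound on a range of masses extends to all larger masses. -/
lemma mean_upper_all {p T R β : ℝ} (hp1 : 1 ≤ p) (hp2 : p < 2) (hT : 0 < T) (hR : 4 ≤ R) {N : ℕ}
    (h : ∀ a : Fin N → ℝ, 1 ≤ ∑ i, |a i| ^ p → ∑ i, |a i| ^ p ≤ R →
      ∫ w, wave p T (form p a w) ∂law N ≤ β * ∑ i, |a i| ^ p)
    (a : Fin N → ℝ) (ha : 1 ≤ ∑ i, |a i| ^ p) :
    ∫ w, wave p T (form p a w) ∂law N ≤ β * ∑ i, |a i| ^ p := by
  have hp : 0 < p := by linarith
  set m := ∑ i, |a i| ^ p with hm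
  by_cases hmR : m ≤ R
  · exact h a ha hmR
  push Not at hmR
  have hm0 : 0 < m := by linarith
  set k := ⌈(m / R) ^ (1 / p)⌉₊ with hk
  have hq : (1 : ℝ) ≤ (m / R) ^ (1 / p) :=
    one_le_rpow (by rw [le_div_iff₀ (by linarith)]; linarith) (by positivity)
  have hkc : (m / R) ^ (1 / p) ≤ k := Nat.le_ceil _
  have hk2 : (k : ℝ) ≤ 2 * (m / R) ^ (1 / p) := by
    have := Nat.ceil_lt_add_one (show 0 ≤ (m / R) ^ (1 / p) by positivity)
    rw [← hk] at this
    linarith
  have hk0 : (0 : ℝ) < k := by linarith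
  have e : ((m / R) ^ (1 / p)) ^ p = m / R := by
    rw [← rpow_mul (by positivity), one_div_mul_cancel hp.ne', rpow_one]
  have h1 : m / R ≤ (k : ℝ) ^ p := by
    rw [← e]; exact rpow_le_rpow (by positivity) hkc hp.le
  have h2 : (k : ℝ) ^ p ≤ m := by
    calc (k : ℝ) ^ p ≤ (2 * (m / R) ^ (1 / p)) ^ p := rpow_le_rpow hk0.le hk2 hp.le
      _ = 2 ^ p * (m / R) := by rw [mul_rpow (by norm_num) (by positivity), e]
      _ ≤ 4 * (m / R) := by
          gcongr
          calc (2 : ℝ) ^ p ≤ 2 ^ (2 : ℝ) := rpow_le_rpow_of_exponent_le (by norm_num) hp2.le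
            _ = 4 := by norm_num
      _ ≤ m := by
          rw [← mul_div_assoc, div_le_iff₀ (by linarith), mul_comm m R]
          exact mul_le_mul_of_nonneg_right hR hm0.le
  set a' : Fin N → ℝ := fun i => a i / k with ha'
  have hsum : ∑ i, |a' i| ^ p = m / (k : ℝ) ^ p := by
    rw [hm, Finset.sum_div]
    refine sum_congr rfl fun i _ => ?_
    rw [ha', abs_div, abs_of_pos hk0, div_rpow (abs_nonneg _) hk0.le]
  have hkp : 0 < (k : ℝ) ^ p := rpow_pos_of_pos hk0 p
  have hb := h a' (by rw [hsum, le_div_iff₀ hkp]; linarith)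
    (by rw [hsum, div_le_iff₀ hkp]; rw [div_le_iff₀ (by linarith)] at h1; linarith)
  have hform : ∀ w, form p a w = k * form p a' w := by
    intro w
    simp only [form, Finset.mul_sum, ha']
    refine sum_congr rfl fun i _ => ?_
    field_simp
  calc ∫ w, wave p T (form p a w) ∂law N ≤ ∫ w, (k : ℝ) ^ p * wave p T (form p a' w) ∂law N := by
        refine integral_mono (integrable_wave hp.le hT a) ((integrable_wave hp.le hT a').const_mul _)
          fun w => ?_
        rw [hform]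
        exact wave_nat_mul hp.le k _
    _ ≤ (k : ℝ) ^ p * (β * (m / (k : ℝ) ^ p)) := by
        rw [integral_const_mul, ← hsum]
        exact mul_le_mul_of_nonneg_left hb hkp.le
    _ = β * m := by field_simp

/-- Points whose nonzero distances are at least one have images in dimension `C R ^ k log n` that
keep distances below `R`, are Lipschitz on all pairs, and are bounded by `C R ^ k`. -/
theorem exists_glue_feature {p : ℝ} (hp1 : 1 ≤ p) (hp2 : p < 2) :
    ∃ C : ℝ, 1 ≤ C ∧ ∃ k : ℕ, ∀ n : ℕ, 2 ≤ n → ∀ R : ℝ, 4 ≤ R →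
      ∃ N : ℕ, (N : ℝ) ≤ C * R ^ k * Real.log n ∧
        ∀ (M : ℕ) (y : Fin n → Fin M → ℝ),
          (∀ i j, y i = y j ∨ 1 ≤ ∑ l, |y i l - y j l| ^ p) →
          ∃ F : Fin n → Fin N → ℝ, ∀ i j,
            ((∑ l, |y i l - y j l| ^ p) ≤ R →
              (∑ l, |y i l - y j l| ^ p) ≤ ∑ m, |F i m - F j m| ^ p) ∧
            ∑ m, |F i m - F j m| ^ p ≤ 4 * ∑ l, |y i l - y j l| ^ p ∧
            ∑ m, |F i m - F j m| ^ p ≤ C * R ^ k := by
  have hp : 0 < p := by linarith
  obtain ⟨K, hK, j₁, Q, hmean⟩ := exists_mean hp1 hp2 (δ := 1 / 80) (by norm_num) (by norm_num)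
  set ρ : ℝ := 1 + 1 / 80 with hρ
  have hρ1 : 1 < ρ := by norm_num [hρ]
  have hcp := cosMean_pos hp.le
  set B : ℝ := K * ρ ^ (2 * Q + j₁) / cosMean p with hB
  have hB0 : 0 ≤ B := by positivity
  have hl2 : 0 < Real.log 2 := Real.log_pos one_lt_two
  set C : ℝ := 256 * (B + 1) + 2 / Real.log 2 + 2 with hC
  have hdl : 0 ≤ 2 / Real.log 2 := by positivity
  refine ⟨C, by rw [hC]; linarith, Q, fun n hn R hR => ?_⟩
  obtain ⟨i₀, hi₀, hi₀'⟩ := exists_nat_pow_near (show (1 : ℝ) ≤ R by linarith) hρ1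
  set j₀ := i₀ + 1 with hj₀
  set T : ℝ := level K ρ (Q * (j₀ + 1)) ^ (1 / p) / (1 / 80) with hT
  obtain ⟨hTp, α, hα, hα'⟩ := hmean j₀ R hi₀'.le T rfl
  have hT0 : 0 < T := by
    have : 0 < level K ρ (Q * (j₀ + 1)) := by simp only [level]; positivity
    positivity
  have hRQ : (1 : ℝ) ≤ R ^ Q := one_le_pow₀ (by linarith)
  have hTR : (2 * T) ^ p / cosMean p ≤ B * R ^ Q := by
    rw [hB, div_mul_eq_mul_div, mul_assoc]
    gcongr
    refine hTp.trans ?_
    simp only [level]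
    gcongr
    rw [show Q * (j₀ + 1) + j₁ = (2 * Q + j₁) + i₀ * Q by rw [hj₀]; ring, pow_add, pow_mul ρ i₀ Q]
    gcongr
  set Λ : ℝ := (2 * T) ^ p / cosMean p + 1 with hΛ
  have hΛ0 : 0 < Λ := by positivity
  have hΛle : Λ ≤ (B + 1) * R ^ Q := by rw [hΛ, add_mul, one_mul]; exact add_le_add hTR hRQ
  have hn2 : (2 : ℝ) ≤ n := by exact_mod_cast hn
  set L := Real.log (n : ℝ) with hL
  have hL2 : Real.log 2 ≤ L := Real.log_le_log two_pos hn2
  have hl0 : 0 ≤ Real.log (2 * (n : ℝ) ^ 2 + 1) := Real.log_nonneg (by nlinarith)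
  set N := ⌈64 * Λ * Real.log (2 * (n : ℝ) ^ 2 + 1)⌉₊ + 1 with hN
  have hNpos : (0 : ℝ) < N := by rw [hN]; positivity
  refine ⟨N, ?_, ?_⟩
  · have hlog : Real.log (2 * (n : ℝ) ^ 2 + 1) ≤ 4 * L := by
      rw [hL, show (4 : ℝ) * Real.log n = Real.log ((n : ℝ) ^ 4) by rw [Real.log_pow]; norm_num]
      refine Real.log_le_log (by positivity) ?_
      have h4 : (4 : ℝ) ≤ (n : ℝ) ^ 2 := by nlinarith
      nlinarith
    have h1 : Λ * Real.log (2 * (n : ℝ) ^ 2 + 1) ≤ (B + 1) * R ^ Q * (4 * L) :=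
      mul_le_mul hΛle hlog hl0 (by positivity)
    have h2 : 2 ≤ 2 / Real.log 2 * R ^ Q * L := by
      calc (2 : ℝ) = 2 / Real.log 2 * 1 * Real.log 2 := by field_simp
        _ ≤ _ := by gcongr
    have hceil := Nat.ceil_lt_add_one (show 0 ≤ 64 * Λ * Real.log (2 * (n : ℝ) ^ 2 + 1) by positivity)
    have h3 : 0 ≤ R ^ Q * L := mul_nonneg (by linarith) (by linarith)
    calc (N : ℝ) ≤ 64 * (Λ * Real.log (2 * (n : ℝ) ^ 2 + 1)) + 2 := by
          rw [hN]; push_cast; linarith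
      _ ≤ 64 * ((B + 1) * R ^ Q * (4 * L)) + 2 / Real.log 2 * R ^ Q * L + 2 * (R ^ Q * L) := by
          linarith
      _ = C * R ^ Q * L := by rw [hC]; ring
  intro M y hy
  classical
  let P := { q : Fin n × Fin n // y q.1 ≠ y q.2 }
  set m : P → ℝ := fun q => ∑ l, |y q.1.1 l - y q.1.2 l| ^ p with hm
  have hm1 : ∀ q : P, 1 ≤ m q := fun q => (hy _ _).resolve_left q.2
  set Δ : P → (Fin M → ℝ) × ℝ → ℝ := fun q ω =>
    |feature p T (y q.1.1) ω - feature p T (y q.1.2) ω| ^ p with hΔ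
  set E : P → ℝ := fun q => ∫ ω, Δ q ω ∂(law M).prod phaseLaw with hE
  set U : P → ℝ := fun q => 5 / 4 * α * cosMean p * m q with hU
  have hEb : ∀ q : P, E q ≤ U q ∧ (m q ≤ R → α * cosMean p * m q ≤ E q) := by
    intro q
    have e : E q = (∫ w, wave p T (form p (y q.1.1 - y q.1.2) w) ∂law M) * cosMean p :=
      integral_feature hp.le hT0 _ _
    have hup := mean_upper_all (β := 5 / 4 * α) hp1 hp2 hT0 hR (N := M)
      (fun a ha1 ha2 => ((hα' M a ha1 ha2).2).trans (le_of_eq (by ring)))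
      (y q.1.1 - y q.1.2) (hm1 q)
    simp only [Pi.sub_apply] at hup
    refine ⟨?_, fun hqR => ?_⟩
    · rw [e]
      calc _ ≤ 5 / 4 * α * m q * cosMean p := mul_le_mul_of_nonneg_right hup hcp.le
        _ = U q := by simp only [hU]; ring
    · have hlo := (hα' M (y q.1.1 - y q.1.2) (hm1 q) hqR).1
      simp only [Pi.sub_apply] at hlo
      rw [e]
      calc α * cosMean p * m q = α * m q * cosMean p := by ring
        _ ≤ _ := mul_le_mul_of_nonneg_right hlo hcp.le
  have hUc : ∀ q, cosMean p ≤ U q := fun q => by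
    simp only [hU]
    have h : (1 : ℝ) ≤ α * m q := one_le_mul_of_one_le_of_one_le hα (hm1 q)
    nlinarith
  have hU0 : ∀ q, 0 < U q := fun q => hcp.trans_le (hUc q)
  have hΔi : ∀ q, Integrable (Δ q) ((law M).prod phaseLaw) := fun q =>
    integrable_feature hp.le hT0 _ _
  have hΔb : ∀ q ω, 0 ≤ Δ q ω ∧ Δ q ω ≤ (2 * T) ^ p := fun q ω =>
    ⟨rpow_nonneg (abs_nonneg _) _, feature_bound hp.le hT0 _ _ ω⟩
  have hE0 : ∀ q, 0 ≤ E q := fun q => integral_nonneg fun ω => (hΔb q ω).1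
  set s : P → (Fin M → ℝ) × ℝ → ℝ := fun q ω => (Δ q ω + (U q - E q)) / U q with hs
  have sint : ∀ q, Integrable (s q) ((law M).prod phaseLaw) := fun q =>
    ((hΔi q).add (integrable_const _)).div_const _
  obtain ⟨w, -, hw⟩ := exists_sample (μ := (law M).prod phaseLaw) s (fun _ => (1 : ℝ)) 1 Λ (1 / 4)
    one_pos hΛ0 (by norm_num) (by norm_num) (integrable_const _) (by simp) (fun _ => zero_le_one)
    sint
    (fun q => by
      simp only [hs]
      rw [integral_div, integral_add (hΔi q) (integrable_const _), integral_const]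
      simp only [probReal_univ, smul_eq_mul, one_mul]
      rw [← show E q = ∫ ω, Δ q ω ∂(law M).prod phaseLaw from rfl, add_sub_cancel,
        div_self (hU0 q).ne'])
    (fun q ω => div_nonneg (add_nonneg (hΔb q ω).1 (sub_nonneg.mpr (hEb q).1)) (hU0 q).le)
    (fun q ω => by
      rw [mul_one]
      simp only [hs]
      rw [div_le_iff₀ (hU0 q), hΛ, add_mul, one_mul]
      refine add_le_add ((hΔb q ω).2.trans ?_) (by linarith [hE0 q])
      rw [div_mul_eq_mul_div, le_div_iff₀ hcp]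
      exact mul_le_mul_of_nonneg_left (hUc q) (by positivity))
    N (by
      have hQ : (Fintype.card P : ℝ) ≤ (n : ℝ) ^ 2 := by
        have := Fintype.card_subtype_le (fun q : Fin n × Fin n => y q.1 ≠ y q.2)
        rw [Fintype.card_prod, Fintype.card_fin] at this
        rw [sq]; exact_mod_cast this
      calc 4 * (1 * Λ) / (1 / 4) ^ 2 * Real.log (2 * (Fintype.card P : ℝ) + 1)
          ≤ 64 * Λ * Real.log (2 * (n : ℝ) ^ 2 + 1) := by
            rw [show 4 * (1 * Λ) / (1 / 4) ^ 2 = 64 * Λ by ring]; gcongr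
        _ < (N : ℝ) := by
            rw [hN]; push_cast
            linarith [Nat.le_ceil (64 * Λ * Real.log (2 * (n : ℝ) ^ 2 + 1))])
  set c : ℝ := (2 / ((N : ℝ) * (α * cosMean p))) ^ (1 / p) with hc
  have hden : 0 < (N : ℝ) * (α * cosMean p) := by positivity
  refine ⟨fun i l => c * feature p T (y i) (w l), fun i j => ?_⟩
  have hcp' : c ^ p = 2 / ((N : ℝ) * (α * cosMean p)) := by
    rw [hc, ← rpow_mul (by positivity), one_div_mul_cancel hp.ne', rpow_one]
  have hc0 : 0 ≤ c := by positivity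
  by_cases hij : y i = y j
  · simp [hij, zero_rpow hp.ne']
    positivity
  set q : P := ⟨(i, j), hij⟩ with hq
  have hsum : ∑ l, |c * feature p T (y i) (w l) - c * feature p T (y j) (w l)| ^ p
      = c ^ p * ∑ l, Δ q (w l) := by
    rw [Finset.mul_sum]
    refine Finset.sum_congr rfl fun l _ => ?_
    rw [← mul_sub, abs_mul, abs_of_nonneg hc0, mul_rpow hc0 (abs_nonneg _)]
  have hS : ∑ l, s q (w l) = (∑ l, Δ q (w l) + N * (U q - E q)) / U q := by
    simp only [hs]
    rw [← Finset.sum_div, Finset.sum_add_distrib, Finset.sum_const, Finset.card_univ,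
      Fintype.card_fin, nsmul_eq_mul]
  obtain ⟨hlo, hhi⟩ := hw q
  simp only [one_mul, div_one] at hlo hhi
  rw [hS, le_div_iff₀ (hU0 q)] at hlo
  rw [hS, div_le_iff₀ (hU0 q)] at hhi
  obtain ⟨hb1, hb2⟩ := hEb q
  rw [hsum, hcp']
  change (m q ≤ R → m q ≤ _) ∧ _ ≤ 4 * m q ∧ _
  have hNU : 0 ≤ (N : ℝ) * (U q - E q) := mul_nonneg hNpos.le (sub_nonneg.mpr hb1)
  have eU : (N : ℝ) * U q = 5 / 4 * ((N : ℝ) * (α * cosMean p)) * m q := by simp only [hU]; ring
  have hm0 : 0 < m q := lt_of_lt_of_le one_pos (hm1 q)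
  have hdm : 0 ≤ (N : ℝ) * (α * cosMean p) * m q := (mul_pos hden hm0).le
  refine ⟨fun hR' => ?_, ?_, ?_⟩
  · rw [div_mul_eq_mul_div, le_div_iff₀ hden, mul_comm (m q)]
    have hNE : (N : ℝ) * (α * cosMean p) * m q ≤ (N : ℝ) * E q := by
      rw [mul_assoc]; exact mul_le_mul_of_nonneg_left (hb2 hR') hNpos.le
    linarith
  · rw [div_mul_eq_mul_div, div_le_iff₀ hden, mul_comm (4 * m q)]
    linarith
  · have h1 : ∑ l, Δ q (w l) ≤ (N : ℝ) * (2 * T) ^ p := by
      refine (Finset.sum_le_card_nsmul _ _ _ fun l _ => (hΔb q (w l)).2).trans ?_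
      simp
    calc 2 / ((N : ℝ) * (α * cosMean p)) * ∑ l, Δ q (w l)
        ≤ 2 / ((N : ℝ) * (α * cosMean p)) * ((N : ℝ) * (2 * T) ^ p) :=
          mul_le_mul_of_nonneg_left h1 (by positivity)
      _ = 2 * ((2 * T) ^ p / cosMean p) / α := by field_simp
      _ ≤ 2 * ((2 * T) ^ p / cosMean p) := div_le_self (by positivity) hα
      _ ≤ 2 * (B * R ^ Q) := by gcongr
      _ ≤ C * R ^ Q := by
          rw [← mul_assoc, hC]
          gcongr
          linarith

end Vale.Agent.P249
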