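import Mathlib

/-!
Choice of sign vectors: each pair keeps its signal in a fifth of the copies, and triangle bounds.
-/

namespace Vale.Agent.P249

open Finset

/-- If every event has probability at least one half, some sample of size `5 * m` meets each of
fewer than `2 ^ m` events at least `m` times. -/
lemma exists_balanced_sample {S Q : Type*} [Fintype S] [Nonempty S] [Fintype Q]
    (good : Q → S → Prop) [∀ q, DecidablePred (good q)]
    (hhalf : ∀ q, (univ.filter fun s => ¬good q s).card ≤ (univ.filter fun s => good q s).card)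
    {m : ℕ} (hQ : Fintype.card Q < 2 ^ m) :
    ∃ f : Fin (5 * m) → S, ∀ q, m ≤ (univ.filter fun t => good q (f t)).card := by
  classical
  by_contra hcon
  push Not at hcon
  set w : Q → S → ℝ := fun q s => if good q s then 1 / 2 else 1 with hw
  have hS : (0 : ℝ) < Fintype.card S := by exact_mod_cast Fintype.card_pos
  have hone : ∀ q, ∑ s, w q s ≤ 3 / 4 * Fintype.card S := by
    intro q
    have hg : (univ.filter fun s => good q s).card + (univ.filter fun s => ¬good q s).card
        = Fintype.card S := by
      rw [Finset.card_filter_add_card_filter_not, Finset.card_univ]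
    have hh : ((univ.filter fun s => ¬good q s).card : ℝ) ≤ (univ.filter fun s => good q s).card := by
      exact_mod_cast hhalf q
    have hg' : ((univ.filter fun s => good q s).card : ℝ) + (univ.filter fun s => ¬good q s).card
        = Fintype.card S := by exact_mod_cast hg
    simp only [hw, Finset.sum_ite, Finset.sum_const, nsmul_eq_mul]
    linarith
  have hbad : ∀ f : Fin (5 * m) → S, (1 / 2 : ℝ) ^ m ≤ ∑ q, ∏ t, w q (f t) := by
    intro f
    obtain ⟨q, hq⟩ := hcon f
    refine le_trans ?_ (Finset.single_le_sum (f := fun q => ∏ t, w q (f t))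
      (fun q _ => prod_nonneg fun t _ => by simp only [hw]; split_ifs <;> norm_num) (mem_univ q))
    have : ∏ t, w q (f t) = (1 / 2 : ℝ) ^ (univ.filter fun t => good q (f t)).card := by
      simp only [hw, Finset.prod_ite, Finset.prod_const, one_pow, mul_one]
    rw [this]
    exact pow_le_pow_of_le_one (by norm_num) (by norm_num) hq.le
  have htot := Finset.sum_le_sum fun f (_ : f ∈ univ) => hbad f
  rw [Finset.sum_comm, Finset.sum_const, Finset.card_univ, Fintype.card_fun, Fintype.card_fin,
    nsmul_eq_mul, Nat.cast_pow] at htot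
  have hup : ∑ q, ∑ f : Fin (5 * m) → S, ∏ t, w q (f t)
      ≤ (Fintype.card Q : ℝ) * (3 / 4 * Fintype.card S) ^ (5 * m) := by
    refine (Finset.sum_le_card_nsmul _ _ ((3 / 4 * Fintype.card S : ℝ) ^ (5 * m))
      fun q _ => ?_).trans (le_of_eq ?_)
    · rw [← Fintype.sum_pow]
      exact pow_le_pow_left₀ (sum_nonneg fun s _ => by
        simp only [hw]; split_ifs <;> norm_num) (hone q) _
    · rw [nsmul_eq_mul, Finset.card_univ]
  have hQ' : (Fintype.card Q : ℝ) < 2 ^ m := by exact_mod_cast hQ
  have hfin := htot.trans hup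
  rw [mul_pow, pow_mul (3 / 4 : ℝ)] at hfin
  have hSp : (0 : ℝ) < (Fintype.card S : ℝ) ^ (5 * m) := pow_pos hS _
  have h1 : ((1 : ℝ) / 2) ^ m ≤ (Fintype.card Q : ℝ) * ((3 / 4) ^ 5) ^ m :=
    le_of_mul_le_mul_left (hfin.trans_eq (by ring)) hSp
  have h2 : (Fintype.card Q : ℝ) * ((3 / 4) ^ 5) ^ m < 2 ^ m * ((3 / 4) ^ 5) ^ m :=
    mul_lt_mul_of_pos_right hQ' (by positivity)
  rw [← mul_pow] at h2
  have h3 : ((2 : ℝ) * (3 / 4) ^ 5) ^ m ≤ (1 / 2) ^ m := pow_le_pow_left₀ (by norm_num) (by norm_num) m
  linarith

variable {V : Type*} [NormedAddCommGroup V] [NormedSpace ℝ V] {J : Type*} [Fintype J] [DecidableEq J]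

/-- Sum with signs. -/
noncomputable def signed (u : J → V) (s : J → Bool) : V :=
  ∑ j, (if s j then (1 : ℝ) else -1) • u j

omit [DecidableEq J] in
lemma norm_signed_le (u : J → V) (s : J → Bool) : ‖signed u s‖ ≤ ∑ j, ‖u j‖ := by
  refine (norm_sum_le _ _).trans (le_of_eq (sum_congr rfl fun j _ => ?_))
  split_ifs <;> simp

omit [DecidableEq J] in
lemma signed_sub (u u' : J → V) (s : J → Bool) :
    signed u s - signed u' s = signed (fun j => u j - u' j) s := by
  simp [signed, Finset.sum_sub_distrib, smul_sub]

/-- Reversing the sign of one summand preserves it in at least half of the sums. -/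
lemma half_good (u : J → V) (j₀ : J) :
    (univ.filter fun s : J → Bool => ¬‖u j₀‖ ≤ ‖signed u s‖).card
      ≤ (univ.filter fun s : J → Bool => ‖u j₀‖ ≤ ‖signed u s‖).card := by
  refine Finset.card_le_card_of_injOn (fun s => Function.update s j₀ (!s j₀)) ?_ ?_
  · intro s hs
    simp only [coe_filter, mem_univ, true_and, Set.mem_setOf_eq, not_le] at hs ⊢
    set s' := Function.update s j₀ (!s j₀) with hs'
    have e : signed u s - signed u s' = (2 * (if s j₀ then (1 : ℝ) else -1)) • u j₀ := by
      rw [signed, signed, ← Finset.sum_sub_distrib,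
        Finset.sum_eq_single j₀ (fun j _ hj => by simp [hs', hj]) (fun h => absurd (mem_univ _) h)]
      rw [← sub_smul]
      congr 1
      cases h : s j₀ <;> norm_num [hs', h]
    have := norm_sub_le (signed u s) (signed u s')
    rw [e, norm_smul] at this
    have h2 : ‖(2 * if s j₀ then (1 : ℝ) else -1)‖ = 2 := by cases s j₀ <;> norm_num
    rw [h2] at this
    linarith
  · intro a _ b _ hab
    funext j
    have := congrFun hab j
    by_cases hj : j = j₀
    · subst hj; simpa using this
    · simpa [hj] using this

end Vale.Agent.P249
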