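import Mathlib

/-!
Extending a map from a net to all points by averaging over balls, uniformly in the logarithm of
the radius.
-/

namespace Vale.Agent.P249

open MeasureTheory Real Finset

variable {ι : Type*} [Fintype ι] [DecidableEq ι] {V : Type*} [NormedAddCommGroup V] [NormedSpace ℝ V]

/-- Average over a finite set. -/
noncomputable def mean (S : Finset ι) (h : ι → V) : V := (S.card : ℝ)⁻¹ • ∑ z ∈ S, h z

omit [Fintype ι] [DecidableEq ι] in
lemma sub_mean {S : Finset ι} (hS : S.Nonempty) (h : ι → V) (c : V) :
    c - mean S h = (S.card : ℝ)⁻¹ • ∑ z ∈ S, (c - h z) := by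
  have : (S.card : ℝ) ≠ 0 := by exact_mod_cast hS.card_pos.ne'
  rw [mean, Finset.sum_sub_distrib, Finset.sum_const, ← Nat.cast_smul_eq_nsmul ℝ, smul_sub,
    inv_smul_smul₀ this]

omit [Fintype ι] [DecidableEq ι] in
lemma norm_sub_mean_le {S : Finset ι} (hS : S.Nonempty) (h : ι → V) (c : V) (b : ℝ)
    (hb : ∀ z ∈ S, ‖c - h z‖ ≤ b) : ‖c - mean S h‖ ≤ b := by
  have hc : (0 : ℝ) < S.card := by exact_mod_cast hS.card_pos
  rw [sub_mean hS, norm_smul, norm_inv, Real.norm_natCast, inv_mul_le_iff₀ hc]
  refine (norm_sum_le _ _).trans ((Finset.sum_le_card_nsmul _ _ b hb).trans ?_)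
  rw [nsmul_eq_mul]

omit [Fintype ι] in
/-- Averages over nested sets differ by the oscillation times the missing proportion. -/
lemma norm_mean_sub_mean_le {S U : Finset ι} (hUS : U ⊆ S) (hU : U.Nonempty) (h : ι → V) (o : ℝ)
    (ho : ∀ z ∈ S, ∀ z' ∈ U, ‖h z - h z'‖ ≤ o) :
    ‖mean S h - mean U h‖ ≤ (1 - (U.card : ℝ) / S.card) * o := by
  have hS : S.Nonempty := hU.mono hUS
  have hSc : (0 : ℝ) < S.card := by exact_mod_cast hS.card_pos
  have hzero : ∑ z ∈ U, (h z - mean U h) = 0 := by
    have : (U.card : ℝ) ≠ 0 := by exact_mod_cast hU.card_pos.ne'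
    rw [Finset.sum_sub_distrib, Finset.sum_const, mean, ← Nat.cast_smul_eq_nsmul ℝ,
      smul_inv_smul₀ this, sub_self]
  have e : mean S h - mean U h = (S.card : ℝ)⁻¹ • ∑ z ∈ S \ U, (h z - mean U h) := by
    have h1 : ∑ z ∈ S \ U, (h z - mean U h) = ∑ z ∈ S, (h z - mean U h) := by
      rw [← Finset.sum_sdiff hUS, hzero, add_zero]
    rw [h1, Finset.sum_sub_distrib, Finset.sum_const, ← Nat.cast_smul_eq_nsmul ℝ, smul_sub,
      inv_smul_smul₀ hSc.ne']
    rfl
  rw [e, norm_smul, norm_inv, Real.norm_natCast, inv_mul_le_iff₀ hSc]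
  refine (norm_sum_le _ _).trans ((Finset.sum_le_card_nsmul _ _ o fun z hz =>
    norm_sub_mean_le hU h (h z) o fun z' hz' => ho z (Finset.mem_sdiff.mp hz).1 z' hz').trans ?_)
  have hle := Finset.card_le_card hUS
  rw [nsmul_eq_mul, Finset.card_sdiff_of_subset hUS, Nat.cast_sub hle, ← mul_assoc]
  refine le_of_eq ?_
  field_simp

variable (d : ι → ι → ℝ)

/-- Closed ball. -/
noncomputable def ball (x : ι) (r : ℝ) : Finset ι := univ.filter fun z => d x z ≤ r

/-- Logarithm of the number of points in a ball. -/
noncomputable def logBall (x : ι) (r : ℝ) : ℝ := Real.log (max 1 ((ball d x r).card : ℝ))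

omit [DecidableEq ι] in
lemma logBall_mono (x : ι) : Monotone (logBall d x) := by
  intro r s hrs
  refine Real.log_le_log (lt_max_of_lt_left one_pos) (max_le_max le_rfl ?_)
  refine Nat.cast_le.mpr (Finset.card_le_card fun z hz => ?_)
  simp only [ball, mem_filter, mem_univ, true_and] at hz ⊢
  exact hz.trans hrs

omit [DecidableEq ι] in
lemma logBall_bounds (x : ι) (r : ℝ) [Nonempty ι] :
    0 ≤ logBall d x r ∧ logBall d x r ≤ Real.log (Fintype.card ι) := by
  refine ⟨Real.log_nonneg (le_max_left _ _), Real.log_le_log (lt_max_of_lt_left one_pos) ?_⟩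
  exact max_le (by exact_mod_cast Fintype.card_pos) (by exact_mod_cast Finset.card_le_univ _)

/-- The ball averages, averaged in the logarithm of the radius. -/
noncomputable def smooth (η a : ℝ) (h : ι → V) (x : ι) : V :=
  (Real.log (a / η))⁻¹ • ∫ r in η..a, r⁻¹ • mean (ball d x r) h

omit [DecidableEq ι] in
lemma integrable_smooth (h : ι → V) (x : ι) {u v : ℝ} (hu : 0 < u) (huv : u ≤ v) :
    IntervalIntegrable (fun r => r⁻¹ • mean (ball d x r) h) volume u v := by
  classical
  rw [intervalIntegrable_iff_integrableOn_Ioc_of_le huv]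
  have h1 : StronglyMeasurable fun r => ∑ z ∈ ball d x r, h z := by
    simp only [ball, Finset.sum_filter]
    refine Finset.stronglyMeasurable_fun_sum _ fun z _ => ?_
    exact StronglyMeasurable.ite measurableSet_Ici stronglyMeasurable_const stronglyMeasurable_const
  have h2 : StronglyMeasurable fun r => ((ball d x r).card : ℝ)⁻¹ := by
    refine Measurable.stronglyMeasurable (Measurable.inv ?_)
    have : Monotone fun r => ((ball d x r).card : ℝ) := fun r s hrs =>
      Nat.cast_le.mpr (Finset.card_le_card fun z hz => by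
        simp only [ball, mem_filter, mem_univ, true_and] at hz ⊢
        exact hz.trans hrs)
    exact this.measurable
  have hm : StronglyMeasurable fun r => r⁻¹ • mean (ball d x r) h :=
    measurable_inv.stronglyMeasurable.smul (h2.smul h1)
  refine Measure.integrableOn_of_bounded (M := u⁻¹ * ∑ z, ‖h z‖) measure_Ioc_lt_top.ne
    hm.aestronglyMeasurable ?_
  refine (ae_restrict_iff' measurableSet_Ioc).mpr (.of_forall fun r hr => ?_)
  rw [norm_smul, norm_inv, Real.norm_of_nonneg (by linarith [hr.1] : 0 ≤ r)]
  refine mul_le_mul (inv_anti₀ hu hr.1.le) ?_ (norm_nonneg _) (by positivity)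
  rw [mean, norm_smul, norm_inv, Real.norm_natCast]
  rcases Nat.eq_zero_or_pos (ball d x r).card with h0 | h0
  · rw [h0, Nat.cast_zero, inv_zero, zero_mul]; exact sum_nonneg fun z _ => norm_nonneg _
  · refine (mul_le_of_le_one_left (norm_nonneg _) (inv_le_one_of_one_le₀ (by exact_mod_cast h0))).trans ?_
    exact (norm_sum_le _ _).trans (sum_le_univ_sum_of_nonneg fun z => norm_nonneg _)

variable {d}

omit [DecidableEq ι] in
lemma norm_sub_ball_le (hd0 : ∀ x, d x x = 0) (h : ι → V) {C η : ℝ} (hC : 0 ≤ C)
    (hloc : ∀ z z', ‖h z - h z'‖ ≤ C * (d z z' + η)) (x : ι) {r : ℝ} (hr : 0 ≤ r) :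
    ‖h x - mean (ball d x r) h‖ ≤ C * (r + η) := by
  refine norm_sub_mean_le ⟨x, by simp [ball, hd0, hr]⟩ h _ _ fun z hz => ?_
  simp only [ball, mem_filter, mem_univ, true_and] at hz
  exact (hloc x z).trans (mul_le_mul_of_nonneg_left (by linarith) hC)

variable [CompleteSpace V]

omit [DecidableEq ι] in
/-- The smoothed map stays close to the original one. -/
lemma norm_smooth_sub_le (hd0 : ∀ x, d x x = 0) (h : ι → V) {C η a : ℝ} (hC : 0 ≤ C)
    (hη : 0 < η) (hηa : η ≤ a) (hA : 1 ≤ Real.log (a / η))
    (hloc : ∀ z z', ‖h z - h z'‖ ≤ C * (d z z' + η)) (x : ι) :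
    ‖smooth d η a h x - h x‖ ≤ 2 * C * a := by
  set L := Real.log (a / η) with hL
  have hi := integrable_smooth d h x hη hηa
  have hinv : IntervalIntegrable (fun r : ℝ => r⁻¹) volume η a :=
    (ContinuousOn.inv₀ continuousOn_id fun r hr => by
      rw [Set.uIcc_of_le hηa] at hr; exact (lt_of_lt_of_le hη hr.1).ne').intervalIntegrable
  have hc : IntervalIntegrable (fun r : ℝ => r⁻¹ • h x) volume η a :=
    ⟨hinv.1.smul_const _, hinv.2.smul_const _⟩
  have e : smooth d η a h x - h x
      = L⁻¹ • ∫ r in η..a, (r⁻¹ • mean (ball d x r) h - r⁻¹ • h x) := by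
    rw [intervalIntegral.integral_sub hi hc, intervalIntegral.integral_smul_const,
      integral_inv_of_pos hη (hη.trans_le hηa), ← hL, smul_sub, smul_smul,
      inv_mul_cancel₀ (by linarith), one_smul]
    rfl
  rw [e, norm_smul, norm_inv, Real.norm_of_nonneg (by linarith)]
  have hb : ‖∫ r in η..a, (r⁻¹ • mean (ball d x r) h - r⁻¹ • h x)‖ ≤ 2 * C * |a - η| := by
    refine intervalIntegral.norm_integral_le_of_norm_le_const fun r hr => ?_
    rw [Set.uIoc_of_le hηa] at hr
    have hr0 : 0 < r := hη.trans hr.1
    rw [← smul_sub, norm_smul, norm_inv, Real.norm_of_nonneg hr0.le, inv_mul_le_iff₀ hr0,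
      norm_sub_rev]
    refine (norm_sub_ball_le hd0 h hC hloc x hr0.le).trans ?_
    calc C * (r + η) ≤ C * (2 * r) := mul_le_mul_of_nonneg_left (by linarith [hr.1]) hC
      _ = r * (2 * C) := by ring
  rw [inv_mul_le_iff₀ (by linarith)]
  refine hb.trans ?_
  rw [abs_of_nonneg (by linarith)]
  calc 2 * C * (a - η) ≤ 1 * (2 * C * a) := by
        rw [one_mul]; exact mul_le_mul_of_nonneg_left (by linarith) (by positivity)
    _ ≤ L * (2 * C * a) := mul_le_mul_of_nonneg_right hA (by
        have : 0 ≤ a := by linarith
        positivity)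

/-- The smoothed map is Lipschitz with the logarithmic growth of balls over the window. -/
lemma norm_smooth_sub_smooth_le (hd0 : ∀ x, d x x = 0) (hsym : ∀ x y, d x y = d y x)
    (htri : ∀ x y z, d x z ≤ d x y + d y z) (h : ι → V) {C η a : ℝ} (hC : 0 ≤ C)
    (hη : 0 < η) (hηa : η < a) (hloc : ∀ z z', ‖h z - h z'‖ ≤ C * (d z z' + η)) (x y : ι) :
    ‖smooth d η a h x - smooth d η a h y‖ ≤ C * d x y * ((if η < 2 * d x y then 11 else 0) +
      16 * (logBall d x (2 * a) - logBall d x (η / 2)) / Real.log (a / η)) := by
  set t := d x y with ht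
  have ht0 : 0 ≤ t := by
    have := htri x y x
    rw [hd0, hsym y x] at this
    linarith
  set L := Real.log (a / η) with hL
  have hL0 : 0 < L := Real.log_pos (by rw [lt_div_iff₀ hη]; linarith)
  set s := min a (max η (2 * t)) with hs
  have hs1 : η ≤ s := le_min hηa.le (le_max_left _ _)
  have hs2 : s ≤ a := min_le_left _ _
  set f : ι → ℝ → V := fun z r => r⁻¹ • mean (ball d z r) h with hf
  have hi : ∀ z u v, η ≤ u → u ≤ v → IntervalIntegrable (f z) volume u v := fun z u v hu huv =>
    integrable_smooth d h z (hη.trans_le hu) huv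
  have e : smooth d η a h x - smooth d η a h y = L⁻¹ • ((∫ r in η..s, (f x r - f y r))
      + ∫ r in s..a, (f x r - f y r)) := by
    rw [intervalIntegral.integral_add_adjacent_intervals ((hi x _ _ le_rfl hs1).sub
      (hi y _ _ le_rfl hs1)) ((hi x _ _ hs1 hs2).sub (hi y _ _ hs1 hs2)),
      intervalIntegral.integral_sub (hi x _ _ le_rfl hηa.le) (hi y _ _ le_rfl hηa.le), smul_sub]
    rfl
  have hlow : ‖∫ r in η..s, (f x r - f y r)‖
      ≤ C * t * ((if η < 2 * t then 11 else 0) * L) := by
    by_cases hcase : η < 2 * t
    · rw [if_pos hcase]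
      have hs3 : s ≤ 2 * t := (min_le_right _ _).trans (max_le hcase.le le_rfl)
      have hgi : IntervalIntegrable (fun r : ℝ => C * (11 * t) * r⁻¹) volume η s :=
        (ContinuousOn.mul continuousOn_const (ContinuousOn.inv₀ continuousOn_id fun r hr => by
          rw [Set.uIcc_of_le hs1] at hr; exact (lt_of_lt_of_le hη hr.1).ne')).intervalIntegrable
      refine (intervalIntegral.norm_integral_le_of_norm_le hs1 (g := fun r => C * (11 * t) * r⁻¹)
        (.of_forall fun r hr => ?_) hgi).trans ?_
      · have hr0 : 0 < r := hη.trans hr.1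
        have hr2 : r ≤ 2 * t := hr.2.trans hs3
        simp only [hf]
        rw [← smul_sub, norm_smul, norm_inv, Real.norm_of_nonneg hr0.le, mul_comm]
        refine mul_le_mul_of_nonneg_right ?_ (by positivity)
        have h1 := norm_sub_ball_le hd0 h hC hloc x hr0.le
        have h2 := norm_sub_ball_le hd0 h hC hloc y hr0.le
        have h3 := hloc x y
        calc ‖mean (ball d x r) h - mean (ball d y r) h‖
            = ‖(h y - mean (ball d y r) h) - (h x - mean (ball d x r) h) + (h x - h y)‖ := by
              congr 1; abel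
          _ ≤ C * (r + η) + C * (r + η) + C * (t + η) :=
              (norm_add_le _ _).trans (add_le_add ((norm_sub_le _ _).trans (add_le_add h2 h1)) h3)
          _ = C * (2 * r + 3 * η + t) := by ring
          _ ≤ C * (11 * t) := mul_le_mul_of_nonneg_left (by linarith [hr.1]) hC
      · rw [intervalIntegral.integral_const_mul, integral_inv_of_pos hη (hη.trans_le hs1)]
        calc C * (11 * t) * Real.log (s / η) ≤ C * (11 * t) * L := by
              refine mul_le_mul_of_nonneg_left ?_ (by positivity)
              have : 0 < s := hη.trans_le hs1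
              exact Real.log_le_log (by positivity) (by gcongr)
          _ = C * t * (11 * L) := by ring
    · rw [if_neg hcase]
      push Not at hcase
      have : s = η := by rw [hs, max_eq_left hcase, min_eq_right hηa.le]
      simp [this]
  have hhigh : ‖∫ r in s..a, (f x r - f y r)‖
      ≤ C * t * (16 * (logBall d x (2 * a) - logBall d x (η / 2))) := by
    set g := logBall d x with hg
    have hgm : Monotone g := logBall_mono d x
    have hnn : 0 ≤ g (2 * a) - g (η / 2) := sub_nonneg.mpr (hgm (by linarith))
    rcases eq_or_lt_of_le hs2 with hsa | hsa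
    · rw [hsa, intervalIntegral.integral_same, norm_zero]; positivity
    have hs4 : 2 * t ≤ s := by
      rw [hs] at hsa ⊢
      rw [min_eq_right (by
        by_contra hcon
        push Not at hcon
        rw [min_eq_left hcon.le] at hsa
        exact lt_irrefl _ hsa)]
      exact le_max_right _ _
    have hgI : ∀ u v, IntervalIntegrable g volume u v := fun u v => hgm.intervalIntegrable
    have hgp : IntervalIntegrable (fun r => g (r + t)) volume s a := by
      simpa using (hgI (s + t) (a + t)).comp_add_right t
    have hgn : IntervalIntegrable (fun r => g (r - t)) volume s a := by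
      simpa using (hgI (s - t) (a - t)).comp_sub_right t
    have hgi : IntervalIntegrable (fun r => 8 * C * (g (r + t) - g (r - t))) volume s a :=
      (hgp.sub hgn).const_mul _
    refine (intervalIntegral.norm_integral_le_of_norm_le hs2
      (g := fun r => 8 * C * (g (r + t) - g (r - t))) (.of_forall fun r hr => ?_) hgi).trans ?_
    · have hr0 : 0 < r := (hη.trans_le hs1).trans hr.1
      have hrt : 2 * t ≤ r := hs4.trans hr.1.le
      have hrη : η ≤ r := hs1.trans hr.1.le
      simp only [hf]
      rw [← smul_sub, norm_smul, norm_inv, Real.norm_of_nonneg hr0.le, inv_mul_le_iff₀ hr0]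
      set U := ball d x (r - t) with hU
      set W := ball d x (r + t) with hW
      have hUne : U.Nonempty := ⟨x, by simp [hU, ball, hd0]; linarith⟩
      have key : ∀ z : ι, U ⊆ ball d z r → ball d z r ⊆ W →
          ‖mean (ball d z r) h - mean U h‖ ≤ 4 * C * r * (g (r + t) - g (r - t)) := by
        intro z hz1 hz2
        have ho : ∀ z₁ ∈ ball d z r, ∀ z₂ ∈ U, ‖h z₁ - h z₂‖ ≤ 4 * C * r := by
          intro z₁ h1 z₂ h2
          have h1' : d x z₁ ≤ r + t := by simpa [hW, ball] using hz2 h1
          have h2' : d x z₂ ≤ r - t := by simpa [hU, ball] using h2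
          refine (hloc z₁ z₂).trans ?_
          have := htri z₁ x z₂
          rw [hsym z₁ x] at this
          calc C * (d z₁ z₂ + η) ≤ C * (4 * r) := mul_le_mul_of_nonneg_left (by linarith) hC
            _ = 4 * C * r := by ring
        refine (norm_mean_sub_mean_le hz1 hUne h _ ho).trans ?_
        rw [mul_comm]
        refine mul_le_mul_of_nonneg_left ?_ (by positivity)
        have hu : (0 : ℝ) < U.card := by exact_mod_cast hUne.card_pos
        have hu1 : (1 : ℝ) ≤ U.card := by exact_mod_cast hUne.card_pos
        have hzU : (U.card : ℝ) ≤ (ball d z r).card := by exact_mod_cast Finset.card_le_card hz1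
        have hzW : ((ball d z r).card : ℝ) ≤ W.card := by exact_mod_cast Finset.card_le_card hz2
        have hgr : g (r + t) = Real.log (W.card : ℝ) := by
          simp only [hg, logBall, ← hW]; rw [max_eq_right (by linarith)]
        have hgl : g (r - t) = Real.log (U.card : ℝ) := by
          simp only [hg, logBall, ← hU]; rw [max_eq_right hu1]
        have hw : (0 : ℝ) < W.card := by linarith
        have := Real.one_sub_inv_le_log_of_pos (show 0 < (W.card : ℝ) / U.card by positivity)
        rw [inv_div, Real.log_div hw.ne' hu.ne'] at this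
        rw [hgr, hgl]
        refine le_trans ?_ this
        exact sub_le_sub_left (div_le_div_of_nonneg_left hu.le (by linarith) hzW) 1
      have hx := key x (fun z hz => by simp [hU, ball] at hz ⊢; linarith)
        (fun z hz => by simp [hW, ball] at hz ⊢; linarith)
      have hy := key y (fun z hz => by
          simp [hU, ball] at hz ⊢
          have := htri y x z
          rw [hsym y x, ← ht] at this
          linarith)
        (fun z hz => by
          simp [hW, ball] at hz ⊢
          have := htri x y z
          rw [← ht] at this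
          linarith)
      calc ‖mean (ball d x r) h - mean (ball d y r) h‖
          = ‖(mean (ball d x r) h - mean U h) - (mean (ball d y r) h - mean U h)‖ := by
            congr 1; abel
        _ ≤ _ := norm_sub_le _ _
        _ ≤ _ := add_le_add hx hy
        _ = r * (8 * C * (g (r + t) - g (r - t))) := by ring
    · rw [intervalIntegral.integral_const_mul, intervalIntegral.integral_sub hgp hgn,
        intervalIntegral.integral_comp_add_right, intervalIntegral.integral_comp_sub_right,
        intervalIntegral.integral_interval_sub_interval_comm' (hgI _ _) (hgI _ _) (hgI _ _)]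
      have h1 : ∫ r in (a - t)..(a + t), g r ≤ 2 * t * g (2 * a) := by
        calc ∫ r in (a - t)..(a + t), g r ≤ ∫ _ in (a - t)..(a + t), g (2 * a) :=
              intervalIntegral.integral_mono_on (by linarith) (hgI _ _) intervalIntegrable_const
                fun r hr => hgm (by linarith [hr.2])
          _ = _ := by rw [intervalIntegral.integral_const, smul_eq_mul]; ring
      have h2 : 2 * t * g (η / 2) ≤ ∫ r in (s - t)..(s + t), g r := by
        calc 2 * t * g (η / 2) = ∫ _ in (s - t)..(s + t), g (η / 2) := by
              rw [intervalIntegral.integral_const, smul_eq_mul]; ring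
          _ ≤ _ := intervalIntegral.integral_mono_on (by linarith) intervalIntegrable_const (hgI _ _)
                fun r hr => hgm (by linarith [hr.1])
      calc 8 * C * ((∫ r in (a - t)..(a + t), g r) - ∫ r in (s - t)..(s + t), g r)
          ≤ 8 * C * (2 * t * g (2 * a) - 2 * t * g (η / 2)) :=
            mul_le_mul_of_nonneg_left (by linarith) (by positivity)
        _ = _ := by ring
  rw [e, norm_smul, norm_inv, Real.norm_of_nonneg hL0.le, inv_mul_le_iff₀ hL0]
  refine (norm_add_le _ _).trans ((add_le_add hlow hhigh).trans (le_of_eq ?_))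
  field_simp

end Vale.Agent.P249
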