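import Vale.Agent.P249.GlueFeature
import Vale.Agent.P249.GlueSmooth
import Vale.Agent.P249.GlueSigns

/-!
Windows of scales glued by random signs.
-/

namespace Vale.Agent.P249

open Real Finset

/-- `ℓ_p^N`. -/
abbrev Lq (p : ℝ) (N : ℕ) := PiLp (ENNReal.ofReal p) fun _ : Fin N => ℝ

lemma lq_norm {p : ℝ} (hp : 0 < p) {N : ℕ} (v : Lq p N) :
    ‖v‖ = (∑ i, |v i| ^ p) ^ (1 / p) := by
  rw [PiLp.norm_eq_sum (by rw [ENNReal.toReal_ofReal hp.le]; exact hp), ENNReal.toReal_ofReal hp.le]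
  rfl

lemma lq_norm_pow {p : ℝ} (hp : 0 < p) {N : ℕ} (v : Lq p N) : ‖v‖ ^ p = ∑ i, |v i| ^ p := by
  rw [lq_norm hp, ← rpow_mul (sum_nonneg fun i _ => rpow_nonneg (abs_nonneg _) _),
    one_div_mul_cancel hp.ne', rpow_one]

lemma exists_net {n : ℕ} (d : Fin n → Fin n → ℝ) (hd0 : ∀ x, d x x = 0)
    (hsym : ∀ x y, d x y = d y x) {η : ℝ} (hη : 0 < η) :
    ∃ pr : Fin n → Fin n, (∀ z, d z (pr z) ≤ η) ∧ ∀ z z', pr z = pr z' ∨ η ≤ d (pr z) (pr z') := by
  classical
  obtain ⟨S, hS, hmax⟩ := Finset.exists_max_image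
    (univ.filter fun S : Finset (Fin n) => ∀ x ∈ S, ∀ y ∈ S, x ≠ y → η ≤ d x y) Finset.card
    ⟨∅, by simp⟩
  simp only [mem_filter, mem_univ, true_and] at hS hmax
  have hcov : ∀ z, ∃ s ∈ S, d z s ≤ η := by
    intro z
    by_contra hcon
    push Not at hcon
    have hz : z ∉ S := fun hz => by have := hcon z hz; rw [hd0] at this; linarith
    have := hmax (insert z S) (by
      intro x hx y hy hxy
      rcases Finset.mem_insert.mp hx with hx | hx <;> rcases Finset.mem_insert.mp hy with hy | hy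
      · exact absurd (hx.trans hy.symm) hxy
      · rw [hx]; exact (hcon y hy).le
      · rw [hy, hsym]; exact (hcon x hx).le
      · exact hS x hx y hy hxy)
    rw [Finset.card_insert_of_notMem hz] at this
    omega
  choose pr hprS hpr using hcov
  exact ⟨pr, hpr, fun z z' => or_iff_not_imp_left.mpr (hS _ (hprS z) _ (hprS z'))⟩

/-- One window: the map is exact up to a constant at its scales, bounded, and Lipschitz with the
growth of the balls in the window. -/
theorem exists_window {p : ℝ} [Fact (1 ≤ ENNReal.ofReal p)] (hp1 : 1 ≤ p) (hp2 : p < 2) :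
    ∃ C : ℝ, 1 ≤ C ∧ ∃ k : ℕ, ∀ n : ℕ, 2 ≤ n → ∀ A : ℝ, 4 ≤ A →
      ∃ N : ℕ, (N : ℝ) ≤ C * A ^ k * Real.log n ∧
        ∀ (M : ℕ) (X : Fin n → Lq p M) (a : ℝ), 0 < a →
          ∃ u : Fin n → Lq p N, ∀ i j,
            ‖u i - u j‖ ≤ 8 * ‖X i - X j‖ * ((if a / A < 2 * ‖X i - X j‖ then 11 else 0) +
              16 * (logBall (fun x y => ‖X x - X y‖) i (2 * a) -
                logBall (fun x y => ‖X x - X y‖) i (a / A / 2)) / Real.log A) ∧
            ‖u i - u j‖ ≤ C * A ^ k * a ∧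
            (68 * a ≤ ‖X i - X j‖ → ‖X i - X j‖ ≤ 68 * A * a →
              ‖X i - X j‖ / 2 ≤ ‖u i - u j‖) := by
  have hp : 0 < p := by linarith
  obtain ⟨C₀, hC₀, k, hfeat⟩ := exists_glue_feature hp1 hp2
  have h5 : (1 : ℝ) ≤ 5041 ^ k := one_le_pow₀ (by norm_num)
  have hC5 : 1 ≤ C₀ * 5041 ^ k := one_le_mul_of_one_le_of_one_le hC₀ h5
  refine ⟨C₀ * 5041 ^ k + 32, by linarith, 4 * k, fun n hn A hA => ?_⟩
  set R : ℝ := (71 * A ^ 2) ^ 2 with hR
  have h71 : (16 : ℝ) ≤ 71 * A ^ 2 := by nlinarith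
  have hR4 : 4 ≤ R := by rw [hR]; nlinarith
  have hRk : C₀ * R ^ k = C₀ * 5041 ^ k * A ^ (4 * k) := by
    rw [hR, show (71 * A ^ 2) ^ 2 = 5041 * A ^ 4 by ring, mul_pow, ← pow_mul]; ring
  obtain ⟨N, hN, hF⟩ := hfeat n hn R hR4
  refine ⟨N, hN.trans ?_, ?_⟩
  · have hl : 0 ≤ Real.log (n : ℝ) := Real.log_nonneg (by norm_cast; omega)
    rw [hRk]
    gcongr
    linarith
  intro M X a ha
  set η := a / A with hη'
  have hη : 0 < η := div_pos ha (by linarith)
  have hηa : η < a := by rw [hη']; exact div_lt_self ha (by linarith)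
  set d : Fin n → Fin n → ℝ := fun x y => ‖X x - X y‖ with hd
  have hd0 : ∀ x, d x x = 0 := fun x => by simp [hd]
  have hsym : ∀ x y, d x y = d y x := fun x y => norm_sub_rev _ _
  have htri : ∀ x y z, d x z ≤ d x y + d y z := fun x y z => norm_sub_le_norm_sub_add_norm_sub _ _ _
  obtain ⟨pr, hpr, hpr'⟩ := exists_net d hd0 hsym hη
  set y : Fin n → Fin M → ℝ := fun z l => (X (pr z)) l / η with hy
  have hm : ∀ z z', ∑ l, |y z l - y z' l| ^ p = (d (pr z) (pr z') / η) ^ p := by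
    intro z z'
    rw [hd, div_rpow (norm_nonneg _) hη.le, lq_norm_pow hp, Finset.sum_div]
    refine sum_congr rfl fun l _ => ?_
    rw [hy, ← sub_div, abs_div, abs_of_pos hη, div_rpow (abs_nonneg _) hη.le]
    rfl
  obtain ⟨F, hF'⟩ := hF M y (fun z z' => by
    rcases hpr' z z' with h | h
    · exact Or.inl (by simp [hy, h])
    · refine Or.inr ?_
      rw [hm]
      exact one_le_rpow (by rw [le_div_iff₀ hη, one_mul]; exact h) hp.le)
  set h : Fin n → Lq p N := fun z => WithLp.toLp _ fun l => η * F z l with hh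
  have hhn : ∀ z z', ‖h z - h z'‖ = η * (∑ l, |F z l - F z' l| ^ p) ^ (1 / p) := by
    intro z z'
    rw [lq_norm hp]
    have : ∀ l, |(h z - h z') l| ^ p = η ^ p * |F z l - F z' l| ^ p := fun l => by
      rw [show (h z - h z') l = η * (F z l - F z' l) by simp [hh, mul_sub], abs_mul, abs_of_pos hη,
        mul_rpow hη.le (abs_nonneg _)]
    simp only [this]
    rw [← Finset.mul_sum, mul_rpow (by positivity) (sum_nonneg fun l _ => rpow_nonneg (abs_nonneg _) _),
      ← rpow_mul hη.le, mul_one_div_cancel hp.ne', rpow_one]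
  have hdd : ∀ z z', d (pr z) (pr z') ≤ d z z' + 2 * η ∧ d z z' ≤ d (pr z) (pr z') + 2 * η := by
    intro z z'
    have a1 := hpr z
    have a2 := hpr z'
    constructor
    · have := htri (pr z) z (pr z')
      have := htri z z' (pr z')
      rw [hsym (pr z) z] at *
      linarith
    · have := htri z (pr z) z'
      have := htri (pr z) (pr z') z'
      rw [hsym (pr z') z'] at *
      linarith
  have hnn : ∀ z z', 0 ≤ d z z' := fun z z' => norm_nonneg _
  have hFnn : ∀ z z', 0 ≤ ∑ l, |F z l - F z' l| ^ p := fun z z' =>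
    sum_nonneg fun l _ => rpow_nonneg (abs_nonneg _) _
  have hup : ∀ z z', ‖h z - h z'‖ ≤ 4 * d (pr z) (pr z') := by
    intro z z'
    have h2 := (hF' z z').2.1
    rw [hm] at h2
    have hq : 0 ≤ d (pr z) (pr z') / η := div_nonneg (hnn _ _) hη.le
    rw [hhn]
    calc η * (∑ l, |F z l - F z' l| ^ p) ^ (1 / p)
        ≤ η * (4 * (d (pr z) (pr z') / η) ^ p) ^ (1 / p) :=
          mul_le_mul_of_nonneg_left (rpow_le_rpow (hFnn _ _) h2 (by positivity)) hη.le
      _ = η * ((4 : ℝ) ^ (1 / p) * (d (pr z) (pr z') / η)) := by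
          rw [mul_rpow (by norm_num) (by positivity), ← rpow_mul hq, mul_one_div_cancel hp.ne', rpow_one]
      _ ≤ η * (4 * (d (pr z) (pr z') / η)) := by
          gcongr
          calc (4 : ℝ) ^ (1 / p) ≤ 4 ^ (1 : ℝ) := rpow_le_rpow_of_exponent_le (by norm_num)
                (by rw [div_le_one hp]; exact hp1)
            _ = 4 := rpow_one 4
      _ = 4 * d (pr z) (pr z') := by field_simp
  have hloc : ∀ z z', ‖h z - h z'‖ ≤ 8 * (d z z' + η) := fun z z' => by
    linarith [hup z z', (hdd z z').1, hnn z z']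
  have haη : a / η = A := by
    rw [hη', div_div_cancel₀ ha.ne']
  have hlogA : 1 ≤ Real.log A := by
    rw [Real.le_log_iff_exp_le (by linarith)]; linarith [Real.exp_one_lt_three]
  set u := smooth d η a h with hu
  have hnear : ∀ z, ‖u z - h z‖ ≤ 16 * a := fun z => by
    have := norm_smooth_sub_le hd0 h (by norm_num) hη hηa.le (by rw [haη]; exact hlogA) hloc z
    linarith
  have hclose : ∀ i j, ‖u i - u j‖ ≤ 32 * a + ‖h i - h j‖ ∧ ‖h i - h j‖ ≤ 32 * a + ‖u i - u j‖ := by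
    intro i j
    have h1 : u i - u j = (u i - h i) - (u j - h j) + (h i - h j) := by abel
    have h2 : h i - h j = -((u i - h i) - (u j - h j)) + (u i - u j) := by abel
    have h3 : ‖(u i - h i) - (u j - h j)‖ ≤ 32 * a := by
      linarith [norm_sub_le (u i - h i) (u j - h j), hnear i, hnear j]
    constructor
    · rw [h1]; linarith [norm_add_le ((u i - h i) - (u j - h j)) (h i - h j)]
    · rw [h2]
      have := norm_add_le (-((u i - h i) - (u j - h j))) (u i - u j)
      rw [norm_neg] at this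
      linarith
  refine ⟨u, fun i j => ⟨?_, ?_, ?_⟩⟩
  · have := norm_smooth_sub_smooth_le hd0 hsym htri h (by norm_num) hη hηa hloc i j
    rwa [haη] at this
  · have h3 := (hF' i j).2.2
    have hb : 1 ≤ C₀ * R ^ k := by
      rw [hRk]; exact one_le_mul_of_one_le_of_one_le hC5 (one_le_pow₀ (by linarith))
    have h4 : ‖h i - h j‖ ≤ a * (C₀ * R ^ k) := by
      rw [hhn]
      refine mul_le_mul hηa.le ?_ (by positivity) ha.le
      refine (rpow_le_rpow (hFnn _ _) h3 (by positivity)).trans ?_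
      exact rpow_le_self_of_one_le hb (by rw [div_le_one hp]; exact hp1)
    refine (hclose i j).1.trans ?_
    rw [hRk] at h4
    have : 32 * a ≤ 32 * A ^ (4 * k) * a := by
      rw [mul_assoc]; refine mul_le_mul_of_nonneg_left ?_ (by norm_num)
      exact le_mul_of_one_le_left ha.le (one_le_pow₀ (by linarith))
    linarith
  · intro hlo hhi
    have hA2 : η * (71 * A ^ 2) = 71 * A * a := by rw [hη']; field_simp
    have hdR : d (pr i) (pr j) / η ≤ 71 * A ^ 2 := by
      rw [div_le_iff₀ hη, mul_comm, hA2]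
      have : 1 * a ≤ A * a := mul_le_mul_of_nonneg_right (by linarith) ha.le
      change d i j ≤ _ at hhi
      linarith [(hdd i j).1]
    have hq : 0 ≤ d (pr i) (pr j) / η := div_nonneg (hnn _ _) hη.le
    have hmR : ∑ l, |y i l - y j l| ^ p ≤ R := by
      rw [hm, hR]
      calc _ ≤ (71 * A ^ 2) ^ p := rpow_le_rpow hq hdR hp.le
        _ ≤ (71 * A ^ 2) ^ (2 : ℝ) := rpow_le_rpow_of_exponent_le (by linarith) hp2.le
        _ = _ := rpow_two _
    have h1 := (hF' i j).1 hmR
    rw [hm] at h1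
    have h2 : d (pr i) (pr j) ≤ ‖h i - h j‖ := by
      rw [hhn]
      calc d (pr i) (pr j) = η * ((d (pr i) (pr j) / η) ^ p) ^ (1 / p) := by
            rw [← rpow_mul hq, mul_one_div_cancel hp.ne', rpow_one, mul_div_cancel₀ _ hη.ne']
        _ ≤ _ := mul_le_mul_of_nonneg_left
            (rpow_le_rpow (rpow_nonneg hq _) h1 (by positivity)) hη.le
    have := (hdd i j).2
    have := (hclose i j).2
    change 68 * a ≤ d i j at hlo
    change d i j / 2 ≤ _
    linarith

lemma sum_geometric_le {A B d : ℝ} (hA : 2 ≤ A) (hB : 0 ≤ B) (hd : 0 ≤ d) (J : ℕ) :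
    ∑ i ∈ range J, (if B * A ^ i ≤ d then B * A ^ i else 0) ≤ 2 * d := by
  have key : ∀ J : ℕ, ∑ i ∈ range J, (if B * A ^ i ≤ d then B * A ^ i else 0)
      ≤ min (2 * d) (B * A ^ J) := by
    intro J
    induction J with
    | zero => simp only [range_zero, sum_empty]; exact le_min (by linarith) (by positivity)
    | succ J ih =>
      have h1 := le_min_iff.mp ih
      have h0 : 0 ≤ B * A ^ J := by positivity
      have h2 : 2 * (B * A ^ J) ≤ A * (B * A ^ J) := mul_le_mul_of_nonneg_right hA h0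
      have e : B * A ^ (J + 1) = A * (B * A ^ J) := by ring
      rw [sum_range_succ, e]
      split_ifs with h <;> refine le_min ?_ ?_ <;> linarith
  exact (key J).trans (min_le_left _ _)

lemma card_window_le {A B d : ℝ} {κ : ℕ} (hA : 1 ≤ A) (hd : 0 < d) (hB : 0 < B) (s : Finset ℕ)
    (h : ∀ i ∈ s, d < B * A ^ i * A ^ κ ∧ B * A ^ i < d) : s.card ≤ κ := by
  rcases s.eq_empty_or_nonempty with rfl | hs
  · simp
  set i₀ := s.min' hs with hi₀
  have hsub : s ⊆ Ico i₀ (i₀ + κ) := by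
    intro i hi
    refine Finset.mem_Ico.mpr ⟨s.min'_le i hi, ?_⟩
    by_contra hcon
    push Not at hcon
    have h1 := (h i₀ (s.min'_mem hs)).1
    have h2 := (h i hi).2
    have h3 : A ^ (i₀ + κ) ≤ A ^ i := pow_le_pow_right₀ hA hcon
    rw [mul_assoc, ← pow_add] at h1
    linarith [mul_le_mul_of_nonneg_left h3 hB.le]
  exact (Finset.card_le_card hsub).trans (by simp)

/-- All windows glued: dimension polynomial in `A`, distortion `1 + log n / log A`. -/
theorem exists_glued {p : ℝ} [Fact (1 ≤ ENNReal.ofReal p)] (hp1 : 1 ≤ p) (hp2 : p < 2) :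
    ∃ C K : ℝ, 0 < C ∧ 0 < K ∧ ∃ k : ℕ, ∀ n : ℕ, 2 ≤ n → ∀ A : ℝ, 4 ≤ A →
      ∃ N : ℕ, (N : ℝ) ≤ C * A ^ k * Real.log n ^ 2 ∧
        ∀ (M : ℕ) (X : Fin n → Lq p M), Function.Injective X →
          ∃ F : Fin n → Fin N → ℝ, ∀ i j,
            ‖X i - X j‖ / 2 ≤ (∑ l, |F i l - F j l| ^ p) ^ (1 / p) ∧
            (∑ l, |F i l - F j l| ^ p) ^ (1 / p) ≤
              K * (1 + Real.log n / Real.log A) * ‖X i - X j‖ := by
  have hp : 0 < p := by linarith
  obtain ⟨C₁, hC₁, k, hwin⟩ := exists_window hp1 hp2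
  obtain ⟨κ₀, hκ₀⟩ := pow_unbounded_of_one_lt (2 * C₁) (show (1 : ℝ) < 2 by norm_num)
  set κ : ℕ := κ₀ + k + 1 with hκ
  have hl2 : 0 < Real.log 2 := Real.log_pos one_lt_two
  refine ⟨5 * C₁ * (3 / Real.log 2), 5 * (88 * κ + 384 + 2), by positivity, by positivity,
    k, fun n hn A hA => ?_⟩
  obtain ⟨N, hN, hu⟩ := hwin n hn A hA
  set m := Nat.log 2 (n * n) + 1 with hm
  have hn2 : (2 : ℝ) ≤ n := by exact_mod_cast hn
  have hL2 : Real.log 2 ≤ Real.log (n : ℝ) := Real.log_le_log two_pos hn2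
  have hmlog : (m : ℝ) ≤ 3 / Real.log 2 * Real.log n := by
    have h1 : (2 : ℝ) ^ Nat.log 2 (n * n) ≤ (n : ℝ) * n := by
      exact_mod_cast Nat.pow_log_le_self 2 (show n * n ≠ 0 by positivity)
    have h2 := Real.log_le_log (by positivity) h1
    rw [Real.log_pow, Real.log_mul (by positivity) (by positivity)] at h2
    rw [div_mul_eq_mul_div, le_div_iff₀ hl2, hm]
    push_cast
    linarith
  refine ⟨5 * m * N, ?_, ?_⟩
  · push_cast
    calc 5 * (m : ℝ) * N ≤ 5 * (3 / Real.log 2 * Real.log n) * (C₁ * A ^ k * Real.log n) := by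
          gcongr
      _ = _ := by ring
  intro M X hX
  classical
  have : Nonempty (Fin n) := ⟨⟨0, by omega⟩⟩
  set dd : Fin n → Fin n → ℝ := fun x y => ‖X x - X y‖ with hdd
  have hne : (univ.filter fun q : Fin n × Fin n => q.1 ≠ q.2).Nonempty :=
    ⟨(⟨0, by omega⟩, ⟨1, by omega⟩), by simp [Fin.ext_iff]⟩
  obtain ⟨q₁, hq₁, hmin⟩ := Finset.exists_min_image _ (fun q => dd q.1 q.2) hne
  obtain ⟨q₂, hq₂, hmax⟩ := Finset.exists_max_image _ (fun q => dd q.1 q.2) hne
  simp only [mem_filter, mem_univ, true_and] at hq₁ hq₂ hmin hmax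
  set dm := dd q₁.1 q₁.2 with hdm
  have hdm0 : 0 < dm := norm_pos_iff.mpr (sub_ne_zero.mpr (hX.ne hq₁))
  obtain ⟨J, hJ⟩ := pow_unbounded_of_one_lt (dd q₂.1 q₂.2 / dm) (show 1 < A by linarith)
  set a₀ := dm / 68 with ha₀
  have ha0 : 0 < a₀ := by positivity
  choose u hu using fun j : Fin J => hu M X (a₀ * A ^ (j : ℕ)) (by positivity)
  set Q : Type := { q : Fin n × Fin n // q.1 ≠ q.2 } with hQdef
  set lnA := Real.log A with hlnA
  have hlnA0 : 0 < lnA := Real.log_pos (by linarith)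
  have hexsig : ∀ q : Q, ∃ j : Fin J, dd q.1.1 q.1.2 / 2 ≤ ‖u j q.1.1 - u j q.1.2‖ := by
    intro q
    have h1 : 1 ≤ dd q.1.1 q.1.2 / dm := by
      rw [le_div_iff₀ hdm0, one_mul]; exact hmin q.1 q.2
    obtain ⟨i, hi, hi'⟩ := exists_nat_pow_near h1 (show 1 < A by linarith)
    have hiJ : i < J := (pow_lt_pow_iff_right₀ (show 1 < A by linarith)).mp
      (hi.trans_lt (lt_of_le_of_lt (div_le_div_of_nonneg_right (hmax q.1 q.2) hdm0.le) hJ))
    refine ⟨⟨i, hiJ⟩, (hu ⟨i, hiJ⟩ _ _).2.2 ?_ ?_⟩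
    · rw [le_div_iff₀ hdm0] at hi
      calc 68 * (a₀ * A ^ i) = A ^ i * dm := by rw [ha₀]; ring
        _ ≤ _ := hi
    · rw [div_lt_iff₀ hdm0, pow_succ] at hi'
      calc ‖X q.1.1 - X q.1.2‖ ≤ A ^ i * A * dm := hi'.le
        _ = 68 * A * (a₀ * A ^ i) := by rw [ha₀]; ring
  choose j₀ hj₀ using hexsig
  set W : ℝ := (88 * (κ : ℝ) + 384 + 2) * (1 + Real.log n / lnA) with hW
  have hsum : ∀ i i', ∑ j : Fin J, ‖u j i - u j i'‖ ≤ W * dd i i' := by
    intro i i'
    set d := dd i i' with hd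
    rcases (show 0 ≤ d from norm_nonneg _).eq_or_lt with h0 | hd0
    · have : i = i' := hX (sub_eq_zero.mp (norm_eq_zero.mp h0.symm))
      subst this
      simp [← h0]
    set g := logBall dd i with hg
    set hf : ℕ → ℝ := fun l => g (a₀ / A ^ 2 * A ^ l) with hhf
    set Λ := C₁ * A ^ k * a₀ with hΛ
    have hΛ0 : 0 < Λ := by positivity
    have hterm : ∀ j : Fin J, ‖u j i - u j i'‖ ≤
        (if Λ * A ^ (j : ℕ) ≤ d then Λ * A ^ (j : ℕ) else 0) +
        88 * d * (if ¬Λ * A ^ (j : ℕ) ≤ d ∧ a₀ * A ^ (j : ℕ) / A < 2 * d then (1 : ℝ) else 0) +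
        128 * d / lnA * (hf ((j : ℕ) + 3) - hf (j : ℕ)) := by
      intro j
      obtain ⟨b1, b2, -⟩ := hu j i i'
      set a := a₀ * A ^ (j : ℕ) with ha
      have hapos : 0 < a := by positivity
      have hmono : Monotone g := logBall_mono dd i
      have hge : g (2 * a) - g (a / A / 2) ≤ hf ((j : ℕ) + 3) - hf (j : ℕ) := by
        refine sub_le_sub (hmono ?_) (hmono ?_)
        · calc 2 * a ≤ A * a := mul_le_mul_of_nonneg_right (by linarith) hapos.le
            _ = _ := by rw [ha]; field_simp; ring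
        · calc a₀ / A ^ 2 * A ^ (j : ℕ) = a / A / A := by rw [ha]; ring
            _ ≤ a / A / 2 := div_le_div_of_nonneg_left (by positivity) two_pos (by linarith)
      have hgn : 0 ≤ hf ((j : ℕ) + 3) - hf (j : ℕ) := sub_nonneg.mpr (hmono (by
        gcongr <;> linarith))
      have hlip : ‖u j i - u j i'‖ ≤ 88 * d * (if a / A < 2 * d then (1 : ℝ) else 0)
          + 128 * d / lnA * (hf ((j : ℕ) + 3) - hf (j : ℕ)) := by
        refine b1.trans ?_
        change 8 * d * ((if a / A < 2 * d then (11 : ℝ) else 0) + 16 * (g (2 * a) - g (a / A / 2)) / lnA) ≤ _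
        have := mul_le_mul_of_nonneg_left hge (show 0 ≤ 128 * d / lnA by positivity)
        calc _ = 88 * d * (if a / A < 2 * d then (1 : ℝ) else 0)
              + 128 * d / lnA * (g (2 * a) - g (a / A / 2)) := by split_ifs <;> ring
          _ ≤ _ := by linarith
      have hb2 : ‖u j i - u j i'‖ ≤ Λ * A ^ (j : ℕ) := b2.trans (le_of_eq (by rw [hΛ, ha]; ring))
      by_cases hc : Λ * A ^ (j : ℕ) ≤ d
      · rw [if_pos hc, if_neg (fun h => h.1 hc)]
        have : 0 ≤ 128 * d / lnA * (hf ((j : ℕ) + 3) - hf (j : ℕ)) :=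
          mul_nonneg (by positivity) hgn
        linarith
      · rw [if_neg hc, zero_add]
        simpa [hc] using hlip
    refine (Finset.sum_le_sum fun j _ => hterm j).trans ?_
    rw [Finset.sum_add_distrib, Finset.sum_add_distrib, ← Finset.mul_sum, ← Finset.mul_sum,
      Fin.sum_univ_eq_sum_range (fun j => if Λ * A ^ j ≤ d then Λ * A ^ j else 0),
      Fin.sum_univ_eq_sum_range (fun j =>
        if ¬Λ * A ^ j ≤ d ∧ a₀ * A ^ j / A < 2 * d then (1 : ℝ) else 0),
      Fin.sum_univ_eq_sum_range (fun j => hf (j + 3) - hf j)]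
    have h1 := sum_geometric_le (show 2 ≤ A by linarith) hΛ0.le hd0.le J
    have h2 : (∑ j ∈ range J, if ¬Λ * A ^ j ≤ d ∧ a₀ * A ^ j / A < 2 * d then (1 : ℝ) else 0)
        ≤ κ := by
      rw [← Finset.sum_filter, Finset.sum_const, nsmul_one]
      refine Nat.cast_le.mpr (card_window_le (A := A) (B := a₀ / (2 * A)) (d := d) (by linarith) hd0
        (by positivity) _ fun l hl => ?_)
      simp only [mem_filter, not_le] at hl
      refine ⟨lt_of_lt_of_le hl.2.1 ?_, ?_⟩
      · have hC2 : 2 * C₁ ≤ A ^ κ₀ := hκ₀.le.trans (pow_le_pow_left₀ (by norm_num) (by linarith) _)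
        calc Λ * A ^ l = (C₁ * 2) * (a₀ / (2 * A) * A ^ l * A ^ (k + 1)) := by
              rw [hΛ]; field_simp; ring
          _ ≤ A ^ κ₀ * (a₀ / (2 * A) * A ^ l * A ^ (k + 1)) :=
              mul_le_mul_of_nonneg_right (by linarith) (by positivity)
          _ = a₀ / (2 * A) * A ^ l * A ^ κ := by rw [hκ]; ring
      · calc a₀ / (2 * A) * A ^ l = a₀ * A ^ l / A / 2 := by ring
          _ < d := by linarith [hl.2.2]
    have h3 : ∑ j ∈ range J, (hf (j + 3) - hf j) ≤ 3 * Real.log n := by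
      have e : ∀ j, hf (j + 3) - hf j = (hf (j + 3) - hf (j + 2)) + (hf (j + 2) - hf (j + 1))
          + (hf (j + 1) - hf j) := fun j => by ring
      simp only [e]
      rw [Finset.sum_add_distrib, Finset.sum_add_distrib, Finset.sum_range_sub (fun j => hf (j + 2)),
        Finset.sum_range_sub (fun j => hf (j + 1)), Finset.sum_range_sub hf]
      have hb : ∀ r, 0 ≤ g r ∧ g r ≤ Real.log n := fun r => by
        simpa [hg] using logBall_bounds dd i r
      simp only [hhf]
      linarith [(hb (a₀ / A ^ 2 * A ^ (J + 2))).2, (hb (a₀ / A ^ 2 * A ^ (J + 1))).2,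
        (hb (a₀ / A ^ 2 * A ^ J)).2, (hb (a₀ / A ^ 2 * A ^ (0 + 2))).1,
        (hb (a₀ / A ^ 2 * A ^ (0 + 1))).1, (hb (a₀ / A ^ 2 * A ^ 0)).1]
    have h2' := mul_le_mul_of_nonneg_left h2 (show 0 ≤ 88 * d by positivity)
    have h3' := mul_le_mul_of_nonneg_left h3 (show 0 ≤ 128 * d / lnA by positivity)
    have hr : 0 ≤ Real.log n / lnA := div_nonneg (by linarith) hlnA0.le
    have hκd : 0 ≤ (88 * (κ : ℝ) + 2) * (Real.log n / lnA) * d := by positivity
    have e3 : 128 * d / lnA * (3 * Real.log n) = 384 * (Real.log n / lnA) * d := by ring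
    rw [hW]
    linarith
  set good : Q → (Fin J → Bool) → Prop := fun q s =>
    ‖u (j₀ q) q.1.1 - u (j₀ q) q.1.2‖ ≤ ‖signed (fun j => u j q.1.1 - u j q.1.2) s‖ with hgood
  have hcard : Fintype.card Q < 2 ^ m := by
    refine lt_of_le_of_lt ?_ (Nat.lt_pow_succ_log_self (by norm_num) (n * n))
    refine (Fintype.card_subtype_le _).trans ?_
    simp
  obtain ⟨f, hf⟩ := exists_balanced_sample good
    (fun q => half_good (fun j => u j q.1.1 - u j q.1.2) (j₀ q)) hcard
  set w : Fin n → Fin (5 * m) → Lq p N := fun i t => signed (fun j => u j i) (f t) with hw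
  set c : ℝ := ((m : ℝ)⁻¹) ^ (1 / p) with hc
  have hm0 : (0 : ℝ) < m := by rw [hm]; positivity
  have hc0 : 0 < c := rpow_pos_of_pos (by positivity) _
  refine ⟨fun i l => c * (w i (finProdFinEquiv.symm l).1) (finProdFinEquiv.symm l).2, fun i j => ?_⟩
  have hsum' : ∑ l : Fin (5 * m * N), |c * (w i (finProdFinEquiv.symm l).1) (finProdFinEquiv.symm l).2
      - c * (w j (finProdFinEquiv.symm l).1) (finProdFinEquiv.symm l).2| ^ p
      = (m : ℝ)⁻¹ * ∑ t, ‖w i t - w j t‖ ^ p := by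
    rw [← finProdFinEquiv.sum_comp, Fintype.sum_prod_type, Finset.mul_sum]
    refine sum_congr rfl fun t _ => ?_
    rw [lq_norm_pow hp, Finset.mul_sum]
    refine sum_congr rfl fun l _ => ?_
    rw [Equiv.symm_apply_apply, ← mul_sub, abs_mul, abs_of_pos hc0, mul_rpow hc0.le (abs_nonneg _),
      hc, ← rpow_mul (by positivity), one_div_mul_cancel hp.ne', rpow_one]
    rfl
  simp only []
  rw [hsum']
  have hwd : ∀ t, w i t - w j t = signed (fun l => u l i - u l j) (f t) := fun t => signed_sub _ _ _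
  set d := ‖X i - X j‖ with hd
  have hd0 : 0 ≤ d := norm_nonneg _
  have hW0 : 0 ≤ W := mul_nonneg (by positivity)
    (add_nonneg zero_le_one (div_nonneg (by linarith) hlnA0.le))
  constructor
  · by_cases hij : i = j
    · subst hij
      rw [show d / 2 = 0 by rw [hd, sub_self, norm_zero, zero_div]]
      exact rpow_nonneg (mul_nonneg (by positivity) (sum_nonneg fun t _ => by positivity)) _
    have h1 : (m : ℝ) * (d / 2) ^ p ≤ ∑ t, ‖w i t - w j t‖ ^ p := by
      calc (m : ℝ) * (d / 2) ^ p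
          ≤ ((univ.filter fun t => good ⟨(i, j), hij⟩ (f t)).card : ℝ) * (d / 2) ^ p :=
            mul_le_mul_of_nonneg_right (by exact_mod_cast hf ⟨(i, j), hij⟩) (by positivity)
        _ = ∑ t ∈ univ.filter (fun t => good ⟨(i, j), hij⟩ (f t)), (d / 2) ^ p := by simp
        _ ≤ ∑ t ∈ univ.filter (fun t => good ⟨(i, j), hij⟩ (f t)), ‖w i t - w j t‖ ^ p := by
            refine sum_le_sum fun t ht => rpow_le_rpow (by positivity) ?_ hp.le
            rw [hwd]
            exact (hj₀ ⟨(i, j), hij⟩).trans (mem_filter.mp ht).2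
        _ ≤ _ := sum_le_univ_sum_of_nonneg fun t => rpow_nonneg (norm_nonneg _) _
    calc d / 2 = ((d / 2) ^ p) ^ (1 / p) := by
          rw [← rpow_mul (by positivity), mul_one_div_cancel hp.ne', rpow_one]
      _ ≤ _ := rpow_le_rpow (by positivity) (by rw [le_inv_mul_iff₀ hm0]; exact h1) (by positivity)
  · have h1 : ∑ t, ‖w i t - w j t‖ ^ p ≤ (5 * m : ℝ) * (W * d) ^ p := by
      refine (Finset.sum_le_card_nsmul _ _ ((W * d) ^ p) fun t _ => rpow_le_rpow (norm_nonneg _) ?_ hp.le).trans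
        (le_of_eq (by simp))
      rw [hwd]
      exact (norm_signed_le _ _).trans (hsum i j)
    calc ((m : ℝ)⁻¹ * ∑ t, ‖w i t - w j t‖ ^ p) ^ (1 / p) ≤ (5 * (W * d) ^ p) ^ (1 / p) := by
          refine rpow_le_rpow (mul_nonneg (by positivity)
            (sum_nonneg fun t _ => rpow_nonneg (norm_nonneg _) _)) ?_ (by positivity)
          rw [inv_mul_le_iff₀ hm0]; linarith
      _ = (5 : ℝ) ^ (1 / p) * (W * d) := by
          rw [mul_rpow (by norm_num) (by positivity), ← rpow_mul (by positivity),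
            mul_one_div_cancel hp.ne', rpow_one]
      _ ≤ 5 * (W * d) := mul_le_mul_of_nonneg_right
          (rpow_le_self_of_one_le (by norm_num) (by rw [div_le_one hp]; exact hp1)) (by positivity)
      _ = _ := by rw [hW]; ring

end Vale.Agent.P249
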