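import Mathlib

/-!
Finite averages over product spaces: independence of a coordinate from functions that ignore it,
product formula, and uniform permutations.
-/

namespace Vale.Agent.P249.High

open Finset
open scoped BigOperators

variable {ι α : Type*} [Fintype ι] [DecidableEq ι] [Fintype α]

lemma expect_prod (f : ι → α → ℝ) :
    (𝔼 ω : ι → α, ∏ k, f k (ω k)) = ∏ k, 𝔼 a, f k a := by
  simp only [Fintype.expect_eq_sum_div_card]
  rw [prod_div_distrib, prod_const, card_univ, Fintype.card_fun, Nat.cast_pow, Fintype.prod_sum]

/-- A coordinate is independent of a function that ignores it. -/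
lemma expect_coord_mul (k : ι) (f : α → ℝ) (h : (ι → α) → ℝ)
    (hh : ∀ ω a, h (Function.update ω k a) = h ω) :
    (𝔼 ω : ι → α, f (ω k) * h ω) = (𝔼 a, f a) * 𝔼 ω : ι → α, h ω := by
  rcases isEmpty_or_nonempty α with hα | hα
  · have : IsEmpty (ι → α) := ⟨fun ω => hα.false (ω k)⟩
    simp
  let e : (ι → α) × α ≃ (ι → α) × α :=
    { toFun := fun z => (Function.update z.1 k z.2, z.1 k)
      invFun := fun z => (Function.update z.1 k z.2, z.1 k)
      left_inv := fun z => by simp
      right_inv := fun z => by simp }
  have h1 : ∑ z : (ι → α) × α, f (z.1 k) * h z.1 = ∑ z : (ι → α) × α, f z.2 * h z.1 := by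
    rw [← e.sum_comp (fun z => f (z.1 k) * h z.1)]
    simp [e, hh]
  rw [Fintype.sum_prod_type, Fintype.sum_prod_type] at h1
  simp only [sum_const, card_univ, nsmul_eq_mul, ← Finset.mul_sum, ← Finset.sum_mul] at h1
  simp only [Fintype.expect_eq_sum_div_card]
  have hc : (0 : ℝ) < Fintype.card α := by exact_mod_cast Fintype.card_pos
  have hc' : (0 : ℝ) < Fintype.card (ι → α) := by exact_mod_cast Fintype.card_pos
  field_simp
  linarith

/-- The position of the first element of `S` is uniform. -/
lemma card_first {n : ℕ} (S U : Finset (Fin n)) (hS : S.Nonempty) (hU : U ⊆ S) :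
    ((univ.filter fun π : Equiv.Perm (Fin n) =>
        π.symm ((S.image π).min' (hS.image π)) ∈ U).card : ℝ) * S.card
      = U.card * Fintype.card (Equiv.Perm (Fin n)) := by
  classical
  set first : Equiv.Perm (Fin n) → Fin n := fun π => π.symm ((S.image π).min' (hS.image π))
    with hfirst
  have hmem : ∀ π, first π ∈ S := by
    intro π
    obtain ⟨z, hz, hz'⟩ := mem_image.1 ((S.image π).min'_mem (hS.image π))
    simp [hfirst, ← hz', hz]
  set fib : Fin n → ℕ := fun a => (univ.filter fun π => first π = a).card with hfib
  have hsym : ∀ a ∈ S, ∀ b ∈ S, fib a ≤ fib b := by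
    intro a ha b hb
    refine card_le_card_of_injOn (fun π => π * Equiv.swap a b) ?_ ?_
    · intro π hπ
      simp only [coe_filter, mem_univ, true_and, Set.mem_ofPred_eq] at hπ ⊢
      have himg : S.image (⇑π ∘ ⇑(Equiv.swap a b)) = S.image π := by
        rw [← image_image]
        congr 1
        ext z
        simp only [mem_image]
        constructor
        · rintro ⟨u, hu, rfl⟩
          rcases eq_or_ne u a with h | h
          · simp [h, hb]
          rcases eq_or_ne u b with h' | h'
          · simp [h', ha]
          · rwa [Equiv.swap_apply_of_ne_of_ne h h']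
        · intro hz
          refine ⟨Equiv.swap a b z, ?_, Equiv.swap_apply_self ..⟩
          rcases eq_or_ne z a with h | h
          · simp [h, hb]
          rcases eq_or_ne z b with h' | h'
          · simp [h', ha]
          · rwa [Equiv.swap_apply_of_ne_of_ne h h']
      have hπ' : (S.image π).min' (hS.image π) = π a := by
        have := congrArg π hπ
        simpa [hfirst] using this
      simp only [hfirst]
      rw [Equiv.symm_apply_eq]
      simp only [Equiv.Perm.coe_mul, himg, hπ', Function.comp_apply, Equiv.swap_apply_right]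
    · intro x _ y _ hxy
      exact mul_right_cancel hxy
  obtain ⟨a₀, ha₀⟩ := hS
  have heq : ∀ a ∈ S, fib a = fib a₀ := fun a ha =>
    le_antisymm (hsym a ha a₀ ha₀) (hsym a₀ ha₀ a ha)
  have hcount : ∀ V ⊆ S, (univ.filter fun π => first π ∈ V).card = V.card * fib a₀ := by
    intro V hV
    rw [card_eq_sum_card_fiberwise (f := first) (t := V)
      (s := univ.filter fun π => first π ∈ V) (fun π hπ => (mem_filter.1 hπ).2)]
    rw [sum_congr rfl (g := fun _ => fib a₀) fun a ha => ?_, sum_const, smul_eq_mul]
    rw [← heq a (hV ha), hfib, filter_filter]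
    congr 1
    exact filter_congr fun π _ => ⟨fun h => h.2, fun h => ⟨h ▸ ha, h⟩⟩
  have hall : Fintype.card (Equiv.Perm (Fin n)) = S.card * fib a₀ := by
    rw [← hcount S Subset.rfl, filter_true_of_mem (fun π _ => hmem π), card_univ]
  change ((univ.filter fun π => first π ∈ U).card : ℝ) * S.card = _
  rw [hcount U hU, hall]
  push_cast
  ring

end Vale.Agent.P249.High
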