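import Vale.Agent.P249.HighAvg
import Vale.Agent.P249.GlueSmooth

/-!
Random ball carving with a Lipschitz taper at the cell boundary.
-/

namespace Vale.Agent.P249.High

open Finset Vale.Agent.P249
open scoped BigOperators

variable {n : ℕ} {d : Fin n → Fin n → ℝ} {r : ℝ} {π : Equiv.Perm (Fin n)}

lemma self_mem_ball (hd0 : ∀ x, d x x = 0) (hr : 0 ≤ r) (x : Fin n) : x ∈ ball d x r := by
  simp [ball, hd0, hr]

/-- The first point, in the order `π`, of the ball around `x`. -/
noncomputable def centre (d : Fin n → Fin n → ℝ) (r : ℝ) (π : Equiv.Perm (Fin n)) (x : Fin n) :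
    Fin n :=
  if h : (ball d x r).Nonempty then π.symm (((ball d x r).image π).min' (h.image π)) else x

/-- One deep inside a cell, zero at its boundary. -/
noncomputable def taper (d : Fin n → Fin n → ℝ) (r : ℝ) (π : Equiv.Perm (Fin n)) (x : Fin n) : ℝ :=
  if h : (univ.filter fun z => centre d r π z ≠ centre d r π x).Nonempty then
    min 1 ((univ.filter fun z => centre d r π z ≠ centre d r π x).inf' h fun z => 8 * d x z / r)
  else 1

lemma centre_mem (hd0 : ∀ x, d x x = 0) (hr : 0 ≤ r) (x : Fin n) :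
    centre d r π x ∈ ball d x r := by
  have h : (ball d x r).Nonempty := ⟨x, self_mem_ball hd0 hr x⟩
  obtain ⟨z, hz, hz'⟩ := mem_image.1 (((ball d x r).image π).min'_mem (h.image π))
  simp only [centre, dif_pos h]
  simp [← hz', hz]

lemma centre_eq (hd0 : ∀ x, d x x = 0) (hr : 0 ≤ r) {x z : Fin n}
    (hz : z ∈ ball d x r) (hmin : ∀ w ∈ ball d x r, π z ≤ π w) : centre d r π x = z := by
  have h : (ball d x r).Nonempty := ⟨x, self_mem_ball hd0 hr x⟩
  simp only [centre, dif_pos h]
  rw [Equiv.symm_apply_eq]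
  refine le_antisymm (min'_le _ _ (mem_image_of_mem _ hz)) (le_min' _ _ _ fun y hy => ?_)
  obtain ⟨w, hw, rfl⟩ := mem_image.1 hy
  exact hmin w hw

lemma taper_le_one (x : Fin n) : taper d r π x ≤ 1 := by
  unfold taper; split_ifs with h
  · exact min_le_left _ _
  · exact le_rfl

lemma taper_nonneg (hd : ∀ x y, 0 ≤ d x y) (hr : 0 < r) (x : Fin n) : 0 ≤ taper d r π x := by
  unfold taper; split_ifs with h
  · refine le_min zero_le_one (le_inf' _ _ fun z _ => ?_)
    have := hd x z
    positivity
  · exact zero_le_one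

lemma taper_boundary {x y : Fin n} (hc : centre d r π y ≠ centre d r π x) :
    taper d r π x ≤ 8 * d x y / r := by
  have h : y ∈ univ.filter fun z => centre d r π z ≠ centre d r π x := by simp [hc]
  rw [taper, dif_pos ⟨y, h⟩]
  exact (min_le_right _ _).trans (inf'_le (fun z => 8 * d x z / r) h)

lemma taper_lip (htri : ∀ x y z, d x z ≤ d x y + d y z) (hr : 0 < r) (hd : ∀ x y, 0 ≤ d x y)
    {x y : Fin n} (hc : centre d r π x = centre d r π y) :
    taper d r π x ≤ taper d r π y + 8 * d x y / r := by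
  have h0 : 0 ≤ 8 * d x y / r := by have := hd x y; positivity
  by_cases h : (univ.filter fun z => centre d r π z ≠ centre d r π y).Nonempty
  · obtain ⟨z, hz, hz'⟩ := exists_mem_eq_inf' h fun z => 8 * d y z / r
    have hzx : centre d r π z ≠ centre d r π x := by
      simpa [hc] using (mem_filter.1 hz).2
    have e : taper d r π y = min 1 (8 * d y z / r) := by rw [taper, dif_pos h, hz']
    rw [e, ← min_add_add_right]
    refine le_min ((taper_le_one x).trans (by linarith)) ((taper_boundary hzx).trans ?_)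
    rw [← add_div]
    gcongr
    linarith [htri x y z]
  · rw [show taper d r π y = 1 by rw [taper, dif_neg h]]
    linarith [taper_le_one (d := d) (r := r) (π := π) x]

lemma taper_eq_one {x : Fin n} (hr : 0 < r)
    (h : ∀ z, centre d r π z ≠ centre d r π x → r / 8 ≤ d x z) : taper d r π x = 1 := by
  unfold taper; split_ifs with hs
  · refine min_eq_left (le_inf' _ _ fun z hz => ?_)
    have := h z (mem_filter.1 hz).2
    rw [le_div_iff₀ hr]
    linarith
  · rfl

/-- When the first point near `x` is well inside, the neighbourhood of `x` is a single padded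
cell. -/
lemma padded (hd0 : ∀ x, d x x = 0) (hd : ∀ x y, 0 ≤ d x y) (hsym : ∀ x y, d x y = d y x)
    (htri : ∀ x y z, d x z ≤ d x y + d y z) (hr : 0 < r) {x z : Fin n}
    (hz : z ∈ ball d x (3 * r / 4)) (hmin : ∀ w ∈ ball d x (5 * r / 4), π z ≤ π w) {y : Fin n}
    (hy : d x y ≤ r / 8) :
    centre d r π y = centre d r π x ∧ taper d r π x = 1 ∧ taper d r π y = 1 := by
  have hzx : d x z ≤ 3 * r / 4 := (mem_filter.1 hz).2
  have hc : ∀ v, d x v ≤ r / 4 → centre d r π v = z := by
    intro v hv
    refine centre_eq hd0 hr.le ?_ fun w hw => hmin w ?_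
    · simp only [ball, mem_filter, mem_univ, true_and]
      linarith [htri v x z, hsym v x]
    · simp only [ball, mem_filter, mem_univ, true_and] at hw ⊢
      linarith [htri x v w]
  have ex := hc x (by rw [hd0]; linarith)
  have ey := hc y (by linarith)
  refine ⟨by rw [ex, ey], taper_eq_one hr fun v hv => ?_, taper_eq_one hr fun v hv => ?_⟩
  · by_contra hlt
    exact hv (by rw [ex, hc v (by linarith [hd x v])])
  · by_contra hlt
    exact hv (by rw [ey, hc v (by linarith [htri x y v])])

/-- The cell of `x` is padded at scale `r`. -/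
noncomputable def isPad (d : Fin n → Fin n → ℝ) (r : ℝ) (π : Equiv.Perm (Fin n)) (x : Fin n) : ℝ :=
  if ∃ z ∈ ball d x (3 * r / 4), ∀ w ∈ ball d x (5 * r / 4), π z ≤ π w then 1 else 0

lemma expect_pad (hd0 : ∀ x, d x x = 0) (hr : 0 ≤ r) (x : Fin n) :
    ((ball d x (3 * r / 4)).card : ℝ) / (ball d x (5 * r / 4)).card ≤
      𝔼 π : Equiv.Perm (Fin n), isPad d r π x := by
  have hS : (ball d x (5 * r / 4)).Nonempty := ⟨x, self_mem_ball hd0 (by linarith) x⟩
  have hsub : ball d x (3 * r / 4) ⊆ ball d x (5 * r / 4) := fun z hz => by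
    simp only [ball, mem_filter, mem_univ, true_and] at hz ⊢
    linarith
  have h := card_first _ _ hS hsub
  have hc : (0 : ℝ) < (ball d x (5 * r / 4)).card := by exact_mod_cast hS.card_pos
  have hP : (0 : ℝ) < Fintype.card (Equiv.Perm (Fin n)) := by exact_mod_cast Fintype.card_pos
  rw [div_le_iff₀ hc, Fintype.expect_eq_sum_div_card, div_mul_eq_mul_div, le_div_iff₀ hP, ← h]
  refine mul_le_mul_of_nonneg_right ?_ hc.le
  simp only [isPad, sum_boole]
  refine Nat.cast_le.2 (card_le_card fun π hπ => ?_)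
  simp only [mem_filter, mem_univ, true_and] at hπ ⊢
  refine ⟨_, hπ, fun w hw => ?_⟩
  rw [Equiv.apply_symm_apply]
  exact min'_le _ _ (mem_image_of_mem _ hw)

/-- Over `J` scales growing by doubling, the padding probabilities are at least `n ^ (-1/J)` on
average. -/
lemma expect_pad_scales (hd0 : ∀ x, d x x = 0) (hr : 0 ≤ r) (J : ℕ) (x : Fin n) :
    (J : ℝ) * Real.exp (-(Real.log n / J)) ≤
      ∑ i ∈ range J, 𝔼 π : Equiv.Perm (Fin n), isPad d (r * 2 ^ i) π x := by
  rcases Nat.eq_zero_or_pos J with rfl | hJ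
  · simp
  have : Nonempty (Fin n) := ⟨x⟩
  set g : ℕ → ℝ := fun i => logBall d x (r * 2 ^ i * (3 / 4)) with hg
  have hpos : ∀ s : ℝ, 0 ≤ s → 1 ≤ ((ball d x s).card : ℝ) := fun s hs => by
    exact_mod_cast Finset.card_pos.2 ⟨x, self_mem_ball hd0 hs x⟩
  have hlog : ∀ s : ℝ, 0 ≤ s → logBall d x s = Real.log (ball d x s).card := fun s hs => by
    rw [logBall, max_eq_right (hpos s hs)]
  have h1 : ∀ i ∈ range J, Real.exp (g i - g (i + 1)) ≤
      𝔼 π : Equiv.Perm (Fin n), isPad d (r * 2 ^ i) π x := by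
    intro i _
    refine le_trans ?_ (expect_pad hd0 (by positivity) x)
    have hr1 : 0 ≤ 3 * (r * 2 ^ i) / 4 := by positivity
    have hr2 : 0 ≤ 5 * (r * 2 ^ i) / 4 := by positivity
    have hm : logBall d x (5 * (r * 2 ^ i) / 4) ≤ g (i + 1) := by
      refine logBall_mono d x ?_
      rw [pow_succ]
      linarith
    have e : g i = logBall d x (3 * (r * 2 ^ i) / 4) := by simp only [hg]; ring_nf
    rw [e, hlog _ hr1]
    rw [hlog _ hr2] at hm
    calc Real.exp (Real.log (ball d x (3 * (r * 2 ^ i) / 4)).card - g (i + 1))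
        ≤ Real.exp (Real.log (ball d x (3 * (r * 2 ^ i) / 4)).card -
            Real.log (ball d x (5 * (r * 2 ^ i) / 4)).card) := Real.exp_le_exp.2 (by linarith)
      _ = _ := by
          rw [Real.exp_sub, Real.exp_log (by linarith [hpos _ hr1]),
            Real.exp_log (by linarith [hpos _ hr2])]
  refine le_trans ?_ (sum_le_sum h1)
  set μ := -(Real.log n / J) with hμ
  have h2 : ∀ i ∈ range J, Real.exp μ * (1 + (g i - g (i + 1) - μ)) ≤ Real.exp (g i - g (i + 1)) := by
    intro i _
    calc Real.exp μ * (1 + (g i - g (i + 1) - μ)) ≤ Real.exp μ * Real.exp (g i - g (i + 1) - μ) :=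
          mul_le_mul_of_nonneg_left (by linarith [Real.add_one_le_exp (g i - g (i + 1) - μ)])
            (Real.exp_pos _).le
      _ = _ := by rw [← Real.exp_add]; ring_nf
  refine le_trans ?_ (sum_le_sum h2)
  rw [← mul_sum, mul_comm]
  refine mul_le_mul_of_nonneg_left ?_ (Real.exp_pos _).le
  rw [sum_add_distrib, sum_sub_distrib, sum_range_sub', sum_const, sum_const, card_range]
  simp only [nsmul_eq_mul, mul_one]
  have hb := fun s => logBall_bounds d x s
  simp only [Fintype.card_fin] at hb
  have hJ' : (0 : ℝ) < J := by exact_mod_cast hJ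
  have e : (J : ℝ) * μ = -Real.log n := by rw [hμ]; field_simp
  simp only [hg]
  linarith [(hb (r * 2 ^ 0 * (3 / 4))).1, (hb (r * 2 ^ J * (3 / 4))).2]

end Vale.Agent.P249.High
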