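import Vale.Agent.P249.HighPair
import Vale.Agent.P249.HighCarve
import Vale.Agent.P249.Sampling
import Vale.Agent.P249.GlueWindows

/-!
Features for `p ≥ 2`: dimension `m ^ (1 - 2 / p)` times a power of `R`, Lipschitz on all pairs of
separated points, exact up to a constant below `R`.
-/

namespace Vale.Agent.P249.High

open Finset MeasureTheory Vale.Agent.P249
open scoped BigOperators

variable {Ω : Type*} [Fintype Ω]

/-- The uniform law on a finite type. -/
noncomputable def unif (Ω : Type*) [Fintype Ω] [MeasurableSpace Ω] : Measure Ω :=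
  ENNReal.ofReal (1 / (Fintype.card Ω : ℝ)) • Measure.count

instance [MeasurableSpace Ω] : IsFiniteMeasure (unif Ω) := by
  refine ⟨?_⟩
  rw [unif, Measure.smul_apply, smul_eq_mul, Measure.count_univ]
  exact ENNReal.mul_lt_top ENNReal.ofReal_lt_top (by simp)

lemma integral_unif' [MeasurableSpace Ω] [MeasurableSingletonClass Ω] (f : Ω → ℝ) :
    ∫ ω, f ω ∂unif Ω = 𝔼 ω, f ω := by
  rw [unif, integral_smul_measure, integral_count, ENNReal.toReal_ofReal (by positivity),
    smul_eq_mul, Fintype.expect_eq_sum_div_card]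
  ring

/-- A sample of size `N` of a bounded family of nonnegative functions matches their means. -/
lemma exists_finite_sample [Nonempty Ω] {Q : Type*} [Fintype Q] (Δ : Q → Ω → ℝ)
    (U E : Q → ℝ) (hE : ∀ q, E q = 𝔼 ω, Δ q ω) (hΔ : ∀ q ω, 0 ≤ Δ q ω) (hEU : ∀ q, E q ≤ U q)
    (hU : ∀ q, 0 < U q) {Λ ε : ℝ} (hΛ : 0 < Λ) (hε : 0 < ε) (hε1 : ε ≤ 1)
    (hb : ∀ q ω, (Δ q ω + (U q - E q)) / U q ≤ Λ) (N : ℕ)
    (hN : 4 * Λ / ε ^ 2 * Real.log (2 * Fintype.card Q + 1) < N) :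
    ∃ w : Fin N → Ω, ∀ q, (N : ℝ) * (E q - ε * U q) ≤ ∑ l, Δ q (w l) ∧
      ∑ l, Δ q (w l) ≤ 2 * (N : ℝ) * U q := by
  letI : MeasurableSpace Ω := ⊤
  have hc : (0 : ℝ) < Fintype.card Ω := by exact_mod_cast Fintype.card_pos
  set s : Q → Ω → ℝ := fun q ω => (Δ q ω + (U q - E q)) / U q with hs
  obtain ⟨w, -, hw⟩ := exists_sample (μ := unif Ω) s (fun _ => (1 : ℝ)) 1 Λ ε one_pos hΛ hε hε1
    (Integrable.of_finite) (by rw [integral_unif']; simp) (fun _ => zero_le_one)
    (fun q => Integrable.of_finite)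
    (fun q => by
      rw [integral_unif', hs]
      simp only [← expect_div, expect_add_distrib, Fintype.expect_const, ← hE]
      rw [add_sub_cancel, div_self (hU q).ne'])
    (fun q ω => div_nonneg (add_nonneg (hΔ q ω) (sub_nonneg.2 (hEU q))) (hU q).le)
    (fun q ω => by rw [mul_one]; exact hb q ω) N (by simpa using hN)
  refine ⟨w, fun q => ?_⟩
  obtain ⟨hlo, hhi⟩ := hw q
  simp only [one_mul, div_one, hs, ← sum_div, sum_add_distrib, sum_const, card_univ,
    Fintype.card_fin, nsmul_eq_mul] at hlo hhi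
  rw [le_div_iff₀ (hU q)] at hlo
  rw [div_le_iff₀ (hU q)] at hhi
  have hN0 : (0 : ℝ) ≤ N := Nat.cast_nonneg N
  have h1 : 0 ≤ (N : ℝ) * (U q - E q) := mul_nonneg hN0 (sub_nonneg.2 (hEU q))
  have h2 : ε * ((N : ℝ) * U q) ≤ 1 * ((N : ℝ) * U q) :=
    mul_le_mul_of_nonneg_right hε1 (mul_nonneg hN0 (hU q).le)
  constructor <;> linarith

lemma pow_add_le {p a b : ℝ} (hp : 0 ≤ p) (ha : 0 ≤ a) (hb : 0 ≤ b) :
    (a + b) ^ p ≤ 2 ^ p * (a ^ p + b ^ p) := by
  have h : a + b ≤ 2 * max a b := by linarith [le_max_left a b, le_max_right a b]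
  refine (Real.rpow_le_rpow (by linarith) h hp).trans ?_
  rw [Real.mul_rpow (by norm_num) (le_max_of_le_left ha)]
  refine mul_le_mul_of_nonneg_left ?_ (by positivity)
  have n1 : 0 ≤ a ^ p := by positivity
  have n2 : 0 ≤ b ^ p := by positivity
  rcases le_total a b with h' | h'
  · rw [max_eq_right h']; linarith
  · rw [max_eq_left h']; linarith

section carved

variable {p : ℝ} [Fact (1 ≤ ENNReal.ofReal p)] {m R G N₀ n : ℕ}

/-- Seeds: a scale and an order of the points, a level, and a sample. -/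
abbrev Seed (n m J G P : ℕ) : Type :=
  (Fin J × Equiv.Perm (Fin n)) × Fin (G + 1) × (Fin m → Fin P × Bool)

/-- One coordinate of the feature map. -/
noncomputable def coord (p : ℝ) (R G : ℕ) {m n J P : ℕ} (y : Fin n → Lq p m)
    [Fact (1 ≤ ENNReal.ofReal p)] (x : Fin n) (s : Seed n m J G P) : ℝ :=
  taper (fun a b => ‖y a - y b‖) (8 * (R : ℝ) * 2 ^ (s.1.1 : ℕ)) s.1.2 x *
    feat p R G (s.2.1 : ℕ) (fun k => (y x) k -
      (y (centre (fun a b => ‖y a - y b‖) (8 * (R : ℝ) * 2 ^ (s.1.1 : ℕ)) s.1.2 x)) k) s.2.2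

lemma abs_coord_le {J P : ℕ} (hG : Good p m R G N₀) (y : Fin n → Lq p m) (x : Fin n)
    (s : Seed n m J G P) : |coord p R G y x s| ≤ clip R := by
  have hR : (0 : ℝ) < R := by exact_mod_cast (show 0 < R by linarith [hG.R_ge])
  rw [coord, abs_mul]
  have h1 : |taper (fun a b => ‖y a - y b‖) (8 * (R : ℝ) * 2 ^ (s.1.1 : ℕ)) s.1.2 x| ≤ 1 := by
    rw [abs_of_nonneg (taper_nonneg (fun a b => norm_nonneg _) (by positivity) x)]
    exact taper_le_one x
  exact (mul_le_mul h1 (abs_soft_le (by unfold clip; positivity) _) (abs_nonneg _)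
    zero_le_one).trans (le_of_eq (one_mul _))

/-- The mean of a coordinate, scaled. -/
theorem coord_mean {J : ℕ} (hG : Good p m R G N₀) (hJ : 0 < J) (hJR : (2 : ℝ) ^ J ≤ 2 * R)
    (y : Fin n → Lq p m) (hy : ∀ i j, y i = y j ∨ 1 ≤ ‖y i - y j‖) (i j : Fin n) :
    (N₀ : ℝ) * (G + 1) * (𝔼 s : Seed n m J G (N₀ * R ^ G),
        |coord p R G y i s - coord p R G y j s| ^ p) ≤
      (G + 1) * (16 * 32 ^ p) * ‖y i - y j‖ ^ p ∧
    (1 ≤ ‖y i - y j‖ → ‖y i - y j‖ ≤ R →
      Real.exp (-(Real.log n / J)) / (4 * 2 ^ p) * ‖y i - y j‖ ^ p ≤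
        (N₀ : ℝ) * (G + 1) * (𝔼 s : Seed n m J G (N₀ * R ^ G),
          |coord p R G y i s - coord p R G y j s| ^ p)) := by
  have hp := hG.two_le
  have hp0 : 0 < p := by linarith
  have hR : (4 : ℝ) ≤ R := by exact_mod_cast hG.R_ge
  have hN : (0 : ℝ) < N₀ := by exact_mod_cast hG.N_pos
  have : Nonempty (Fin n) := ⟨i⟩
  have : Nonempty (Fin J) := ⟨⟨0, hJ⟩⟩
  set d : Fin n → Fin n → ℝ := fun a b => ‖y a - y b‖ with hd
  have hd0 : ∀ a, d a a = 0 := fun a => by simp [hd]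
  have hdn : ∀ a b, 0 ≤ d a b := fun a b => norm_nonneg _
  have hsym : ∀ a b, d a b = d b a := fun a b => norm_sub_rev _ _
  have htri : ∀ a b c, d a c ≤ d a b + d b c := fun a b c => norm_sub_le_norm_sub_add_norm_sub _ _ _
  set rad : Fin J → ℝ := fun a => 8 * (R : ℝ) * 2 ^ (a : ℕ) with hrad
  have hrad0 : ∀ a, 0 < rad a := fun a => by simp only [hrad]; positivity
  have hradR : ∀ a, rad a ≤ 16 * (R : ℝ) ^ 2 := fun a => by
    simp only [hrad]
    have : (2 : ℝ) ^ (a : ℕ) ≤ 2 ^ J := pow_le_pow_right₀ (by norm_num) a.2.le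
    calc 8 * (R : ℝ) * 2 ^ (a : ℕ) ≤ 8 * R * (2 * R) :=
          mul_le_mul_of_nonneg_left (this.trans hJR) (by positivity)
      _ = _ := by ring
  set vec : Fin J → Equiv.Perm (Fin n) → Fin n → Fin m → ℝ := fun a π x k =>
    (y x) k - (y (centre d (rad a) π x)) k with hvec
  have hvec_norm : ∀ a π x, ∑ k, |vec a π x k| ^ p = d x (centre d (rad a) π x) ^ p := fun a π x => by
    show _ = ‖y x - y (centre d (rad a) π x)‖ ^ p
    rw [lq_norm_pow hp0]
    rfl
  have hvec_le : ∀ a π x, ∑ k, |vec a π x k| ^ p ≤ rad a ^ p := fun a π x => by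
    rw [hvec_norm]
    exact Real.rpow_le_rpow (hdn _ _) (mem_filter.1 (centre_mem hd0 (hrad0 a).le x)).2 hp0.le
  have hvec_R : ∀ a π x, ∑ k, |vec a π x k| ^ p ≤ (16 * (R : ℝ) ^ 2) ^ p := fun a π x =>
    (hvec_le a π x).trans (Real.rpow_le_rpow (hrad0 a).le (hradR a) hp0.le)
  set dd := d i j with hdd
  -- the mean over levels and samples, scale and order fixed
  set M : Fin J × Equiv.Perm (Fin n) → ℝ := fun z => ∑ l : Fin (G + 1), (N₀ : ℝ) *
    (𝔼 ω : Fin m → Fin (N₀ * R ^ G) × Bool,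
      |coord p R G y i (z, l, ω) - coord p R G y j (z, l, ω)| ^ p) with hM
  have hsplit : (N₀ : ℝ) * (G + 1) * (𝔼 s : Seed n m J G (N₀ * R ^ G),
      |coord p R G y i s - coord p R G y j s| ^ p) = 𝔼 z, M z := by
    rw [← univ_product_univ, expect_product, mul_expect]
    refine expect_congr rfl fun z _ => ?_
    rw [← univ_product_univ, expect_product, hM, Fintype.expect_eq_sum_div_card, Fintype.card_fin,
      mul_div_assoc', mul_sum, sum_div]
    refine sum_congr rfl fun l _ => ?_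
    push_cast
    field_simp
  have hvdiff : ∀ a π, centre d (rad a) π i = centre d (rad a) π j →
      ∑ k, |vec a π i k - vec a π j k| ^ p = dd ^ p := by
    intro a π hc
    show _ = ‖y i - y j‖ ^ p
    rw [lq_norm_pow hp0]
    refine sum_congr rfl fun k _ => ?_
    simp only [hvec]
    rw [hc, sub_sub_sub_cancel_right]
    rfl
  refine ⟨?_, ?_⟩
  · rw [hsplit]
    refine expect_le univ_nonempty fun z _ => ?_
    obtain ⟨a, π⟩ := z
    set r := rad a with hr
    have hr0 := hrad0 a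
    rcases hy i j with hij | hij
    · have e : ∀ (l : Fin (G + 1)) (ω : Fin m → Fin (N₀ * R ^ G) × Bool),
          coord p R G y i ((a, π), l, ω) = coord p R G y j ((a, π), l, ω) := by
        intro l ω
        have hij' : d i j = 0 := by simp [hd, hij]
        have hz : ∀ v, d i v = d j v := fun v => by simp [hd, hij]
        have hc : centre d r π i = centre d r π j := by
          have : ball d i r = ball d j r := by ext v; simp [ball, hz v]
          simp only [centre, this]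
          split_ifs with h
          · rfl
          · exact absurd ⟨j, self_mem_ball hd0 hr0.le j⟩ h
        have ht : taper d r π i = taper d r π j := by
          refine le_antisymm ?_ ?_
          · have := taper_lip htri hr0 hdn (x := i) (y := j) hc
            rwa [hij', mul_zero, zero_div, add_zero] at this
          · have := taper_lip htri hr0 hdn (x := j) (y := i) hc.symm
            rwa [hsym, hij', mul_zero, zero_div, add_zero] at this
        simp only [coord, ← hd]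
        rw [show (8 : ℝ) * R * 2 ^ (a : ℕ) = r from rfl, ht, hc, hij]
      simp only [hM, e, sub_self, abs_zero, Real.zero_rpow hp0.ne', expect_const_zero, mul_zero,
        sum_const_zero]
      positivity
    have hd1 : 1 ≤ dd := hij
    have hd1' : 1 ≤ dd ^ p := Real.one_le_rpow hd1 hp0.le
    set Cp : ℝ := 8 * 2 ^ p with hCp
    have hsingle : ∀ x, ∀ l : Fin (G + 1), (N₀ : ℝ) *
        (𝔼 ω : Fin m → Fin (N₀ * R ^ G) × Bool, |feat p R G (l : ℕ) (vec a π x) ω| ^ p) ≤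
        Cp * r ^ p := by
      intro x l
      rcases hy x (centre d r π x) with h | h
      · have e : vec a π x = 0 := by
          funext k
          show (y x) k - (y (centre d r π x)) k = 0
          rw [← h, sub_self]
        simp only [e, feat_zero, abs_zero, Real.zero_rpow hp0.ne', expect_const_zero, mul_zero]
        positivity
      have h' := pair_upper hG (Nat.lt_succ_iff.1 l.2) (hvec_R a π x)
        (show ∑ k, |(0 : Fin m → ℝ) k| ^ p ≤ (16 * (R : ℝ) ^ 2) ^ p by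
          simp [Real.zero_rpow hp0.ne']; positivity)
      simp only [feat_zero, Pi.zero_apply, sub_zero] at h'
      refine h'.trans ?_
      have h1 : 1 ≤ ∑ k, |vec a π x k| ^ p := by
        rw [hvec_norm]; exact Real.one_le_rpow h hp0.le
      have h2 := hvec_le a π x
      rw [← hr] at h2
      have h3 : (1 : ℝ) ≤ 2 ^ p := Real.one_le_rpow (by norm_num) hp0.le
      rw [hCp]
      nlinarith
    have hlevel : ∀ l : Fin (G + 1), (N₀ : ℝ) * (𝔼 ω : Fin m → Fin (N₀ * R ^ G) × Bool,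
        |coord p R G y i ((a, π), l, ω) - coord p R G y j ((a, π), l, ω)| ^ p) ≤
        16 * 32 ^ p * dd ^ p := by
      intro l
      have hti := taper_nonneg (π := π) hdn hr0 i
      have htj := taper_nonneg (π := π) hdn hr0 j
      have hq : 8 * dd / r * r = 8 * dd := div_mul_cancel₀ _ hr0.ne'
      have hq0 : 0 ≤ 8 * dd / r := by positivity
      have hone : (1 : ℝ) ≤ 2 ^ p := Real.one_le_rpow (by norm_num) hp0.le
      have e32 : (32 : ℝ) ^ p = 2 ^ p * 2 ^ p * 8 ^ p := by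
        rw [← Real.mul_rpow (by norm_num) (by norm_num), ← Real.mul_rpow (by norm_num) (by norm_num)]
        norm_num
      have h8 : (1 : ℝ) ≤ 8 ^ p := Real.one_le_rpow (by norm_num) hp0.le
      by_cases hc : centre d r π i = centre d r π j
      · have pt : ∀ ω : Fin m → Fin (N₀ * R ^ G) × Bool, |coord p R G y i ((a, π), l, ω) - coord p R G y j ((a, π), l, ω)| ^ p ≤
            2 ^ p * (|feat p R G (l : ℕ) (vec a π i) ω - feat p R G (l : ℕ) (vec a π j) ω| ^ p +
              (8 * dd / r) ^ p * |feat p R G (l : ℕ) (vec a π j) ω| ^ p) := by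
          intro ω
          set fi := feat p R G (l : ℕ) (vec a π i) ω
          set fj := feat p R G (l : ℕ) (vec a π j) ω
          have hw : |taper d r π i - taper d r π j| ≤ 8 * dd / r := by
            have l1 := taper_lip htri hr0 hdn hc
            have l2 := taper_lip htri hr0 hdn hc.symm
            rw [hsym j i] at l2
            rw [abs_le]; constructor <;> linarith
          have e : coord p R G y i ((a, π), l, ω) - coord p R G y j ((a, π), l, ω) =
              taper d r π i * (fi - fj) + (taper d r π i - taper d r π j) * fj := by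
            show taper d r π i * fi - taper d r π j * fj = _
            ring
          rw [e, ← Real.mul_rpow hq0 (abs_nonneg _)]
          refine (Real.rpow_le_rpow (abs_nonneg _) ((abs_add_le _ _).trans
            (add_le_add ?_ ?_)) hp0.le).trans (pow_add_le hp0.le (abs_nonneg _) (by positivity))
          · rw [abs_mul, abs_of_nonneg hti]
            exact mul_le_of_le_one_left (abs_nonneg _) (taper_le_one i)
          · rw [abs_mul]
            exact mul_le_mul_of_nonneg_right hw (abs_nonneg _)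
        refine (mul_le_mul_of_nonneg_left (expect_le_expect fun ω _ => pt ω) hN.le).trans ?_
        rw [← mul_expect, expect_add_distrib, ← mul_expect]
        have h1 := pair_upper hG (Nat.lt_succ_iff.1 l.2) (hvec_R a π i) (hvec_R a π j)
        have hdiff := hvdiff a π hc
        rw [hdiff] at h1
        have h2 := mul_le_mul_of_nonneg_left (hsingle j l) (Real.rpow_nonneg hq0 p)
        have h3 : (8 * dd / r) ^ p * (Cp * r ^ p) = Cp * (8 ^ p * dd ^ p) := by
          rw [show (8 : ℝ) ^ p * dd ^ p = (8 * dd / r) ^ p * r ^ p by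
            rw [← Real.mul_rpow hq0 hr0.le, hq, Real.mul_rpow (by norm_num) (hdn _ _)]]
          ring
        rw [h3] at h2
        have h4 := mul_le_mul_of_nonneg_left (add_le_add h1 h2) (show (0 : ℝ) ≤ 2 ^ p by positivity)
        rw [e32]
        have b1 : 2 + 2 ^ p * (dd ^ p + 2) ≤ 5 * (2 ^ p * 8 ^ p * dd ^ p) := by
          have := mul_le_mul hone h8 zero_le_one (by positivity)
          have : (1 : ℝ) ≤ 2 ^ p * 8 ^ p * dd ^ p := by
            calc (1 : ℝ) = 1 * 1 := (one_mul _).symm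
              _ ≤ _ := mul_le_mul (by linarith) hd1' zero_le_one (by positivity)
          have b2 : 2 ^ p * dd ^ p ≤ 2 ^ p * 8 ^ p * dd ^ p := by
            refine mul_le_mul_of_nonneg_right ?_ (by positivity)
            exact le_mul_of_one_le_right (by positivity) h8
          have b3 : (2 : ℝ) ^ p ≤ 2 ^ p * 8 ^ p * dd ^ p := by
            calc (2 : ℝ) ^ p = 2 ^ p * 1 * 1 := by ring
              _ ≤ _ := by gcongr
          linarith
        have b4 := mul_le_mul_of_nonneg_left b1 (show (0 : ℝ) ≤ 2 ^ p by positivity)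
        rw [hCp] at h4
        have b5 : 0 ≤ 2 ^ p * (2 ^ p * 8 ^ p * dd ^ p) := by positivity
        linarith
      · have hwi : taper d r π i ≤ 8 * dd / r := taper_boundary (fun h => hc h.symm)
        have hwj : taper d r π j ≤ 8 * dd / r := by
          have := taper_boundary (d := d) (r := r) (π := π) (x := j) (y := i) hc
          rwa [hsym j i] at this
        have pt : ∀ ω : Fin m → Fin (N₀ * R ^ G) × Bool, |coord p R G y i ((a, π), l, ω) - coord p R G y j ((a, π), l, ω)| ^ p ≤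
            2 ^ p * (8 * dd / r) ^ p * (|feat p R G (l : ℕ) (vec a π i) ω| ^ p +
              |feat p R G (l : ℕ) (vec a π j) ω| ^ p) := by
          intro ω
          set fi := feat p R G (l : ℕ) (vec a π i) ω
          set fj := feat p R G (l : ℕ) (vec a π j) ω
          have e : coord p R G y i ((a, π), l, ω) - coord p R G y j ((a, π), l, ω) =
              taper d r π i * fi - taper d r π j * fj := rfl
          rw [e, mul_assoc, mul_add, ← Real.mul_rpow hq0 (abs_nonneg _),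
            ← Real.mul_rpow hq0 (abs_nonneg _)]
          refine (Real.rpow_le_rpow (abs_nonneg _) ((abs_sub _ _).trans
            (add_le_add ?_ ?_)) hp0.le).trans (pow_add_le hp0.le (by positivity) (by positivity))
          · rw [abs_mul, abs_of_nonneg hti]
            exact mul_le_mul_of_nonneg_right hwi (abs_nonneg _)
          · rw [abs_mul, abs_of_nonneg htj]
            exact mul_le_mul_of_nonneg_right hwj (abs_nonneg _)
        refine (mul_le_mul_of_nonneg_left (expect_le_expect fun ω _ => pt ω) hN.le).trans ?_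
        rw [← mul_expect, expect_add_distrib]
        have h2 := mul_le_mul_of_nonneg_left (add_le_add (hsingle i l) (hsingle j l))
          (show 0 ≤ 2 ^ p * (8 * dd / r) ^ p by positivity)
        have h3 : (8 * dd / r) ^ p * (Cp * r ^ p) = Cp * (8 ^ p * dd ^ p) := by
          rw [show (8 : ℝ) ^ p * dd ^ p = (8 * dd / r) ^ p * r ^ p by
            rw [← Real.mul_rpow hq0 hr0.le, hq, Real.mul_rpow (by norm_num) (hdn _ _)]]
          ring
        have h4 : 2 ^ p * (8 * dd / r) ^ p * (Cp * r ^ p + Cp * r ^ p) =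
            2 * 2 ^ p * (Cp * (8 ^ p * dd ^ p)) := by rw [← h3]; ring
        rw [h4, hCp] at h2
        rw [e32]
        have h5 : 0 ≤ (2 : ℝ) ^ p * 2 ^ p * 8 ^ p * dd ^ p := by positivity
        have h6 : 2 * 2 ^ p * (8 * 2 ^ p * (8 ^ p * dd ^ p)) =
            16 * (2 ^ p * 2 ^ p * 8 ^ p * dd ^ p) := by ring
        rw [h6] at h2
        nlinarith
    simp only [hM]
    refine (sum_le_sum fun l _ => hlevel l).trans (le_of_eq ?_)
    rw [sum_const, card_univ, Fintype.card_fin, nsmul_eq_mul, hdd, hd]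
    push_cast
    ring
  · intro h1 hRd
    rw [hsplit]
    set κ : ℝ := dd ^ p / (4 * 2 ^ p) with hκ
    have hz : ∀ z : Fin J × Equiv.Perm (Fin n), isPad d (rad z.1) z.2 i * κ ≤ M z := by
      rintro ⟨a, π⟩
      set r := rad a with hr
      unfold isPad
      split_ifs with hpad
      swap
      · rw [zero_mul]
        exact sum_nonneg fun l _ => mul_nonneg hN.le (expect_nonneg fun ω _ => by positivity)
      obtain ⟨v, hv, hvmin⟩ := hpad
      obtain ⟨hc, hwi, hwj⟩ := padded hd0 hdn hsym htri (hrad0 a) hv hvmin (y := j) (by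
        change dd ≤ r / 8
        have : (1 : ℝ) ≤ 2 ^ (a : ℕ) := one_le_pow₀ (by norm_num)
        simp only [hr, hrad]
        change dd ≤ R at hRd
        nlinarith)
      have e : ∀ (l : Fin (G + 1)) (ω : Fin m → Fin (N₀ * R ^ G) × Bool),
          coord p R G y i ((a, π), l, ω) - coord p R G y j ((a, π), l, ω) =
          feat p R G (l : ℕ) (vec a π i) ω - feat p R G (l : ℕ) (vec a π j) ω := fun l ω => by
        show taper d r π i * feat p R G (l : ℕ) (vec a π i) ω -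
          taper d r π j * feat p R G (l : ℕ) (vec a π j) ω = _
        rw [hwi, hwj, one_mul, one_mul]
      simp only [hM, e, one_mul]
      have hdiff := hvdiff a π hc.symm
      have h := pair_lower hG (hvec_R a π i) (hvec_R a π j) (hrad0 a).le (hradR a)
        (hvec_le a π i) (hvec_le a π j) (by rw [hdiff]; exact Real.one_le_rpow h1 hp0.le)
        (by rw [hdiff]; exact Real.rpow_le_rpow (hdn _ _) hRd hp0.le)
      rw [hdiff, ← Fin.sum_univ_eq_sum_range] at h
      exact h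
    refine le_trans ?_ (expect_le_expect fun z _ => hz z)
    rw [← univ_product_univ, expect_product]
    simp only [← expect_mul]
    rw [Fintype.expect_eq_sum_div_card, Fintype.card_fin]
    have hs := expect_pad_scales (r := 8 * (R : ℝ)) hd0 (by positivity) J i
    rw [← Fin.sum_univ_eq_sum_range
      (fun a => 𝔼 π : Equiv.Perm (Fin n), isPad d (8 * (R : ℝ) * 2 ^ a) π i)] at hs
    have hJ' : (0 : ℝ) < J := by exact_mod_cast hJ
    have h2 : Real.exp (-(Real.log n / J)) ≤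
        (∑ a : Fin J, 𝔼 π : Equiv.Perm (Fin n), isPad d (rad a) π i) / J := by
      rw [le_div_iff₀ hJ', mul_comm]; exact hs
    calc Real.exp (-(Real.log n / J)) / (4 * 2 ^ p) * ‖y i - y j‖ ^ p
        = Real.exp (-(Real.log n / J)) * κ := by rw [hκ, hdd, hd]; ring
      _ ≤ _ := mul_le_mul_of_nonneg_right h2 (by positivity)

end carved

/-- The parameters are admissible for large `R`. -/
lemma good_params {p : ℝ} (hp : 2 ≤ p) {s k₀ g m R N₀ : ℕ} (hps : p ≤ s) (hk : 16 * s + 16 ≤ k₀)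
    (hR0 : 656000000 ≤ R) (hm : 1 ≤ m) (hmR : (m : ℝ) ≤ (R : ℝ) ^ g)
    (hN₀pos : 0 < N₀) (hN₀l : (m : ℝ) ^ (1 - 2 / p) * (R : ℝ) ^ k₀ ≤ N₀)
    (hN₀k : (R : ℝ) ^ k₀ ≤ N₀) (hN₀R : (N₀ : ℝ) ≤ (R : ℝ) ^ (g + 1 + k₀))
    (hdec : (R : ℝ) ^ (g + 1 + k₀ + 4 * s) * Real.exp (-(R : ℝ)) ≤ 1 / (16 * Real.exp 1)) :
    Good p m R (g + 1) N₀ ∧ 2 * clip R ≤ (R : ℝ) ^ 4 ∧ (2 * clip R) ^ p ≤ (R : ℝ) ^ (4 * s) := by
  have hp0 : 0 < p := by linarith
  have hRr : (656000000 : ℝ) ≤ R := by exact_mod_cast hR0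
  have hR1 : (1 : ℝ) ≤ R := by linarith
  have hm1 : (1 : ℝ) ≤ m := by exact_mod_cast hm
  have hpp : ∀ x : ℝ, 0 ≤ x → ∀ e : ℕ, x ≤ (R : ℝ) ^ e → x ^ p ≤ (R : ℝ) ^ (e * s) := by
    intro x hx e he
    rw [pow_mul]
    refine (Real.rpow_le_rpow hx he hp0.le).trans ?_
    rw [← Real.rpow_natCast ((R : ℝ) ^ e) s]
    exact Real.rpow_le_rpow_of_exponent_le (one_le_pow₀ hR1) hps
  have hclip : 2 * clip R ≤ (R : ℝ) ^ 4 := by
    have h1 : (96 : ℝ) * (R : ℝ) ^ 3 + 2 ≤ R * (R : ℝ) ^ 3 := by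
      have : (1 : ℝ) ≤ (R : ℝ) ^ 3 := one_le_pow₀ hR1
      nlinarith
    rw [clip]; linarith [show (R : ℝ) ^ 4 = R * (R : ℝ) ^ 3 by ring]
  have hclip0 : 0 ≤ 2 * clip R := by rw [clip]; positivity
  have hnz : 0 < noise R / (R : ℝ) := by rw [noise]; positivity
  have hratio : 16 * (R : ℝ) ^ 2 / (noise R / R) ≤ (R : ℝ) ^ 6 := by
    have e : 16 * (R : ℝ) ^ 2 / (noise R / R) = 25600 * (R : ℝ) ^ 5 := by
      rw [noise]; field_simp; ring
    rw [e, show (R : ℝ) ^ 6 = R * (R : ℝ) ^ 5 by ring]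
    exact mul_le_mul_of_nonneg_right (by linarith) (by positivity)
  have hβ := hpp _ (by rw [noise]; positivity) 6 hratio
  have hT := hpp _ hclip0 4 hclip
  refine ⟨?_, hclip, hT⟩
  refine ⟨hp, by omega, hN₀pos, ?_, ?_, ?_, ?_, ?_, ?_⟩
  · rw [noise]
    have h1 : (16 * (R : ℝ) ^ 2) ^ 2 * (1600 * (R : ℝ) ^ 3) ^ 2 ≤ (R : ℝ) ^ k₀ := by
      refine le_trans ?_ (pow_le_pow_right₀ hR1 (show 12 ≤ k₀ by omega))
      rw [show (16 * (R : ℝ) ^ 2) ^ 2 * (1600 * (R : ℝ) ^ 3) ^ 2 = 655360000 * (R : ℝ) ^ 10 by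
        ring, show (R : ℝ) ^ 12 = (R : ℝ) ^ 2 * (R : ℝ) ^ 10 by ring]
      gcongr
      nlinarith
    rw [show (1 / (1600 * (R : ℝ) ^ 2) / R) ^ 2 = 1 / (1600 * (R : ℝ) ^ 3) ^ 2 by
      field_simp, mul_one_div, le_div_iff₀ (by positivity), mul_assoc]
    exact (mul_le_mul_of_nonneg_left h1 (Real.rpow_nonneg (Nat.cast_nonneg m) _)).trans hN₀l
  · rw [div_le_iff₀ (by linarith [show (1 : ℝ) ≤ (R : ℝ) ^ k₀ from one_le_pow₀ hR1])]
    have h1 : 8 * (R : ℝ) ^ (6 * s) ≤ (R : ℝ) ^ k₀ := by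
      refine le_trans ?_ (pow_le_pow_right₀ hR1 (show 6 * s + 1 ≤ k₀ by omega))
      rw [pow_succ, mul_comm]
      gcongr
      linarith
    linarith
  · set β := (16 * (R : ℝ) ^ 2 / (noise R / R)) ^ p with hβdef
    have hN0 : (0 : ℝ) < N₀ := by linarith [show (1 : ℝ) ≤ (R : ℝ) ^ k₀ from one_le_pow₀ hR1]
    rw [show (2 * β / N₀) ^ 2 * N₀ = 4 * β ^ 2 / N₀ by field_simp; ring, mul_div_assoc',
      div_le_one hN0]
    have hβ0 : 0 ≤ β := Real.rpow_nonneg (by rw [noise]; positivity) _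
    calc (2 * clip R) ^ p * (4 * β ^ 2) ≤ (R : ℝ) ^ (4 * s) * (4 * ((R : ℝ) ^ (6 * s)) ^ 2) := by
          gcongr
      _ ≤ (R : ℝ) ^ (4 * s) * (R * ((R : ℝ) ^ (6 * s)) ^ 2) := by gcongr; linarith
      _ = (R : ℝ) ^ (16 * s + 1) := by
          rw [← pow_mul, ← pow_succ', ← pow_add]; ring_nf
      _ ≤ (R : ℝ) ^ k₀ := pow_le_pow_right₀ hR1 (by omega)
      _ ≤ _ := hN₀k
  · calc (2 * clip R) ^ p * (4 * Real.exp (1 - R)) * N₀
        ≤ (R : ℝ) ^ (4 * s) * (4 * Real.exp (1 - R)) * (R : ℝ) ^ (g + 1 + k₀) := by gcongr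
      _ = 4 * Real.exp 1 * ((R : ℝ) ^ (g + 1 + k₀ + 4 * s) * Real.exp (-(R : ℝ))) := by
          rw [pow_add _ _ (4 * s), sub_eq_add_neg, Real.exp_add]; ring
      _ ≤ 4 * Real.exp 1 * (1 / (16 * Real.exp 1)) := by gcongr
      _ ≤ 1 := by field_simp; norm_num
  · calc 4 * Real.exp (1 - (R : ℝ))
        = 4 * Real.exp 1 * (1 * Real.exp (-(R : ℝ))) := by
          rw [sub_eq_add_neg, Real.exp_add]; ring
      _ ≤ 4 * Real.exp 1 * ((R : ℝ) ^ (g + 1 + k₀ + 4 * s) * Real.exp (-(R : ℝ))) := by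
          gcongr; exact one_le_pow₀ hR1
      _ ≤ 4 * Real.exp 1 * (1 / (16 * Real.exp 1)) := by gcongr
      _ = 1 / 4 := by field_simp; norm_num
  · rw [pow_succ, mul_comm]
    gcongr
    linarith

/-- The sample size. -/
lemma size_le {C₀ ε L b mθ T M H : ℝ} (hε : 0 < ε) (hb : 0 < b) (hL : 0 ≤ L) (hmθ : 1 ≤ mθ)
    {R n e₁ e₂ g N : ℕ} (hR : (656000000 : ℝ) ≤ R) (hn : 2 ≤ n) (hnR : (n : ℝ) ≤ (R : ℝ) ^ g)
    (hL' : L = 2 * (g : ℝ) + 4) (hT0 : 0 ≤ T) (hT : T ≤ (R : ℝ) ^ e₂) (hM0 : 0 ≤ M)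
    (hM : M ≤ H * mθ * (R : ℝ) ^ e₁) (hH : 0 ≤ H)
    (hC : C₀ = 4 * (H / b + 1) / ε ^ 2 * L + 2)
    (hN : N = ⌈4 * (T * M / b + 1) / ε ^ 2 * Real.log (2 * (n : ℝ) ^ 2 + 1)⌉₊ + 1) :
    (N : ℝ) ≤ C₀ * mθ * (R : ℝ) ^ (e₁ + e₂ + 2) := by
  have hR1 : (1 : ℝ) ≤ R := by linarith
  have hn2 : (2 : ℝ) ≤ n := by exact_mod_cast hn
  set W := mθ * (R : ℝ) ^ (e₁ + e₂) with hW
  have hW1 : 1 ≤ W := one_le_mul_of_one_le_of_one_le hmθ (one_le_pow₀ hR1)
  have hlog : Real.log (2 * (n : ℝ) ^ 2 + 1) ≤ L * R := by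
    calc Real.log (2 * (n : ℝ) ^ 2 + 1) ≤ Real.log (((R : ℝ) ^ g) ^ 2 * (R : ℝ) ^ 2) := by
          refine Real.log_le_log (by positivity) ?_
          have h1 : (n : ℝ) ^ 2 ≤ ((R : ℝ) ^ g) ^ 2 := pow_le_pow_left₀ (by linarith) hnR 2
          have h2 : (3 : ℝ) ≤ (R : ℝ) ^ 2 := by nlinarith
          have h3 : (1 : ℝ) ≤ (n : ℝ) ^ 2 := one_le_pow₀ (by linarith)
          calc 2 * (n : ℝ) ^ 2 + 1 ≤ (n : ℝ) ^ 2 * 3 := by linarith
            _ ≤ _ := mul_le_mul h1 h2 (by norm_num) (by positivity)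
      _ = (2 * g + 2) * Real.log R := by
          rw [← pow_mul, ← pow_add, Real.log_pow]; push_cast; ring
      _ ≤ L * R := by
          rw [hL']
          exact mul_le_mul (by linarith) ((Real.log_le_sub_one_of_pos (by linarith)).trans
            (by linarith)) (Real.log_nonneg hR1) (by positivity)
  have hl0 : 0 ≤ Real.log (2 * (n : ℝ) ^ 2 + 1) := Real.log_nonneg (by nlinarith)
  have h1 : T * M / b + 1 ≤ (H / b + 1) * W := by
    have h : T * M ≤ H * W := by
      refine (mul_le_mul hT hM hM0 (by positivity)).trans (le_of_eq ?_)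
      rw [hW, pow_add]; ring
    rw [add_mul, one_mul, div_mul_eq_mul_div]
    exact add_le_add (div_le_div_of_nonneg_right h hb.le) hW1
  have h2 : 4 * (T * M / b + 1) / ε ^ 2 * Real.log (2 * (n : ℝ) ^ 2 + 1) ≤
      4 * ((H / b + 1) * W) / ε ^ 2 * (L * R) := by gcongr
  have hR2 : (R : ℝ) ≤ (R : ℝ) ^ 2 := by nlinarith
  have h3 : W * R ≤ mθ * (R : ℝ) ^ (e₁ + e₂ + 2) := by
    rw [hW, pow_add _ (e₁ + e₂) 2, mul_assoc]
    gcongr
  have h4 : 1 ≤ mθ * (R : ℝ) ^ (e₁ + e₂ + 2) :=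
    one_le_mul_of_one_le_of_one_le hmθ (one_le_pow₀ hR1)
  have hceil := Nat.ceil_lt_add_one
    (show 0 ≤ 4 * (T * M / b + 1) / ε ^ 2 * Real.log (2 * (n : ℝ) ^ 2 + 1) by positivity)
  have h5 := mul_le_mul_of_nonneg_left h3
    (show 0 ≤ 4 * (H / b + 1) / ε ^ 2 * L by positivity)
  rw [show 4 * ((H / b + 1) * W) / ε ^ 2 * (L * R) =
    4 * (H / b + 1) / ε ^ 2 * L * (W * R) by ring] at h2
  rw [hN, hC]
  push_cast
  linarith

set_option maxHeartbeats 1600000 in
/-- Features for `p ≥ 2`. -/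
theorem exists_high_feature {p : ℝ} [Fact (1 ≤ ENNReal.ofReal p)] (hp : 2 ≤ p) :
    ∃ k : ℕ, ∀ g : ℕ, ∃ C : ℝ, 1 ≤ C ∧ ∃ R₀ : ℕ, ∀ n : ℕ, 2 ≤ n → ∀ m : ℕ, 1 ≤ m →
      ∀ R : ℕ, R₀ ≤ R → (n : ℝ) ≤ (R : ℝ) ^ g → (m : ℝ) ≤ (R : ℝ) ^ g →
      ∃ N : ℕ, (N : ℝ) ≤ C * (m : ℝ) ^ (1 - 2 / p) * (R : ℝ) ^ k ∧
        ∀ y : Fin n → Lq p m, (∀ i j, y i = y j ∨ 1 ≤ ‖y i - y j‖) →
          ∃ F : Fin n → Lq p N, ∀ i j,
            (‖y i - y j‖ ≤ (R : ℝ) → ‖y i - y j‖ ≤ ‖F i - F j‖) ∧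
            ‖F i - F j‖ ≤ C * ‖y i - y j‖ ∧
            ‖F i - F j‖ ≤ C * (R : ℝ) ^ (g + k) := by
  have hp0 : 0 < p := by linarith
  set s := ⌈p⌉₊ with hs
  have hps : p ≤ s := Nat.le_ceil p
  set k₀ := 16 * s + 16 with hk₀
  refine ⟨k₀ + 4 * s + 2, fun g => ?_⟩
  set G := g + 1 with hGdef
  set b : ℝ := ((G : ℝ) + 1) * (16 * 32 ^ p) with hb
  set a : ℝ := Real.exp (-(g : ℝ)) / (4 * 2 ^ p) with ha
  have ha0 : 0 < a := by positivity
  have hb0 : 0 < b := by positivity
  have hab : a ≤ b := by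
    have h1 : a ≤ 1 := by
      rw [ha, div_le_one (by positivity)]
      have := Real.exp_le_one_iff.2 (by simp : -(g : ℝ) ≤ 0)
      have : (1 : ℝ) ≤ 2 ^ p := Real.one_le_rpow (by norm_num) hp0.le
      linarith
    have h2 : (1 : ℝ) ≤ (G + 1) * (16 * 32 ^ p) := by
      have : (1 : ℝ) ≤ 32 ^ p := Real.one_le_rpow (by norm_num) hp0.le
      exact one_le_mul_of_one_le_of_one_le (by simp) (by linarith)
    linarith
  set ε : ℝ := a / (2 * b) with hεdef
  have hε : 0 < ε := by positivity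
  have hε1 : ε ≤ 1 := by rw [hεdef, div_le_one (by positivity)]; linarith
  set L : ℝ := (2 * (g : ℝ) + 4) with hL
  set CN : ℝ := 4 * (2 * (((G : ℝ) + 1) / b) + 1) / ε ^ 2 * L + 2 with hCN
  set CB : ℝ := 4 * ((G : ℝ) + 1) / a with hCB
  set C : ℝ := max CN (max (4 * b / a) CB) with hC
  have hC1 : 1 ≤ C := le_max_of_le_right (le_max_of_le_left (by
    rw [le_div_iff₀ ha0]; linarith))
  obtain ⟨R₁, hR₁⟩ := Filter.eventually_atTop.1
    (((Real.tendsto_pow_mul_exp_neg_atTop_nhds_zero (g + 1 + k₀ + 4 * s)).eventually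
      (eventually_le_nhds (show (0 : ℝ) < 1 / (16 * Real.exp 1) by positivity))))
  refine ⟨C, hC1, max ⌈R₁⌉₊ 656000000, fun n hn m hm R hR hnR hmR => ?_⟩
  have hR0 : 656000000 ≤ R := (le_max_right _ _).trans hR
  have hRr : (656000000 : ℝ) ≤ R := by exact_mod_cast hR0
  have hR1 : (1 : ℝ) ≤ R := by linarith
  have hR₁' : R₁ ≤ R := (Nat.le_ceil R₁).trans (by exact_mod_cast (le_max_left _ _).trans hR)
  have hdec := hR₁ R hR₁'
  set θ := 1 - 2 / p with hθ
  have hθ0 : 0 ≤ θ := by rw [hθ, sub_nonneg, div_le_one hp0]; exact hp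
  have hm1 : (1 : ℝ) ≤ m := by exact_mod_cast hm
  have hmθ : 1 ≤ (m : ℝ) ^ θ := Real.one_le_rpow hm1 hθ0
  have hmθR : (m : ℝ) ^ θ ≤ (R : ℝ) ^ g := by
    refine le_trans ?_ hmR
    exact Real.rpow_le_self_of_one_le hm1 (by rw [hθ]; linarith [show 0 ≤ 2 / p by positivity])
  set N₀ := ⌈(m : ℝ) ^ θ⌉₊ * R ^ k₀ with hN₀
  have hN₀c : (N₀ : ℝ) ≤ 2 * (m : ℝ) ^ θ * (R : ℝ) ^ k₀ := by
    rw [hN₀]; push_cast
    refine mul_le_mul_of_nonneg_right ?_ (by positivity)
    linarith [Nat.ceil_lt_add_one (show 0 ≤ (m : ℝ) ^ θ by linarith)]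
  have hN₀l : (m : ℝ) ^ θ * (R : ℝ) ^ k₀ ≤ N₀ := by
    rw [hN₀]; push_cast
    exact mul_le_mul_of_nonneg_right (Nat.le_ceil _) (by positivity)
  have hN₀k : (R : ℝ) ^ k₀ ≤ N₀ := (le_mul_of_one_le_left (by positivity) hmθ).trans hN₀l
  have hN₀R : (N₀ : ℝ) ≤ (R : ℝ) ^ (g + 1 + k₀) := by
    refine hN₀c.trans ?_
    rw [pow_add (R : ℝ) (g + 1) k₀, pow_succ' (R : ℝ) g]
    gcongr
    linarith
  obtain ⟨hG, hclip, hT⟩ := good_params hp hps (show 16 * s + 16 ≤ k₀ by omega) hR0 hm hmR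
    (Nat.mul_pos (Nat.ceil_pos.2 (by linarith)) (pow_pos (by omega) _)) hN₀l hN₀k hN₀R hdec
  have hclip0 : 0 ≤ 2 * clip R := by rw [clip]; positivity
  set J := Nat.log 2 R + 1 with hJ
  have hJ2 : (2 : ℝ) ^ J ≤ 2 * R := by
    rw [hJ, pow_succ, mul_comm]
    gcongr
    exact_mod_cast Nat.pow_log_le_self 2 (by omega)
  have hJexp : Real.exp (-(g : ℝ)) ≤ Real.exp (-(Real.log n / J)) := by
    refine Real.exp_le_exp.2 (neg_le_neg ?_)
    have hJ0 : (0 : ℝ) < J := by rw [hJ]; positivity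
    rw [div_le_iff₀ hJ0]
    have hlt : (R : ℝ) ≤ (2 : ℝ) ^ J := by
      exact_mod_cast (Nat.lt_pow_succ_log_self (by norm_num) R).le
    have h1 : Real.log n ≤ g * Real.log R := by
      rw [← Real.log_pow]
      exact Real.log_le_log (by exact_mod_cast (show 0 < n by omega)) hnR
    have h2 : Real.log R ≤ J := by
      refine (Real.log_le_log (by linarith) hlt).trans ?_
      rw [Real.log_pow]
      exact mul_le_of_le_one_right hJ0.le (by linarith [Real.log_two_lt_d9])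
    exact h1.trans (mul_le_mul_of_nonneg_left h2 (Nat.cast_nonneg g))
  -- the sample size
  set M : ℝ := (N₀ : ℝ) * (G + 1) with hM
  have hN0 : (0 : ℝ) < N₀ := by exact_mod_cast hG.N_pos
  have hM0 : 0 < M := by positivity
  set Λ : ℝ := (2 * clip R) ^ p * M / b + 1 with hΛ
  have hΛ0 : 0 < Λ := by positivity
  set N := ⌈4 * Λ / ε ^ 2 * Real.log (2 * (n : ℝ) ^ 2 + 1)⌉₊ + 1 with hN
  have hn2 : (2 : ℝ) ≤ n := by exact_mod_cast hn
  have hl0 : 0 ≤ Real.log (2 * (n : ℝ) ^ 2 + 1) := Real.log_nonneg (by nlinarith)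
  have hNpos : (0 : ℝ) < N := by rw [hN]; positivity
  refine ⟨N, ?_, ?_⟩
  · refine (size_le (C₀ := CN) hε hb0 (by rw [hL]; positivity) hmθ hRr hn hnR hL
      (Real.rpow_nonneg hclip0 p) hT hM0.le
      (H := 2 * ((G : ℝ) + 1)) (e₁ := k₀) (e₂ := 4 * s) ?_ (by positivity) ?_ hN).trans ?_
    · rw [hM]
      calc (N₀ : ℝ) * (G + 1) ≤ 2 * (m : ℝ) ^ θ * (R : ℝ) ^ k₀ * (G + 1) := by gcongr
        _ = _ := by ring
    · rw [hCN]; ring
    · gcongr
      exact le_max_left _ _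
  intro y hy
  classical
  have : Nonempty (Fin n) := ⟨⟨0, by omega⟩⟩
  have : Nonempty (Fin (N₀ * R ^ G) × Bool) :=
    ⟨(⟨0, Nat.mul_pos hG.N_pos (pow_pos (by omega) _)⟩, true)⟩
  have : Nonempty (Fin J) := ⟨⟨0, by omega⟩⟩
  let P := { q : Fin n × Fin n // y q.1 ≠ y q.2 }
  set Δ : P → Seed n m J G (N₀ * R ^ G) → ℝ := fun q s =>
    |coord p R G y q.1.1 s - coord p R G y q.1.2 s| ^ p with hΔ
  set E : P → ℝ := fun q => 𝔼 s, Δ q s with hE
  set U : P → ℝ := fun q => b / M * ‖y q.1.1 - y q.1.2‖ ^ p with hU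
  have hd1 : ∀ q : P, 1 ≤ ‖y q.1.1 - y q.1.2‖ := fun q => (hy _ _).resolve_left q.2
  have hmean : ∀ q : P, E q ≤ U q ∧ (‖y q.1.1 - y q.1.2‖ ≤ R →
      a / M * ‖y q.1.1 - y q.1.2‖ ^ p ≤ E q) := by
    intro q
    obtain ⟨h1, h2⟩ := coord_mean (J := J) hG (by omega) hJ2 y hy q.1.1 q.1.2
    refine ⟨?_, fun hR' => ?_⟩
    · rw [hU]
      simp only [div_mul_eq_mul_div]
      rw [le_div_iff₀ hM0, hM, mul_comm]
      exact h1
    · rw [div_mul_eq_mul_div, div_le_iff₀ hM0, hM, mul_comm (E q)]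
      refine le_trans (mul_le_mul_of_nonneg_right ?_ (by positivity)) (h2 (hd1 q) hR')
      exact div_le_div_of_nonneg_right hJexp (by positivity)
  have hU0 : ∀ q, b / M ≤ U q := fun q =>
    le_mul_of_one_le_right (by positivity) (Real.one_le_rpow (hd1 q) hp0.le)
  have hUpos : ∀ q, 0 < U q := fun q => lt_of_lt_of_le (by positivity) (hU0 q)
  have hΔb : ∀ q s, Δ q s ≤ (2 * clip R) ^ p := fun q s => by
    refine Real.rpow_le_rpow (abs_nonneg _) ((abs_sub _ _).trans ?_) hp0.le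
    linarith [abs_coord_le hG y q.1.1 s, abs_coord_le hG y q.1.2 s]
  obtain ⟨w, hw⟩ := exists_finite_sample Δ U E (fun q => rfl)
    (fun q s => Real.rpow_nonneg (abs_nonneg _) _) (fun q => (hmean q).1) hUpos hΛ0 hε hε1
    (fun q s => by
      rw [div_le_iff₀ (hUpos q), hΛ, add_mul, one_mul]
      refine add_le_add ((hΔb q s).trans ?_)
        (by linarith [show 0 ≤ E q from expect_nonneg fun s _ => Real.rpow_nonneg (abs_nonneg _) _])
      calc (2 * clip R) ^ p = (2 * clip R) ^ p * M / b * (b / M) := by field_simp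
        _ ≤ _ := mul_le_mul_of_nonneg_left (hU0 q) (by positivity))
    N (by
      have hQ : (Fintype.card P : ℝ) ≤ (n : ℝ) ^ 2 := by
        have := Fintype.card_subtype_le (fun q : Fin n × Fin n => y q.1 ≠ y q.2)
        rw [Fintype.card_prod, Fintype.card_fin] at this
        rw [sq]; exact_mod_cast this
      calc 4 * Λ / ε ^ 2 * Real.log (2 * (Fintype.card P : ℝ) + 1)
          ≤ 4 * Λ / ε ^ 2 * Real.log (2 * (n : ℝ) ^ 2 + 1) := by gcongr
        _ < (N : ℝ) := by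
            rw [hN]; push_cast
            linarith [Nat.le_ceil (4 * Λ / ε ^ 2 * Real.log (2 * (n : ℝ) ^ 2 + 1))])
  set cp : ℝ := 2 * M / ((N : ℝ) * a) with hcp
  have hcp0 : 0 < cp := by positivity
  set c : ℝ := cp ^ (1 / p) with hc
  refine ⟨fun i => WithLp.toLp _ fun l => c * coord p R G y i (w l), fun i j => ?_⟩
  by_cases hij : y i = y j
  · have hmean0 : ∀ s : Seed n m J G (N₀ * R ^ G), coord p R G y i s = coord p R G y j s := by
      intro s
      have h := (coord_mean (J := J) hG (by omega) hJ2 y hy i j).1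
      rw [hij, sub_self, norm_zero, Real.zero_rpow hp0.ne', mul_zero] at h
      have h0 : (𝔼 s : Seed n m J G (N₀ * R ^ G),
          |coord p R G y i s - coord p R G y j s| ^ p) = 0 :=
        le_antisymm (by rw [mul_comm] at h; exact nonpos_of_mul_nonpos_left h hM0)
          (expect_nonneg fun s _ => Real.rpow_nonneg (abs_nonneg _) _)
      rw [expect_eq_zero_iff_of_nonneg fun s _ => Real.rpow_nonneg (abs_nonneg _) _]
        at h0
      have := h0 s (mem_univ s)
      rw [Real.rpow_eq_zero (abs_nonneg _) hp0.ne', abs_eq_zero, sub_eq_zero] at this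
      exact this
    simp only [hmean0, hij, sub_self, norm_zero, mul_zero, le_refl, implies_true, true_and]
    positivity
  set q : P := ⟨(i, j), hij⟩ with hq
  have hsum : ‖(WithLp.toLp (ENNReal.ofReal p) fun l => c * coord p R G y i (w l)) -
      (WithLp.toLp (ENNReal.ofReal p) fun l => c * coord p R G y j (w l) : Lq p N)‖ ^ p
      = cp * ∑ l, Δ q (w l) := by
    rw [lq_norm_pow hp0, mul_sum]
    refine sum_congr rfl fun l _ => ?_
    change |c * coord p R G y i (w l) - c * coord p R G y j (w l)| ^ p = _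
    rw [← mul_sub, abs_mul, Real.mul_rpow (abs_nonneg _) (abs_nonneg _),
      abs_of_nonneg (Real.rpow_nonneg hcp0.le _), ← Real.rpow_mul hcp0.le,
      one_div_mul_cancel hp0.ne', Real.rpow_one]
  obtain ⟨hlo, hhi⟩ := hw q
  obtain ⟨-, hb2⟩ := hmean q
  set dd := ‖y i - y j‖ with hdd
  have hdd0 : 0 ≤ dd := norm_nonneg _
  have hUq : U q = b / M * dd ^ p := rfl
  have hroot : ∀ {x z : ℝ}, 0 ≤ x → 0 ≤ z → x ^ p ≤ z ^ p → x ≤ z := fun hx hz h =>
    (Real.rpow_le_rpow_iff hx hz hp0).1 h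
  refine ⟨fun hR' => hroot hdd0 (norm_nonneg _) ?_, ?_, ?_⟩
  · rw [hsum]
    have h2 := hb2 hR'
    calc dd ^ p = cp * ((N : ℝ) * (a / M * dd ^ p - ε * U q)) := by
          rw [hUq, hεdef, hcp]; field_simp; ring
      _ ≤ _ := mul_le_mul_of_nonneg_left
          ((mul_le_mul_of_nonneg_left (by linarith) hNpos.le).trans hlo) hcp0.le
  · have h4 : 1 ≤ 4 * b / a := by rw [le_div_iff₀ ha0]; linarith
    refine le_trans (hroot (norm_nonneg _) (by positivity) (z := 4 * b / a * dd) ?_)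
      (mul_le_mul_of_nonneg_right (le_max_of_le_right (le_max_left _ _)) hdd0)
    rw [hsum, Real.mul_rpow (by positivity) hdd0]
    calc cp * ∑ l, Δ q (w l) ≤ cp * (2 * N * U q) := mul_le_mul_of_nonneg_left hhi hcp0.le
      _ = 4 * b / a * dd ^ p := by rw [hUq, hcp]; field_simp; ring
      _ ≤ (4 * b / a) ^ p * dd ^ p := mul_le_mul_of_nonneg_right
          (Real.self_le_rpow_of_one_le h4 (by linarith)) (by positivity)
  · refine le_trans (hroot (norm_nonneg _) (by positivity)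
      (z := CB * (R : ℝ) ^ (g + (k₀ + 4 * s + 2))) ?_)
      (mul_le_mul_of_nonneg_right (le_max_of_le_right (le_max_right _ _)) (by positivity))
    rw [hsum]
    have h1 : cp * ∑ l, Δ q (w l) ≤ CB * (R : ℝ) ^ (g + (k₀ + 4 * s + 2)) := by
      calc cp * ∑ l, Δ q (w l) ≤ cp * ((N : ℝ) * (2 * clip R) ^ p) := by
            refine mul_le_mul_of_nonneg_left ?_ hcp0.le
            refine (Finset.sum_le_card_nsmul _ _ _ fun l _ => hΔb q (w l)).trans (le_of_eq ?_)
            simp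
        _ = 2 * ((G : ℝ) + 1) / a * ((N₀ : ℝ) * (2 * clip R) ^ p) := by
            rw [hcp, hM]; field_simp
        _ ≤ 2 * ((G : ℝ) + 1) / a * ((R : ℝ) ^ (g + 1 + k₀) * (R : ℝ) ^ (4 * s)) := by gcongr
        _ ≤ CB * (R : ℝ) ^ (g + (k₀ + 4 * s + 2)) := by
            rw [← pow_add, hCB]
            refine mul_le_mul ?_ (pow_le_pow_right₀ hR1 (by omega)) (by positivity) (by positivity)
            gcongr; norm_num
    refine h1.trans (Real.self_le_rpow_of_one_le ?_ (by linarith))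
    refine one_le_mul_of_one_le_of_one_le ?_ (one_le_pow₀ hR1)
    rw [hCB, le_div_iff₀ ha0]
    have : a ≤ 1 := by
      rw [ha, div_le_one (by positivity)]
      have := Real.exp_le_one_iff.2 (by simp : -(g : ℝ) ≤ 0)
      have : (1 : ℝ) ≤ 2 ^ p := Real.one_le_rpow (by norm_num) hp0.le
      linarith
    linarith [Nat.cast_nonneg (α := ℝ) G]

end Vale.Agent.P249.High
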