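import Vale.Agent.P249.HighFeature

/-!
Windows of scales glued by random signs, for `p ≥ 2`.
-/

namespace Vale.Agent.P249.High

open Real Finset Vale.Agent.P249

/-- One window, for `p ≥ 2`. -/
theorem exists_high_window {p : ℝ} [Fact (1 ≤ ENNReal.ofReal p)] (hp2 : 2 ≤ p) :
    ∃ k : ℕ, ∀ g : ℕ, ∃ C : ℝ, 1 ≤ C ∧ ∃ L : ℝ, 1 ≤ L ∧ ∃ kb A₀ : ℕ, 4 ≤ A₀ ∧
      ∀ n : ℕ, 2 ≤ n → ∀ M : ℕ, 1 ≤ M → ∀ A : ℕ, A₀ ≤ A →
        (n : ℝ) ≤ (A : ℝ) ^ g → (M : ℝ) ≤ (A : ℝ) ^ g →
      ∃ N : ℕ, (N : ℝ) ≤ C * (M : ℝ) ^ (1 - 2 / p) * (A : ℝ) ^ k ∧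
        ∀ (X : Fin n → Lq p M) (a : ℝ), 0 < a →
          ∃ u : Fin n → Lq p N, ∀ i j,
            ‖u i - u j‖ ≤ L * ‖X i - X j‖ * ((if a / A < 2 * ‖X i - X j‖ then 11 else 0) +
              16 * (logBall (fun x y => ‖X x - X y‖) i (2 * a) -
                logBall (fun x y => ‖X x - X y‖) i (a / A / 2)) / Real.log A) ∧
            ‖u i - u j‖ ≤ C * (A : ℝ) ^ kb * a ∧
            (10 * L * a ≤ ‖X i - X j‖ → ‖X i - X j‖ ≤ 10 * L * A * a →
              ‖X i - X j‖ / 2 ≤ ‖u i - u j‖) := by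
  obtain ⟨k, hfeat⟩ := exists_high_feature hp2
  refine ⟨2 * k, fun g => ?_⟩
  obtain ⟨C, hC, R₀, hF⟩ := hfeat g
  set Kc := ⌈22 * C⌉₊ with hKc
  have hKcC : 22 * C ≤ Kc := Nat.le_ceil _
  have hKc1 : (1 : ℝ) ≤ Kc := by linarith
  have hP1 : (1 : ℝ) ≤ (Kc : ℝ) ^ (g + k) := one_le_pow₀ hKc1
  refine ⟨C * (Kc : ℝ) ^ (g + k) + 8 * C, by nlinarith, 2 * C, by linarith, 2 * (g + k),
    max R₀ 4, le_max_right _ _, fun n hn M hM AN hAN hnA hMA => ?_⟩
  set A : ℝ := (AN : ℝ) with hAdef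
  have hA : 4 ≤ A := by rw [hAdef]; exact_mod_cast (le_max_right _ _).trans hAN
  set R := Kc * AN ^ 2 with hR
  have hRr : (R : ℝ) = Kc * A ^ 2 := by rw [hR]; push_cast; rfl
  have hAR : A ≤ R := by rw [hRr]; nlinarith
  have hA0 : 0 ≤ A := by linarith
  obtain ⟨N, hN, hF⟩ := hF n hn M hM R
    ((le_max_left _ _).trans (hAN.trans (by rw [hAdef] at hAR; exact_mod_cast hAR)))
    (hnA.trans (pow_le_pow_left₀ hA0 hAR g)) (hMA.trans (pow_le_pow_left₀ hA0 hAR g))
  refine ⟨N, hN.trans ?_, ?_⟩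
  · rw [hRr, mul_pow, ← pow_mul,
      show C * (M : ℝ) ^ (1 - 2 / p) * ((Kc : ℝ) ^ k * A ^ (2 * k)) =
        C * (Kc : ℝ) ^ k * (M : ℝ) ^ (1 - 2 / p) * A ^ (2 * k) by ring]
    gcongr
    have : (Kc : ℝ) ^ k ≤ (Kc : ℝ) ^ (g + k) := pow_le_pow_right₀ hKc1 (by omega)
    nlinarith
  intro X a ha
  set η := a / A with hη'
  have hη : 0 < η := div_pos ha (by linarith)
  have hηa : η < a := by rw [hη']; exact div_lt_self ha (by linarith)
  set d : Fin n → Fin n → ℝ := fun x y => ‖X x - X y‖ with hd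
  have hd0 : ∀ x, d x x = 0 := fun x => by simp [hd]
  have hsym : ∀ x y, d x y = d y x := fun x y => norm_sub_rev _ _
  have htri : ∀ x y z, d x z ≤ d x y + d y z := fun x y z => norm_sub_le_norm_sub_add_norm_sub _ _ _
  obtain ⟨pr, hpr, hpr'⟩ := exists_net d hd0 hsym hη
  set y : Fin n → Lq p M := fun z => η⁻¹ • X (pr z) with hy
  have hyd : ∀ z z', ‖y z - y z'‖ = d (pr z) (pr z') / η := by
    intro z z'
    rw [hy, ← smul_sub, norm_smul, Real.norm_eq_abs, abs_inv, abs_of_pos hη, inv_mul_eq_div]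
  obtain ⟨F, hF'⟩ := hF y (fun z z' => by
    rcases hpr' z z' with h | h
    · exact Or.inl (by simp [hy, h])
    · refine Or.inr ?_
      rw [hyd, le_div_iff₀ hη, one_mul]
      exact h)
  set h : Fin n → Lq p N := fun z => η • F z with hh
  have hhn : ∀ z z', ‖h z - h z'‖ = η * ‖F z - F z'‖ := by
    intro z z'
    rw [hh, ← smul_sub, norm_smul, Real.norm_eq_abs, abs_of_pos hη]
  have hdd : ∀ z z', d (pr z) (pr z') ≤ d z z' + 2 * η ∧ d z z' ≤ d (pr z) (pr z') + 2 * η := by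
    intro z z'
    have a1 := hpr z
    have a2 := hpr z'
    constructor
    · have := htri (pr z) z (pr z')
      have := htri z z' (pr z')
      rw [hsym (pr z) z] at *
      linarith
    · have := htri z (pr z) z'
      have := htri (pr z) (pr z') z'
      rw [hsym (pr z') z'] at *
      linarith
  have hnn : ∀ z z', 0 ≤ d z z' := fun z z' => norm_nonneg _
  have hup : ∀ z z', ‖h z - h z'‖ ≤ C * d (pr z) (pr z') := by
    intro z z'
    rw [hhn]
    refine (mul_le_mul_of_nonneg_left (hF' z z').2.1 hη.le).trans (le_of_eq ?_)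
    rw [hyd]; field_simp
  have hloc : ∀ z z', ‖h z - h z'‖ ≤ 2 * C * (d z z' + η) := fun z z' =>
    (hup z z').trans (by
      calc C * d (pr z) (pr z') ≤ C * (d z z' + 2 * η) :=
            mul_le_mul_of_nonneg_left (hdd z z').1 (by linarith)
        _ ≤ _ := by nlinarith [hnn z z'])
  have haη : a / η = A := by
    rw [hη', div_div_cancel₀ ha.ne']
  have hlogA : 1 ≤ Real.log A := by
    rw [Real.le_log_iff_exp_le (by linarith)]; linarith [Real.exp_one_lt_three]
  set u := smooth d η a h with hu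
  have hnear : ∀ z, ‖u z - h z‖ ≤ 4 * C * a := fun z => by
    have := norm_smooth_sub_le hd0 h (show 0 ≤ 2 * C by linarith) hη hηa.le (by rw [haη]; exact hlogA) hloc z
    linarith
  have hclose : ∀ i j, ‖u i - u j‖ ≤ 8 * C * a + ‖h i - h j‖ ∧ ‖h i - h j‖ ≤ 8 * C * a + ‖u i - u j‖ := by
    intro i j
    have h1 : u i - u j = (u i - h i) - (u j - h j) + (h i - h j) := by abel
    have h2 : h i - h j = -((u i - h i) - (u j - h j)) + (u i - u j) := by abel
    have h3 : ‖(u i - h i) - (u j - h j)‖ ≤ 8 * C * a := by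
      linarith [norm_sub_le (u i - h i) (u j - h j), hnear i, hnear j]
    constructor
    · rw [h1]; linarith [norm_add_le ((u i - h i) - (u j - h j)) (h i - h j)]
    · rw [h2]
      have := norm_add_le (-((u i - h i) - (u j - h j))) (u i - u j)
      rw [norm_neg] at this
      linarith
  refine ⟨u, fun i j => ⟨?_, ?_, ?_⟩⟩
  · have := norm_smooth_sub_smooth_le hd0 hsym htri h (show 0 ≤ 2 * C by linarith) hη hηa hloc i j
    rwa [haη] at this
  · refine (hclose i j).1.trans ?_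
    have h4 : ‖h i - h j‖ ≤ a * (C * (R : ℝ) ^ (g + k)) := by
      rw [hhn]
      exact mul_le_mul hηa.le (hF' i j).2.2 (norm_nonneg _) ha.le
    rw [hRr, mul_pow, ← pow_mul] at h4
    have : 8 * C * a ≤ 8 * C * A ^ (2 * (g + k)) * a := by
      refine mul_le_mul_of_nonneg_right ?_ ha.le
      exact le_mul_of_one_le_right (by linarith) (one_le_pow₀ (by linarith))
    linarith
  · intro hlo hhi
    have hA2 : η * (A ^ 2) = A * a := by rw [hη']; field_simp
    have h1a : a ≤ A * a := le_mul_of_one_le_left ha.le (by linarith)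
    have hdR : ‖y i - y j‖ ≤ R := by
      rw [hyd, div_le_iff₀ hη, hRr, mul_assoc, mul_comm (A ^ 2), hA2]
      change d i j ≤ _ at hhi
      have h22 := mul_le_mul_of_nonneg_right hKcC (show 0 ≤ A * a by positivity)
      have hAC : A * a ≤ C * (A * a) := le_mul_of_one_le_left (by positivity) hC
      linarith [(hdd i j).1]
    have h2 : d (pr i) (pr j) ≤ ‖h i - h j‖ := by
      rw [hhn]
      have := mul_le_mul_of_nonneg_left ((hF' i j).1 hdR) hη.le
      rwa [hyd, mul_div_cancel₀ _ hη.ne'] at this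
    have := (hdd i j).2
    have := (hclose i j).2
    have : a ≤ C * a := le_mul_of_one_le_left ha.le hC
    change 10 * (2 * C) * a ≤ d i j at hlo
    change d i j / 2 ≤ _
    linarith

/-- All windows glued, for `p ≥ 2`. -/
theorem exists_high_glued {p : ℝ} [Fact (1 ≤ ENNReal.ofReal p)] (hp2 : 2 ≤ p) :
    ∃ k : ℕ, ∀ g : ℕ, ∃ C K : ℝ, 0 < C ∧ 1 ≤ K ∧ ∃ A₀ : ℕ, ∀ n : ℕ, 2 ≤ n → ∀ M : ℕ, 1 ≤ M →
      ∀ A : ℕ, A₀ ≤ A → (n : ℝ) ≤ (A : ℝ) ^ g → (M : ℝ) ≤ (A : ℝ) ^ g →
      ∃ N : ℕ, (N : ℝ) ≤ C * (M : ℝ) ^ (1 - 2 / p) * (A : ℝ) ^ k * Real.log n ∧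
        ∀ X : Fin n → Lq p M, Function.Injective X →
          ∃ F : Fin n → Lq p N, ∀ i j,
            ‖X i - X j‖ / 2 ≤ ‖F i - F j‖ ∧ ‖F i - F j‖ ≤ K * ‖X i - X j‖ := by
  have hp1 : 1 ≤ p := by linarith
  have hp : 0 < p := by linarith
  obtain ⟨k, hwin⟩ := exists_high_window hp2
  refine ⟨k, fun e => ?_⟩
  obtain ⟨C₁, hC₁, L, hL, kb, A₀, hA₀, hwin⟩ := hwin e
  obtain ⟨κ₀, hκ₀⟩ := pow_unbounded_of_one_lt (2 * C₁) (show (1 : ℝ) < 2 by norm_num)
  set κ : ℕ := κ₀ + kb + 1 with hκ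
  have hl2 : 0 < Real.log 2 := Real.log_pos one_lt_two
  refine ⟨5 * C₁ * (3 / Real.log 2), 5 * (11 * L * κ + 48 * L * e + 2), by positivity, ?_,
    A₀, fun n hn M hM AN hAN hnA hMA => ?_⟩
  · have : 0 ≤ 11 * L * κ + 48 * L * e := by positivity
    linarith
  obtain ⟨N, hN, hu⟩ := hwin n hn M hM AN hAN hnA hMA
  set A : ℝ := (AN : ℝ) with hAdef
  have hA : 4 ≤ A := by rw [hAdef]; exact_mod_cast hA₀.trans hAN
  set m := Nat.log 2 (n * n) + 1 with hm
  have hn2 : (2 : ℝ) ≤ n := by exact_mod_cast hn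
  have hL2 : Real.log 2 ≤ Real.log (n : ℝ) := Real.log_le_log two_pos hn2
  have hmlog : (m : ℝ) ≤ 3 / Real.log 2 * Real.log n := by
    have h1 : (2 : ℝ) ^ Nat.log 2 (n * n) ≤ (n : ℝ) * n := by
      exact_mod_cast Nat.pow_log_le_self 2 (show n * n ≠ 0 by positivity)
    have h2 := Real.log_le_log (by positivity) h1
    rw [Real.log_pow, Real.log_mul (by positivity) (by positivity)] at h2
    rw [div_mul_eq_mul_div, le_div_iff₀ hl2, hm]
    push_cast
    linarith
  refine ⟨5 * m * N, ?_, ?_⟩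
  · push_cast
    calc 5 * (m : ℝ) * N ≤ 5 * (3 / Real.log 2 * Real.log n) * (C₁ * (M : ℝ) ^ (1 - 2 / p) * A ^ k) := by
          gcongr
      _ = _ := by ring
  intro X hX
  classical
  have : Nonempty (Fin n) := ⟨⟨0, by omega⟩⟩
  set dd : Fin n → Fin n → ℝ := fun x y => ‖X x - X y‖ with hdd
  have hne : (univ.filter fun q : Fin n × Fin n => q.1 ≠ q.2).Nonempty :=
    ⟨(⟨0, by omega⟩, ⟨1, by omega⟩), by simp [Fin.ext_iff]⟩
  obtain ⟨q₁, hq₁, hmin⟩ := Finset.exists_min_image _ (fun q => dd q.1 q.2) hne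
  obtain ⟨q₂, hq₂, hmax⟩ := Finset.exists_max_image _ (fun q => dd q.1 q.2) hne
  simp only [mem_filter, mem_univ, true_and] at hq₁ hq₂ hmin hmax
  set dm := dd q₁.1 q₁.2 with hdm
  have hdm0 : 0 < dm := norm_pos_iff.mpr (sub_ne_zero.mpr (hX.ne hq₁))
  obtain ⟨J, hJ⟩ := pow_unbounded_of_one_lt (dd q₂.1 q₂.2 / dm) (show 1 < A by linarith)
  set a₀ := dm / (10 * L) with ha₀
  have hL0 : 0 < L := by linarith
  have ha0 : 0 < a₀ := by positivity
  choose u hu using fun j : Fin J => hu X (a₀ * A ^ (j : ℕ)) (by positivity)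
  set Q : Type := { q : Fin n × Fin n // q.1 ≠ q.2 } with hQdef
  set lnA := Real.log A with hlnA
  have hlnA0 : 0 < lnA := Real.log_pos (by linarith)
  have hexsig : ∀ q : Q, ∃ j : Fin J, dd q.1.1 q.1.2 / 2 ≤ ‖u j q.1.1 - u j q.1.2‖ := by
    intro q
    have h1 : 1 ≤ dd q.1.1 q.1.2 / dm := by
      rw [le_div_iff₀ hdm0, one_mul]; exact hmin q.1 q.2
    obtain ⟨i, hi, hi'⟩ := exists_nat_pow_near h1 (show 1 < A by linarith)
    have hiJ : i < J := (pow_lt_pow_iff_right₀ (show 1 < A by linarith)).mp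
      (hi.trans_lt (lt_of_le_of_lt (div_le_div_of_nonneg_right (hmax q.1 q.2) hdm0.le) hJ))
    refine ⟨⟨i, hiJ⟩, (hu ⟨i, hiJ⟩ _ _).2.2 ?_ ?_⟩
    · rw [le_div_iff₀ hdm0] at hi
      calc 10 * L * (a₀ * A ^ i) = A ^ i * dm := by rw [ha₀]; field_simp
        _ ≤ _ := hi
    · rw [div_lt_iff₀ hdm0, pow_succ] at hi'
      calc ‖X q.1.1 - X q.1.2‖ ≤ A ^ i * A * dm := hi'.le
        _ = 10 * L * A * (a₀ * A ^ i) := by rw [ha₀]; field_simp
  choose j₀ hj₀ using hexsig
  set W : ℝ := 11 * L * (κ : ℝ) + 48 * L * e + 2 with hW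
  have hln : Real.log n / lnA ≤ e := by
    rw [div_le_iff₀ hlnA0, hlnA, ← Real.log_pow]
    exact Real.log_le_log (by linarith) hnA
  have hsum : ∀ i i', ∑ j : Fin J, ‖u j i - u j i'‖ ≤ W * dd i i' := by
    intro i i'
    set d := dd i i' with hd
    rcases (show 0 ≤ d from norm_nonneg _).eq_or_lt with h0 | hd0
    · have : i = i' := hX (sub_eq_zero.mp (norm_eq_zero.mp h0.symm))
      subst this
      simp [← h0]
    set g := logBall dd i with hg
    set hf : ℕ → ℝ := fun l => g (a₀ / A ^ 2 * A ^ l) with hhf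
    set Λ := C₁ * A ^ kb * a₀ with hΛ
    have hΛ0 : 0 < Λ := by positivity
    have hterm : ∀ j : Fin J, ‖u j i - u j i'‖ ≤
        (if Λ * A ^ (j : ℕ) ≤ d then Λ * A ^ (j : ℕ) else 0) +
        11 * L * d * (if ¬Λ * A ^ (j : ℕ) ≤ d ∧ a₀ * A ^ (j : ℕ) / A < 2 * d then (1 : ℝ) else 0) +
        16 * L * d / lnA * (hf ((j : ℕ) + 3) - hf (j : ℕ)) := by
      intro j
      obtain ⟨b1, b2, -⟩ := hu j i i'
      set a := a₀ * A ^ (j : ℕ) with ha
      have hapos : 0 < a := by positivity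
      have hmono : Monotone g := logBall_mono dd i
      have hge : g (2 * a) - g (a / A / 2) ≤ hf ((j : ℕ) + 3) - hf (j : ℕ) := by
        refine sub_le_sub (hmono ?_) (hmono ?_)
        · calc 2 * a ≤ A * a := mul_le_mul_of_nonneg_right (by linarith) hapos.le
            _ = _ := by rw [ha]; field_simp; ring
        · calc a₀ / A ^ 2 * A ^ (j : ℕ) = a / A / A := by rw [ha]; ring
            _ ≤ a / A / 2 := div_le_div_of_nonneg_left (by positivity) two_pos (by linarith)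
      have hgn : 0 ≤ hf ((j : ℕ) + 3) - hf (j : ℕ) := sub_nonneg.mpr (hmono (by
        gcongr <;> linarith))
      have hlip : ‖u j i - u j i'‖ ≤ 11 * L * d * (if a / A < 2 * d then (1 : ℝ) else 0)
          + 16 * L * d / lnA * (hf ((j : ℕ) + 3) - hf (j : ℕ)) := by
        refine b1.trans ?_
        change L * d * ((if a / A < 2 * d then (11 : ℝ) else 0) + 16 * (g (2 * a) - g (a / A / 2)) / lnA) ≤ _
        have := mul_le_mul_of_nonneg_left hge (show 0 ≤ 16 * L * d / lnA by positivity)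
        calc _ = 11 * L * d * (if a / A < 2 * d then (1 : ℝ) else 0)
              + 16 * L * d / lnA * (g (2 * a) - g (a / A / 2)) := by split_ifs <;> ring
          _ ≤ _ := by linarith
      have hb2 : ‖u j i - u j i'‖ ≤ Λ * A ^ (j : ℕ) := b2.trans (le_of_eq (by rw [hΛ, ha]; ring))
      by_cases hc : Λ * A ^ (j : ℕ) ≤ d
      · rw [if_pos hc, if_neg (fun h => h.1 hc)]
        have : 0 ≤ 16 * L * d / lnA * (hf ((j : ℕ) + 3) - hf (j : ℕ)) :=
          mul_nonneg (by positivity) hgn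
        linarith
      · rw [if_neg hc, zero_add]
        simpa [hc] using hlip
    refine (Finset.sum_le_sum fun j _ => hterm j).trans ?_
    rw [Finset.sum_add_distrib, Finset.sum_add_distrib, ← Finset.mul_sum, ← Finset.mul_sum,
      Fin.sum_univ_eq_sum_range (fun j => if Λ * A ^ j ≤ d then Λ * A ^ j else 0),
      Fin.sum_univ_eq_sum_range (fun j =>
        if ¬Λ * A ^ j ≤ d ∧ a₀ * A ^ j / A < 2 * d then (1 : ℝ) else 0),
      Fin.sum_univ_eq_sum_range (fun j => hf (j + 3) - hf j)]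
    have h1 := sum_geometric_le (show 2 ≤ A by linarith) hΛ0.le hd0.le J
    have h2 : (∑ j ∈ range J, if ¬Λ * A ^ j ≤ d ∧ a₀ * A ^ j / A < 2 * d then (1 : ℝ) else 0)
        ≤ κ := by
      rw [← Finset.sum_filter, Finset.sum_const, nsmul_one]
      refine Nat.cast_le.mpr (card_window_le (A := A) (B := a₀ / (2 * A)) (d := d) (by linarith) hd0
        (by positivity) _ fun l hl => ?_)
      simp only [mem_filter, not_le] at hl
      refine ⟨lt_of_lt_of_le hl.2.1 ?_, ?_⟩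
      · have hC2 : 2 * C₁ ≤ A ^ κ₀ := hκ₀.le.trans (pow_le_pow_left₀ (by norm_num) (by linarith) _)
        calc Λ * A ^ l = (C₁ * 2) * (a₀ / (2 * A) * A ^ l * A ^ (kb + 1)) := by
              rw [hΛ]; field_simp; ring
          _ ≤ A ^ κ₀ * (a₀ / (2 * A) * A ^ l * A ^ (kb + 1)) :=
              mul_le_mul_of_nonneg_right (by linarith) (by positivity)
          _ = a₀ / (2 * A) * A ^ l * A ^ κ := by rw [hκ]; ring
      · calc a₀ / (2 * A) * A ^ l = a₀ * A ^ l / A / 2 := by ring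
          _ < d := by linarith [hl.2.2]
    have h3 : ∑ j ∈ range J, (hf (j + 3) - hf j) ≤ 3 * Real.log n := by
      have e : ∀ j, hf (j + 3) - hf j = (hf (j + 3) - hf (j + 2)) + (hf (j + 2) - hf (j + 1))
          + (hf (j + 1) - hf j) := fun j => by ring
      simp only [e]
      rw [Finset.sum_add_distrib, Finset.sum_add_distrib, Finset.sum_range_sub (fun j => hf (j + 2)),
        Finset.sum_range_sub (fun j => hf (j + 1)), Finset.sum_range_sub hf]
      have hb : ∀ r, 0 ≤ g r ∧ g r ≤ Real.log n := fun r => by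
        simpa [hg] using logBall_bounds dd i r
      simp only [hhf]
      linarith [(hb (a₀ / A ^ 2 * A ^ (J + 2))).2, (hb (a₀ / A ^ 2 * A ^ (J + 1))).2,
        (hb (a₀ / A ^ 2 * A ^ J)).2, (hb (a₀ / A ^ 2 * A ^ (0 + 2))).1,
        (hb (a₀ / A ^ 2 * A ^ (0 + 1))).1, (hb (a₀ / A ^ 2 * A ^ 0)).1]
    have h2' := mul_le_mul_of_nonneg_left h2 (show 0 ≤ 11 * L * d by positivity)
    have h3' := mul_le_mul_of_nonneg_left h3 (show 0 ≤ 16 * L * d / lnA by positivity)
    have e3 : 16 * L * d / lnA * (3 * Real.log n) = 48 * L * d * (Real.log n / lnA) := by ring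
    have e4 := mul_le_mul_of_nonneg_left hln (show 0 ≤ 48 * L * d by positivity)
    rw [hW]
    linarith
  set good : Q → (Fin J → Bool) → Prop := fun q s =>
    ‖u (j₀ q) q.1.1 - u (j₀ q) q.1.2‖ ≤ ‖signed (fun j => u j q.1.1 - u j q.1.2) s‖ with hgood
  have hcard : Fintype.card Q < 2 ^ m := by
    refine lt_of_le_of_lt ?_ (Nat.lt_pow_succ_log_self (by norm_num) (n * n))
    refine (Fintype.card_subtype_le _).trans ?_
    simp
  obtain ⟨f, hf⟩ := exists_balanced_sample good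
    (fun q => half_good (fun j => u j q.1.1 - u j q.1.2) (j₀ q)) hcard
  set w : Fin n → Fin (5 * m) → Lq p N := fun i t => signed (fun j => u j i) (f t) with hw
  set c : ℝ := ((m : ℝ)⁻¹) ^ (1 / p) with hc
  have hm0 : (0 : ℝ) < m := by rw [hm]; positivity
  have hc0 : 0 < c := rpow_pos_of_pos (by positivity) _
  refine ⟨fun i => WithLp.toLp _ fun l => c * (w i (finProdFinEquiv.symm l).1) (finProdFinEquiv.symm l).2,
    fun i j => ?_⟩
  have hsum' : ∑ l : Fin (5 * m * N), |c * (w i (finProdFinEquiv.symm l).1) (finProdFinEquiv.symm l).2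
      - c * (w j (finProdFinEquiv.symm l).1) (finProdFinEquiv.symm l).2| ^ p
      = (m : ℝ)⁻¹ * ∑ t, ‖w i t - w j t‖ ^ p := by
    rw [← finProdFinEquiv.sum_comp, Fintype.sum_prod_type, Finset.mul_sum]
    refine sum_congr rfl fun t _ => ?_
    rw [lq_norm_pow hp, Finset.mul_sum]
    refine sum_congr rfl fun l _ => ?_
    rw [Equiv.symm_apply_apply, ← mul_sub, abs_mul, abs_of_pos hc0, mul_rpow hc0.le (abs_nonneg _),
      hc, ← rpow_mul (by positivity), one_div_mul_cancel hp.ne', rpow_one]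
    rfl
  have hFn : ∀ f f' : Fin (5 * m * N) → ℝ,
      ‖(WithLp.toLp (ENNReal.ofReal p) f : Lq p (5 * m * N)) - WithLp.toLp (ENNReal.ofReal p) f'‖ =
        (∑ l, |f l - f' l| ^ p) ^ (1 / p) := fun f f' => lq_norm hp _
  beta_reduce
  rw [hFn, hsum']
  have hwd : ∀ t, w i t - w j t = signed (fun l => u l i - u l j) (f t) := fun t => signed_sub _ _ _
  set d := ‖X i - X j‖ with hd
  have hd0 : 0 ≤ d := norm_nonneg _
  have hW0 : 0 ≤ W := by positivity
  constructor
  · by_cases hij : i = j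
    · subst hij
      rw [show d / 2 = 0 by rw [hd, sub_self, norm_zero, zero_div]]
      exact rpow_nonneg (mul_nonneg (by positivity) (sum_nonneg fun t _ => by positivity)) _
    have h1 : (m : ℝ) * (d / 2) ^ p ≤ ∑ t, ‖w i t - w j t‖ ^ p := by
      calc (m : ℝ) * (d / 2) ^ p
          ≤ ((univ.filter fun t => good ⟨(i, j), hij⟩ (f t)).card : ℝ) * (d / 2) ^ p :=
            mul_le_mul_of_nonneg_right (by exact_mod_cast hf ⟨(i, j), hij⟩) (by positivity)
        _ = ∑ t ∈ univ.filter (fun t => good ⟨(i, j), hij⟩ (f t)), (d / 2) ^ p := by simp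
        _ ≤ ∑ t ∈ univ.filter (fun t => good ⟨(i, j), hij⟩ (f t)), ‖w i t - w j t‖ ^ p := by
            refine sum_le_sum fun t ht => rpow_le_rpow (by positivity) ?_ hp.le
            rw [hwd]
            exact (hj₀ ⟨(i, j), hij⟩).trans (mem_filter.mp ht).2
        _ ≤ _ := sum_le_univ_sum_of_nonneg fun t => rpow_nonneg (norm_nonneg _) _
    calc d / 2 = ((d / 2) ^ p) ^ (1 / p) := by
          rw [← rpow_mul (by positivity), mul_one_div_cancel hp.ne', rpow_one]
      _ ≤ _ := rpow_le_rpow (by positivity) (by rw [le_inv_mul_iff₀ hm0]; exact h1) (by positivity)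
  · have h1 : ∑ t, ‖w i t - w j t‖ ^ p ≤ (5 * m : ℝ) * (W * d) ^ p := by
      refine (Finset.sum_le_card_nsmul _ _ ((W * d) ^ p) fun t _ => rpow_le_rpow (norm_nonneg _) ?_ hp.le).trans
        (le_of_eq (by simp))
      rw [hwd]
      exact (norm_signed_le _ _).trans (hsum i j)
    calc ((m : ℝ)⁻¹ * ∑ t, ‖w i t - w j t‖ ^ p) ^ (1 / p) ≤ (5 * (W * d) ^ p) ^ (1 / p) := by
          refine rpow_le_rpow (mul_nonneg (by positivity)
            (sum_nonneg fun t _ => rpow_nonneg (norm_nonneg _) _)) ?_ (by positivity)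
          rw [inv_mul_le_iff₀ hm0]; linarith
      _ = (5 : ℝ) ^ (1 / p) * (W * d) := by
          rw [mul_rpow (by norm_num) (by positivity), ← rpow_mul (by positivity),
            mul_one_div_cancel hp.ne', rpow_one]
      _ ≤ 5 * (W * d) := mul_le_mul_of_nonneg_right
          (rpow_le_self_of_one_le (by norm_num) (by rw [div_le_one hp]; exact hp1)) (by positivity)
      _ = _ := by rw [hW]; ring

end Vale.Agent.P249.High
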