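import Vale.Agent.P249.NearLinear
import Vale.Agent.P249.HighWindows

/-!
Iterating the reduction `m ↦ m ^ (1 - 2 / p)` down to dimension `n ^ ε`.
-/

namespace Vale.Agent.P249.High

open MeasureTheory Real Finset Vale.Agent.P249

/-- Every `n` points of any `L_p` go into `ℓ_p^N`, `N ≤ C n ^ a`, with distortion `D`. -/
def Emb (p : ℝ) [Fact (1 ≤ ENNReal.ofReal p)] (a : ℝ) : Prop :=
  ∃ D C : ℝ, 1 ≤ D ∧ 1 ≤ C ∧ ∀ n : ℕ, 2 ≤ n → ∃ N : ℕ, 1 ≤ N ∧ (N : ℝ) ≤ C * (n : ℝ) ^ a ∧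
    ∀ (Ω : Type) (mΩ : MeasurableSpace Ω) (μ : @Measure Ω mΩ)
      (x : Fin n → Lp ℝ (ENNReal.ofReal p) μ), Function.Injective x →
      ∃ F : Fin n → Lq p N, ∀ i j,
        ‖x i - x j‖ ≤ ‖F i - F j‖ ∧ ‖F i - F j‖ ≤ D * ‖x i - x j‖

variable {p : ℝ} [Fact (1 ≤ ENNReal.ofReal p)]

lemma emb_mono {a b : ℝ} (hab : a ≤ b) (h : Emb p a) : Emb p b := by
  obtain ⟨D, C, hD, hC, h⟩ := h
  refine ⟨D, C, hD, hC, fun n hn => ?_⟩
  obtain ⟨N, hN1, hN, hF⟩ := h n hn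
  refine ⟨N, hN1, hN.trans (mul_le_mul_of_nonneg_left ?_ (by linarith)), hF⟩
  exact rpow_le_rpow_of_exponent_le (by exact_mod_cast (show 1 ≤ n by omega)) hab

lemma emb_two (hp : 1 ≤ p) : Emb p 2 := by
  have hp0 : 0 < p := by linarith
  obtain ⟨C, hC⟩ := Vale.Agent.P249.NearLinear.near_linear p hp 2 one_lt_two
  set K := (p + 1) ^ (p + 1) with hK
  have hK0 : 0 ≤ K := by positivity
  refine ⟨2, max C 0 * K + 1, one_le_two, le_add_of_nonneg_left (by positivity), fun n hn => ?_⟩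
  obtain ⟨N, hN, hF⟩ := hC n hn
  have hn1 : (1 : ℝ) ≤ n := by exact_mod_cast (show 1 ≤ n by omega)
  refine ⟨max N 1, le_max_right _ _, ?_, fun Ω mΩ μ x hx => ?_⟩
  · rw [rpow_two, Nat.cast_max, Nat.cast_one]
    have hlog : Real.log n ^ (p + 1) ≤ K * n := by
      have h1 : Real.log n ≤ (p + 1) * (n : ℝ) ^ (1 / (p + 1)) := by
        refine (Real.log_le_rpow_div (Nat.cast_nonneg n) (show 0 < 1 / (p + 1) by positivity)).trans
          (le_of_eq ?_)
        field_simp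
      refine (rpow_le_rpow (Real.log_nonneg hn1) h1 (by linarith)).trans (le_of_eq ?_)
      rw [mul_rpow (by linarith) (by positivity), ← rpow_mul (Nat.cast_nonneg n),
        one_div_mul_cancel (by linarith), rpow_one]
    have hl0 : 0 ≤ (n : ℝ) * Real.log n ^ (p + 1) :=
      mul_nonneg (by linarith) (rpow_nonneg (Real.log_nonneg hn1) _)
    refine max_le ?_ ?_
    · calc (N : ℝ) ≤ C * (n * Real.log n ^ (p + 1)) := hN.trans (le_of_eq (by ring))
        _ ≤ max C 0 * (n * (K * n)) := mul_le_mul (le_max_left _ _)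
            (mul_le_mul_of_nonneg_left hlog (by linarith)) hl0 (le_max_right _ _)
        _ = max C 0 * K * (n : ℝ) ^ 2 := by ring
        _ ≤ _ := mul_le_mul_of_nonneg_right (le_add_of_nonneg_right zero_le_one) (by positivity)
    · exact one_le_mul_of_one_le_of_one_le (le_add_of_nonneg_left (by positivity))
        (one_le_pow₀ hn1)
  obtain ⟨F, c, hc, hF⟩ := hF Ω mΩ μ x hx
  rcases Nat.eq_zero_or_pos N with h | h
  · subst h
    exfalso
    set a : Fin n := ⟨0, by omega⟩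
    set b : Fin n := ⟨1, by omega⟩
    have h1 := (hF a b).1
    simp only [univ_eq_empty, sum_empty, zero_rpow (show 1 / p ≠ 0 by positivity)] at h1
    have h2 : 0 < ‖x a - x b‖ :=
      norm_pos_iff.mpr (sub_ne_zero.mpr (hx.ne (by simp [a, b, Fin.ext_iff])))
    linarith [mul_pos hc h2]
  rw [max_eq_left (show 1 ≤ N from h)]
  refine ⟨fun i => c⁻¹ • WithLp.toLp _ (F i), fun i j => ?_⟩
  have e : ‖c⁻¹ • (WithLp.toLp (ENNReal.ofReal p) (F i) : Lq p N) -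
      c⁻¹ • WithLp.toLp (ENNReal.ofReal p) (F j)‖ =
      c⁻¹ * (∑ k, |F i k - F j k| ^ p) ^ (1 / p) := by
    rw [← smul_sub, norm_smul, Real.norm_eq_abs, abs_inv, abs_of_pos hc, lq_norm hp0]
    rfl
  rw [e, inv_mul_eq_div, le_div_iff₀ hc, div_le_iff₀ hc]
  constructor <;> linarith [(hF i j).1, (hF i j).2]

lemma emb_step (hp : 2 ≤ p) {a δ : ℝ} (ha : 0 ≤ a) (hδ : 0 < δ) (h : Emb p a) :
    Emb p ((1 - 2 / p) * a + δ) := by
  have hp0 : 0 < p := by linarith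
  obtain ⟨D, C, hD, hC, hE⟩ := h
  obtain ⟨k, hG⟩ := exists_high_glued hp
  set θ := 1 - 2 / p with hθ
  have hθ0 : 0 ≤ θ := by rw [hθ, sub_nonneg, div_le_one hp0]; exact hp
  set e := δ / (2 * ((k : ℝ) + 1)) with he
  have he0 : 0 < e := by positivity
  set g₀ := ⌈(a + 1) / e⌉₊ with hg₀
  obtain ⟨C', K, hC', hK, A₀, hG⟩ := hG (g₀ + 1)
  set B : ℝ := 2 + (⌈C⌉₊ : ℝ) + A₀ with hB
  refine ⟨2 * K * D, C' * C ^ θ * B ^ k / (δ / 2) + 1,
    one_le_mul_of_one_le_of_one_le (by linarith) hD,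
    le_add_of_nonneg_left (by positivity), fun n hn => ?_⟩
  obtain ⟨M, hM1, hM, hF⟩ := hE n hn
  have hn1 : (1 : ℝ) ≤ n := by exact_mod_cast (show 1 ≤ n by omega)
  have hn0 : (0 : ℝ) < n := by linarith
  set A := ⌈(n : ℝ) ^ e⌉₊ + ⌈C⌉₊ + A₀ with hA
  have hne : 1 ≤ (n : ℝ) ^ e := one_le_rpow hn1 he0.le
  have hAn : (n : ℝ) ^ e ≤ A := by
    rw [hA]; push_cast
    linarith [Nat.le_ceil ((n : ℝ) ^ e), Nat.cast_nonneg (α := ℝ) ⌈C⌉₊,
      Nat.cast_nonneg (α := ℝ) A₀]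
  have hAC : C ≤ A := by
    rw [hA]; push_cast
    linarith [Nat.le_ceil C, Nat.cast_nonneg (α := ℝ) ⌈(n : ℝ) ^ e⌉₊,
      Nat.cast_nonneg (α := ℝ) A₀]
  have hA1 : (1 : ℝ) ≤ A := by linarith
  have hAB : (A : ℝ) ≤ B * (n : ℝ) ^ e := by
    have h1 : (A : ℝ) ≤ (n : ℝ) ^ e + 1 + ⌈C⌉₊ + A₀ := by
      rw [hA]; push_cast
      linarith [Nat.ceil_lt_add_one (show 0 ≤ (n : ℝ) ^ e by positivity)]
    have h2 := mul_le_mul_of_nonneg_left hne (show (0 : ℝ) ≤ 1 + ⌈C⌉₊ + A₀ by positivity)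
    rw [hB]; linarith
  have hpow : (n : ℝ) ^ (a + 1) ≤ (A : ℝ) ^ g₀ := by
    calc (n : ℝ) ^ (a + 1) ≤ (n : ℝ) ^ (e * g₀) := by
          refine rpow_le_rpow_of_exponent_le hn1 ?_
          rw [← div_le_iff₀' he0]
          exact Nat.le_ceil _
      _ = ((n : ℝ) ^ e) ^ g₀ := by rw [rpow_mul hn0.le, rpow_natCast]
      _ ≤ _ := pow_le_pow_left₀ (by positivity) hAn _
  have hnA : (n : ℝ) ≤ (A : ℝ) ^ (g₀ + 1) := by
    calc (n : ℝ) = (n : ℝ) ^ (1 : ℝ) := (rpow_one _).symm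
      _ ≤ (n : ℝ) ^ (a + 1) := rpow_le_rpow_of_exponent_le hn1 (by linarith)
      _ ≤ (A : ℝ) ^ g₀ := hpow
      _ ≤ _ := pow_le_pow_right₀ hA1 (by omega)
  have hMA : (M : ℝ) ≤ (A : ℝ) ^ (g₀ + 1) := by
    refine hM.trans ?_
    rw [pow_succ']
    exact mul_le_mul hAC ((rpow_le_rpow_of_exponent_le hn1 (by linarith)).trans hpow)
      (by positivity) (by linarith)
  obtain ⟨N, hN, hT⟩ := hG n hn M hM1 A (by omega) hnA hMA
  refine ⟨max N 1, le_max_right _ _, ?_, fun Ω mΩ μ x hx => ?_⟩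
  · rw [Nat.cast_max, Nat.cast_one]
    refine max_le (hN.trans ?_) (one_le_mul_of_one_le_of_one_le
      (le_add_of_nonneg_left (by positivity)) (one_le_rpow hn1 (by positivity)))
    have h1 : (M : ℝ) ^ θ ≤ C ^ θ * (n : ℝ) ^ (θ * a) := by
      refine (rpow_le_rpow (Nat.cast_nonneg M) hM hθ0).trans (le_of_eq ?_)
      rw [mul_rpow (by linarith) (by positivity), ← rpow_mul hn0.le, mul_comm a]
    have h2 : (A : ℝ) ^ k ≤ B ^ k * (n : ℝ) ^ (e * k) := by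
      refine (pow_le_pow_left₀ (Nat.cast_nonneg A) hAB k).trans (le_of_eq ?_)
      rw [mul_pow, rpow_mul hn0.le, rpow_natCast]
    have h3 : Real.log n ≤ (n : ℝ) ^ (δ / 2) / (δ / 2) :=
      Real.log_le_rpow_div hn0.le (by positivity)
    have hl0 : 0 ≤ Real.log n := Real.log_nonneg hn1
    calc C' * (M : ℝ) ^ θ * (A : ℝ) ^ k * Real.log n
        ≤ C' * (C ^ θ * (n : ℝ) ^ (θ * a)) * (B ^ k * (n : ℝ) ^ (e * k)) *
          ((n : ℝ) ^ (δ / 2) / (δ / 2)) := by gcongr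
      _ = C' * C ^ θ * B ^ k / (δ / 2) *
          ((n : ℝ) ^ (θ * a) * ((n : ℝ) ^ (e * k) * (n : ℝ) ^ (δ / 2))) := by ring
      _ ≤ C' * C ^ θ * B ^ k / (δ / 2) * (n : ℝ) ^ (θ * a + δ) := by
          refine mul_le_mul_of_nonneg_left ?_ (by positivity)
          rw [← rpow_add hn0, ← rpow_add hn0]
          refine rpow_le_rpow_of_exponent_le hn1 ?_
          have : e * k ≤ δ / 2 := by
            rw [he, div_mul_eq_mul_div, div_le_div_iff₀ (by positivity) two_pos]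
            have := mul_nonneg hδ.le (Nat.cast_nonneg (α := ℝ) k)
            linarith
          linarith
      _ ≤ _ := mul_le_mul_of_nonneg_right (le_add_of_nonneg_right zero_le_one) (by positivity)
  obtain ⟨F, hF⟩ := hF Ω mΩ μ x hx
  have hFi : Function.Injective F := fun i j hij => by
    by_contra hne
    have h1 := (hF i j).1
    rw [hij, sub_self, norm_zero] at h1
    exact hne (hx (sub_eq_zero.mp (norm_le_zero_iff.mp h1)))
  obtain ⟨T, hT⟩ := hT F hFi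
  rcases Nat.eq_zero_or_pos N with h | h
  · subst h
    exfalso
    have hab : (⟨0, by omega⟩ : Fin n) ≠ ⟨1, by omega⟩ := by simp [Fin.ext_iff]
    have h1 := (hT ⟨0, by omega⟩ ⟨1, by omega⟩).1
    rw [Subsingleton.elim (T ⟨0, by omega⟩) (T ⟨1, by omega⟩), sub_self, norm_zero] at h1
    exact hab (hFi (sub_eq_zero.mp (norm_le_zero_iff.mp (by linarith))))
  rw [max_eq_left (show 1 ≤ N from h)]
  refine ⟨fun i => (2 : ℝ) • T i, fun i j => ?_⟩
  rw [← smul_sub, norm_smul, Real.norm_eq_abs, abs_two]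
  obtain ⟨f1, f2⟩ := hF i j
  obtain ⟨t1, t2⟩ := hT i j
  refine ⟨by linarith, ?_⟩
  calc 2 * ‖T i - T j‖ ≤ 2 * (K * ‖F i - F j‖) := by linarith
    _ ≤ 2 * (K * (D * ‖x i - x j‖)) := by gcongr
    _ = _ := by ring

/-- Dimension `n ^ ε` for every `p ≥ 2`. -/
theorem emb_all (hp : 2 ≤ p) {ε : ℝ} (hε : 0 < ε) : Emb p ε := by
  have hp0 : 0 < p := by linarith
  set θ := 1 - 2 / p with hθ
  have hθ0 : 0 ≤ θ := by rw [hθ, sub_nonneg, div_le_one hp0]; exact hp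
  have hθ1 : θ < 1 := by rw [hθ]; linarith [show 0 < 2 / p by positivity]
  set δ := ε / p with hδ
  have hδ0 : 0 < δ := by positivity
  have hit : ∀ j : ℕ, Emb p (θ ^ j * 2 + ε / 2) := by
    intro j
    induction j with
    | zero => exact emb_mono (by simp; linarith) (emb_two (by linarith))
    | succ j ih =>
      have e : θ * (θ ^ j * 2 + ε / 2) + δ = θ ^ (j + 1) * 2 + ε / 2 := by
        rw [pow_succ, hθ, hδ]; field_simp; ring
      rw [← e]
      exact emb_step hp (by positivity) hδ0 ih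
  obtain ⟨j, hj⟩ := exists_pow_lt_of_lt_one (show 0 < ε / 4 by positivity) hθ1
  exact emb_mono (by linarith) (hit j)

end Vale.Agent.P249.High
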