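import Vale.Agent.P249.HighAvg

/-!
One level: the soft threshold of a sparse random signed sum, bounded above and below on average.
-/

namespace Vale.Agent.P249.High

open Finset Real
open scoped BigOperators

/-- Soft threshold at `τ`, clipped at `T`. -/
noncomputable def soft (τ T z : ℝ) : ℝ := max (-T) (min T (max (z - τ) 0 + min (z + τ) 0))

lemma abs_soft_le {τ T : ℝ} (hT : 0 ≤ T) (z : ℝ) : |soft τ T z| ≤ T :=
  abs_le.2 ⟨le_max_left _ _, max_le (by linarith) (min_le_left _ _)⟩

lemma soft_small {τ T z : ℝ} (hT : 0 ≤ T) (hz : |z| ≤ τ) : soft τ T z = 0 := by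
  obtain ⟨h1, h2⟩ := abs_le.1 hz
  rw [soft, max_eq_right (by linarith : z - τ ≤ 0), min_eq_right (by linarith : (0 : ℝ) ≤ z + τ)]
  simp [hT]

lemma soft_near {τ T z : ℝ} (hτ : 0 ≤ τ) (hz : |z| ≤ T) : |soft τ T z - z| ≤ τ := by
  obtain ⟨h1, h2⟩ := abs_le.1 hz
  rw [abs_le]
  unfold soft
  rcases le_total z τ with h3 | h3 <;> rcases le_total (-τ) z with h4 | h4
  all_goals constructor
  all_goals
    simp only [max_def, min_def]
    split_ifs <;> linarith

lemma soft_inner {τ : ℝ} (hτ : 0 ≤ τ) {a b : ℝ} (hab : a ≤ b) :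
    0 ≤ (max (b - τ) 0 + min (b + τ) 0) - (max (a - τ) 0 + min (a + τ) 0) ∧
      (max (b - τ) 0 + min (b + τ) 0) - (max (a - τ) 0 + min (a + τ) 0) ≤ b - a := by
  constructor <;>
    · simp only [max_def, min_def]
      split_ifs <;> linarith

lemma soft_lip {τ T : ℝ} (hτ : 0 ≤ τ) (a b : ℝ) : |soft τ T a - soft τ T b| ≤ |a - b| := by
  rw [soft, soft, max_comm (-T), max_comm (-T)]
  refine (abs_max_sub_max_le_abs _ _ _).trans ?_
  refine (abs_min_sub_min_le_max _ _ _ _).trans (max_le (by simp) ?_)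
  rcases le_total a b with h | h
  · obtain ⟨h1, h2⟩ := soft_inner hτ h
    rw [abs_sub_comm, abs_of_nonneg h1, abs_sub_comm, abs_of_nonneg (by linarith)]
    exact h2
  · obtain ⟨h1, h2⟩ := soft_inner hτ h
    rw [abs_of_nonneg h1, abs_of_nonneg (by linarith)]
    exact h2

variable {m P : ℕ}

/-- Whether coordinate value `a` is sampled at threshold `t`. -/
def bit (t : ℕ) (a : Fin P × Bool) : ℝ := if a.1.val < t then 1 else 0

/-- The signed sample of coordinate value `a`. -/
def sbit (t : ℕ) (a : Fin P × Bool) : ℝ :=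
  if a.1.val < t then (if a.2 then 1 else -1) else 0

/-- The sampled signed sum. -/
noncomputable def lin (t : ℕ) (a : Fin m → ℝ) (ω : Fin m → Fin P × Bool) : ℝ :=
  ∑ k, sbit t (ω k) * a k

/-- The vector with the coordinates in `B` removed. -/
def off (B : Finset (Fin m)) (a : Fin m → ℝ) (k : Fin m) : ℝ := if k ∈ B then 0 else a k

/-- Indicator that the absolute value exceeds `η`. -/
noncomputable def big (η z : ℝ) : ℝ := if η < |z| then 1 else 0

lemma bit_nonneg (t : ℕ) (a : Fin P × Bool) : 0 ≤ bit t a := by unfold bit; split_ifs <;> norm_num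

lemma big_nonneg (η z : ℝ) : 0 ≤ big η z := by unfold big; split_ifs <;> norm_num

lemma lin_zero (t : ℕ) (ω : Fin m → Fin P × Bool) : lin t 0 ω = 0 := by simp [lin]

lemma lin_split (t : ℕ) (B : Finset (Fin m)) (a : Fin m → ℝ) (ω : Fin m → Fin P × Bool) :
    lin t a ω = ∑ k ∈ B, sbit t (ω k) * a k + lin t (off B a) ω := by
  rw [lin, lin, ← sum_add_sum_compl B, ← sum_add_sum_compl B fun k => sbit t (ω k) * off B a k]
  have h1 : ∑ k ∈ B, sbit t (ω k) * off B a k = 0 := sum_eq_zero fun k hk => by simp [off, hk]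
  have h2 : ∑ k ∈ Bᶜ, sbit t (ω k) * off B a k = ∑ k ∈ Bᶜ, sbit t (ω k) * a k :=
    sum_congr rfl fun k hk => by simp [off, mem_compl.1 hk]
  rw [h1, h2, zero_add]

lemma lin_off_update (t : ℕ) {B : Finset (Fin m)} (a : Fin m → ℝ) {k : Fin m} (hk : k ∈ B)
    (ω : Fin m → Fin P × Bool) (x : Fin P × Bool) :
    lin t (off B a) (Function.update ω k x) = lin t (off B a) ω := by
  refine sum_congr rfl fun l _ => ?_
  rcases eq_or_ne l k with rfl | h
  · simp [off, hk]
  · rw [Function.update_of_ne h]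

variable {t : ℕ}

lemma expect_bit (hP : 0 < P) (ht : t ≤ P) :
    (𝔼 a : Fin P × Bool, bit t a) = (t : ℝ) / P := by
  rw [Fintype.expect_eq_sum_div_card, Fintype.card_prod, Fintype.card_fin, Fintype.card_bool,
    Fintype.sum_prod_type]
  have h : (univ.filter fun i : Fin P => i.val < t).card = t := by
    rw [Fin.card_filter_val_lt, min_eq_right ht]
  have e : ∀ x : Fin P, ∑ _y : Bool, bit t (x, _y) = 2 * (if x.val < t then (1 : ℝ) else 0) :=
    fun x => by simp [bit]; split_ifs <;> norm_num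
  simp only [e, ← mul_sum]
  rw [sum_boole, h]
  have : (0 : ℝ) < P := by exact_mod_cast hP
  push_cast
  field_simp

lemma mgf_one (hP : 0 < P) (ht : t ≤ P) {x : ℝ} (hx : |x| ≤ 1) :
    (𝔼 a : Fin P × Bool, Real.exp (x * sbit t a)) ≤ Real.exp ((t : ℝ) / P * x ^ 2) := by
  have h : (univ.filter fun i : Fin P => i.val < t).card = t := by
    rw [Fin.card_filter_val_lt, min_eq_right ht]
  have hP' : (0 : ℝ) < P := by exact_mod_cast hP
  have e : (𝔼 a : Fin P × Bool, Real.exp (x * sbit t a)) =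
      1 + (t : ℝ) / P * ((Real.exp x + Real.exp (-x)) / 2 - 1) := by
    rw [Fintype.expect_eq_sum_div_card, Fintype.card_prod, Fintype.card_fin, Fintype.card_bool,
      Fintype.sum_prod_type]
    have e1 : ∀ i : Fin P, ∑ b : Bool, Real.exp (x * sbit t (i, b)) =
        (if i.val < t then (Real.exp x + Real.exp (-x)) - 2 else 0) + 2 := by
      intro i
      simp only [Fintype.sum_bool, sbit]
      split_ifs <;> simp_all <;> ring_nf
    simp only [e1, sum_add_distrib, sum_ite, sum_const, h, nsmul_eq_mul, mul_zero, add_zero,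
      card_univ, Fintype.card_fin]
    push_cast
    field_simp
    ring
  have h1 : (Real.exp x + Real.exp (-x)) / 2 - 1 ≤ x ^ 2 := by
    have a1 := (abs_le.1 (Real.abs_exp_sub_one_sub_id_le hx)).2
    have a2 := (abs_le.1 (Real.abs_exp_sub_one_sub_id_le (x := -x) (by rwa [abs_neg]))).2
    nlinarith
  rw [e]
  refine le_trans ?_ (Real.add_one_le_exp _)
  have := mul_le_mul_of_nonneg_left h1 (show 0 ≤ (t : ℝ) / P by positivity)
  linarith

/-- The tail of a sum of small sampled terms. -/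
lemma light_tail (hP : 0 < P) (ht : t ≤ P) {τ' η : ℝ} (hτ' : 0 < τ') (a : Fin m → ℝ)
    (ha : ∀ k, |a k| ≤ τ') (hv : (t : ℝ) / P * ∑ k, a k ^ 2 ≤ τ' ^ 2) :
    (𝔼 ω : Fin m → Fin P × Bool, big η (lin t a ω)) ≤ 2 * Real.exp (1 - η / τ') := by
  have hne : Nonempty (Fin P × Bool) := ⟨(⟨0, hP⟩, true)⟩
  have one : ∀ s : ℝ, |s| = 1 →
      (𝔼 ω : Fin m → Fin P × Bool, Real.exp (s / τ' * lin t a ω)) ≤ Real.exp 1 := by
    intro s hs
    have e : ∀ ω : Fin m → Fin P × Bool, Real.exp (s / τ' * lin t a ω) =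
        ∏ k, Real.exp (s / τ' * a k * sbit t (ω k)) := fun ω => by
      rw [lin, mul_sum, Real.exp_sum]
      exact prod_congr rfl fun k _ => by ring_nf
    simp only [e]
    rw [expect_prod fun k b => Real.exp (s / τ' * a k * sbit t b)]
    refine (prod_le_prod (fun k _ => expect_nonneg fun b _ => (Real.exp_pos _).le)
      fun k _ => mgf_one hP ht (x := s / τ' * a k) ?_).trans ?_
    · rw [abs_mul, abs_div, hs, abs_of_pos hτ', div_mul_eq_mul_div, one_mul, div_le_one hτ']
      exact ha k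
    rw [← Real.exp_sum]
    refine Real.exp_le_exp.2 ?_
    rw [← mul_sum]
    have e2 : ∀ k, (s / τ' * a k) ^ 2 = a k ^ 2 / τ' ^ 2 := fun k => by
      rw [mul_pow, div_pow, ← sq_abs s, hs]; ring
    simp only [e2, ← sum_div]
    rw [mul_div_assoc', div_le_one (by positivity)]
    exact hv
  have pt : ∀ z : ℝ, big η z ≤
      Real.exp (-(η / τ')) * (Real.exp (1 / τ' * z) + Real.exp (-1 / τ' * z)) := by
    intro z
    unfold big
    split_ifs with h
    · rw [mul_add, ← Real.exp_add, ← Real.exp_add]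
      rcases le_total 0 z with hz | hz
      · rw [abs_of_nonneg hz] at h
        refine le_add_of_le_of_nonneg (Real.one_le_exp ?_) (Real.exp_pos _).le
        have : η / τ' ≤ z / τ' := by gcongr
        linarith [show 1 / τ' * z = z / τ' by ring]
      · rw [abs_of_nonpos hz] at h
        refine le_add_of_nonneg_of_le (Real.exp_pos _).le (Real.one_le_exp ?_)
        have : η / τ' ≤ (-z) / τ' := by gcongr
        linarith [show -1 / τ' * z = (-z) / τ' by ring]
    · positivity
  refine (expect_le_expect fun ω _ => pt (lin t a ω)).trans ?_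
  rw [← mul_expect, expect_add_distrib]
  calc Real.exp (-(η / τ')) * _ ≤ Real.exp (-(η / τ')) * (Real.exp 1 + Real.exp 1) :=
        mul_le_mul_of_nonneg_left (add_le_add (one 1 (abs_one)) (one (-1) (by simp)))
          (Real.exp_pos _).le
    _ = 2 * Real.exp (1 - η / τ') := by rw [sub_eq_add_neg, Real.exp_add]; ring

lemma sampled_sum {B : Finset (Fin m)} {ω : Fin m → Fin P × Bool} (f : Fin m → ℝ) :
    ∑ k ∈ B, bit t (ω k) * f k = ∑ k ∈ B.filter (fun k => (ω k).1.val < t), f k := by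
  rw [sum_filter]
  exact sum_congr rfl fun k _ => by simp [bit, ite_mul]

lemma sampled_sbit {B : Finset (Fin m)} {ω : Fin m → Fin P × Bool} (a : Fin m → ℝ) :
    ∑ k ∈ B, sbit t (ω k) * a k =
      ∑ k ∈ B.filter (fun k => (ω k).1.val < t), (if (ω k).2 then 1 else -1) * a k := by
  rw [sum_filter]
  exact sum_congr rfl fun k _ => by simp [sbit, ite_mul]

lemma erase_sum_ge {B : Finset (Fin m)} {ω : Fin m → Fin P × Bool} {k : Fin m}
    (h : (B.filter fun k => (ω k).1.val < t) ≠ {k}) (hk : k ∈ B) (hb : (ω k).1.val < t) :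
    1 ≤ ∑ k' ∈ B.erase k, bit t (ω k') := by
  set S := B.filter fun k => (ω k).1.val < t
  have hkS : k ∈ S := mem_filter.2 ⟨hk, hb⟩
  obtain ⟨k', hk', hne⟩ : ∃ k' ∈ S, k' ≠ k := by
    by_contra! hc
    exact h (eq_singleton_iff_unique_mem.2 ⟨hkS, hc⟩)
  refine le_trans ?_ (single_le_sum (fun l _ => bit_nonneg t (ω l))
    (mem_erase.2 ⟨hne, (mem_filter.1 hk').1⟩))
  simp [bit, (mem_filter.1 hk').2]

variable {τ T η p : ℝ}

lemma upper_pointwise (hp : 1 ≤ p) (hτ : 0 ≤ τ) (hT : 0 ≤ T) (hη : 0 ≤ η) (hητ : η ≤ τ / 2)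
    (a c : Fin m → ℝ) (B : Finset (Fin m)) (ω : Fin m → Fin P × Bool) :
    |soft τ T (lin t a ω) - soft τ T (lin t c ω)| ^ p ≤
      (2 * T) ^ p * (big η (lin t (off B a) ω) + big η (lin t (off B c) ω) +
        ∑ k ∈ B, bit t (ω k) * ∑ k' ∈ B.erase k, bit t (ω k')) +
      ∑ k ∈ B.filter (fun k => τ / 2 < max |a k| |c k|),
        bit t (ω k) * (2 ^ p * (|a k - c k| ^ p + (2 * η) ^ p)) := by
  set Δ := |soft τ T (lin t a ω) - soft τ T (lin t c ω)| with hΔ
  have hp0 : 0 < p := by linarith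
  have hΔT : Δ ^ p ≤ (2 * T) ^ p := by
    refine rpow_le_rpow (abs_nonneg _) ((abs_sub _ _).trans ?_) hp0.le
    linarith [abs_soft_le (τ := τ) hT (lin t a ω), abs_soft_le (τ := τ) hT (lin t c ω)]
  have hbig := big_nonneg η (lin t (off B a) ω)
  have hbig' := big_nonneg η (lin t (off B c) ω)
  have hpairs : 0 ≤ ∑ k ∈ B, bit t (ω k) * ∑ k' ∈ B.erase k, bit t (ω k') :=
    sum_nonneg fun k _ => mul_nonneg (bit_nonneg _ _) (sum_nonneg fun k' _ => bit_nonneg _ _)
  have hrest : 0 ≤ ∑ k ∈ B.filter (fun k => τ / 2 < max |a k| |c k|),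
      bit t (ω k) * (2 ^ p * (|a k - c k| ^ p + (2 * η) ^ p)) :=
    sum_nonneg fun k _ => mul_nonneg (bit_nonneg _ _) (by positivity)
  have hT0 : 0 ≤ (2 * T) ^ p := by positivity
  have case1 : 1 ≤ big η (lin t (off B a) ω) + big η (lin t (off B c) ω) +
      ∑ k ∈ B, bit t (ω k) * ∑ k' ∈ B.erase k, bit t (ω k') → Δ ^ p ≤
      (2 * T) ^ p * (big η (lin t (off B a) ω) + big η (lin t (off B c) ω) +
        ∑ k ∈ B, bit t (ω k) * ∑ k' ∈ B.erase k, bit t (ω k')) +
      ∑ k ∈ B.filter (fun k => τ / 2 < max |a k| |c k|),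
        bit t (ω k) * (2 ^ p * (|a k - c k| ^ p + (2 * η) ^ p)) := fun h => by
    have := mul_le_mul_of_nonneg_left h hT0
    linarith
  by_cases ha : η < |lin t (off B a) ω|
  · have e : big η (lin t (off B a) ω) = 1 := by simp [big, ha]
    exact case1 (by linarith)
  by_cases hc : η < |lin t (off B c) ω|
  · have e : big η (lin t (off B c) ω) = 1 := by simp [big, hc]
    exact case1 (by linarith)
  push Not at ha hc
  set S := B.filter fun k => (ω k).1.val < t with hS
  have ea := (lin_split t B a ω).trans (congrArg (· + _) (sampled_sbit a))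
  have ec := (lin_split t B c ω).trans (congrArg (· + _) (sampled_sbit c))
  rw [← hS] at ea ec
  rcases S.eq_empty_or_nonempty with h0 | ⟨k, hk⟩
  · rw [h0, sum_empty, zero_add] at ea ec
    have : Δ = 0 := by
      rw [hΔ, ea, ec, soft_small hT (by linarith), soft_small hT (by linarith)]
      simp
    rw [this, zero_rpow hp0.ne']
    positivity
  have hkB := (mem_filter.1 hk).1
  have hkt := (mem_filter.1 hk).2
  by_cases h1 : S = {k}
  swap
  · refine case1 ?_
    have h2 := single_le_sum (f := fun k => bit t (ω k) * ∑ k' ∈ B.erase k, bit t (ω k'))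
      (fun l _ => mul_nonneg (bit_nonneg _ _) (sum_nonneg fun k' _ => bit_nonneg _ _)) hkB
    simp only [bit, hkt, if_true, one_mul] at h2
    have h3 := erase_sum_ge h1 hkB hkt
    simp only [bit] at h3 ⊢
    linarith [hbig, hbig']
  rw [h1, sum_singleton] at ea ec
  set s : ℝ := if (ω k).2 then 1 else -1 with hs
  have hs1 : |s| = 1 := by rw [hs]; split_ifs <;> simp
  set la := lin t (off B a) ω
  set lc := lin t (off B c) ω
  by_cases hbg : τ / 2 < max |a k| |c k|
  swap
  · push Not at hbg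
    have hza : |lin t a ω| ≤ τ := by
      rw [ea]
      refine (abs_add_le _ _).trans ?_
      rw [abs_mul, hs1, one_mul]
      linarith [le_max_left |a k| |c k|]
    have hzc : |lin t c ω| ≤ τ := by
      rw [ec]
      refine (abs_add_le _ _).trans ?_
      rw [abs_mul, hs1, one_mul]
      linarith [le_max_right |a k| |c k|]
    have : Δ = 0 := by rw [hΔ, soft_small hT hza, soft_small hT hzc]; simp
    rw [this, zero_rpow hp0.ne']
    positivity
  have hd : Δ ≤ |a k - c k| + 2 * η := by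
    refine (soft_lip hτ _ _).trans ?_
    rw [ea, ec, show s * a k + la - (s * c k + lc) = s * (a k - c k) + (la - lc) by ring]
    refine (abs_add_le _ _).trans ?_
    rw [abs_mul, hs1, one_mul]
    linarith [abs_sub la lc]
  have hsingle := single_le_sum
    (f := fun k => bit t (ω k) * (2 ^ p * (|a k - c k| ^ p + (2 * η) ^ p)))
    (fun l _ => mul_nonneg (bit_nonneg _ _) (by positivity))
    (show k ∈ B.filter (fun k => τ / 2 < max |a k| |c k|) from mem_filter.2 ⟨hkB, hbg⟩)
  simp only [bit, hkt, if_true, one_mul] at hsingle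
  refine le_trans ?_ (le_add_of_nonneg_of_le (mul_nonneg hT0 (by linarith)) hsingle)
  refine (rpow_le_rpow (abs_nonneg _) hd hp0.le).trans ?_
  have hmax : |a k - c k| + 2 * η ≤ 2 * max |a k - c k| (2 * η) := by
    rcases le_total |a k - c k| (2 * η) with h | h
    · rw [max_eq_right h]; linarith
    · rw [max_eq_left h]; linarith
  calc (|a k - c k| + 2 * η) ^ p ≤ (2 * max |a k - c k| (2 * η)) ^ p :=
        rpow_le_rpow (by positivity) hmax hp0.le
    _ ≤ _ := by
        rw [mul_rpow (by norm_num) (le_max_of_le_right (by linarith))]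
        refine mul_le_mul_of_nonneg_left ?_ (by positivity)
        have n1 : 0 ≤ |a k - c k| ^ p := by positivity
        have n2 : 0 ≤ (2 * η) ^ p := by positivity
        rcases le_total |a k - c k| (2 * η) with h | h
        · rw [max_eq_right h]; linarith
        · rw [max_eq_left h]; linarith

lemma lower_pointwise (hp : 1 ≤ p) (hτ : 0 ≤ τ) (hη : 0 ≤ η) (a c : Fin m → ℝ)
    (B H : Finset (Fin m)) (hHB : H ⊆ B) (hH : ∀ k ∈ H, 4 * (τ + η) ≤ |a k - c k| ∧
      max |a k| |c k| + η ≤ T) (ω : Fin m → Fin P × Bool) :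
    ∑ k ∈ H, bit t (ω k) * ((|a k - c k| / 2) ^ p * (1 - ∑ k' ∈ B.erase k, bit t (ω k') -
        big η (lin t (off B a) ω) - big η (lin t (off B c) ω))) ≤
      |soft τ T (lin t a ω) - soft τ T (lin t c ω)| ^ p := by
  set Δ := |soft τ T (lin t a ω) - soft τ T (lin t c ω)| with hΔ
  have hbig := big_nonneg η (lin t (off B a) ω)
  have hbig' := big_nonneg η (lin t (off B c) ω)
  set S := B.filter fun k => (ω k).1.val < t with hS
  -- at most one term is positive
  by_cases hgood : ∃ k ∈ H, S = {k} ∧ |lin t (off B a) ω| ≤ η ∧ |lin t (off B c) ω| ≤ η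
  swap
  · refine le_trans (sum_nonpos fun k hk => ?_) (rpow_nonneg (abs_nonneg _) _)
    by_cases hb : (ω k).1.val < t
    swap
    · simp [bit, hb]
    refine mul_nonpos_of_nonneg_of_nonpos (bit_nonneg _ _)
      (mul_nonpos_of_nonneg_of_nonpos (by positivity) ?_)
    push Not at hgood
    by_cases h1 : S = {k}
    · by_cases ha : |lin t (off B a) ω| ≤ η
      · have := hgood k hk h1 ha
        have e : big η (lin t (off B c) ω) = 1 := by simp [big, this]
        linarith [sum_nonneg (s := B.erase k) fun l _ => bit_nonneg t (ω l), big_nonneg η (lin t (off B a) ω)]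
      · push Not at ha
        have e : big η (lin t (off B a) ω) = 1 := by simp [big, ha]
        linarith [sum_nonneg (s := B.erase k) fun l _ => bit_nonneg t (ω l), big_nonneg η (lin t (off B c) ω)]
    · linarith [erase_sum_ge h1 (hHB hk) hb]
  obtain ⟨k, hk, h1, ha, hc⟩ := hgood
  have hkt : (ω k).1.val < t := (mem_filter.1 (h1 ▸ mem_singleton_self k : k ∈ S)).2
  rw [sum_eq_single_of_mem k hk fun l hl hne => by
    have : ¬(ω l).1.val < t := fun hlt => hne (by
      have : l ∈ S := mem_filter.2 ⟨hHB hl, hlt⟩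
      simpa [h1] using this)
    simp [bit, this]]
  simp only [bit, hkt, if_true, one_mul]
  refine le_trans (mul_le_of_le_one_right (by positivity) ?_) ?_
  · have := sum_nonneg (s := B.erase k) fun l _ => bit_nonneg t (ω l)
    simp only [bit] at this
    linarith
  refine rpow_le_rpow (by positivity) ?_ (by linarith)
  obtain ⟨hd, hTk⟩ := hH k hk
  have ea := (lin_split t B a ω).trans (congrArg (· + _) (sampled_sbit a))
  have ec := (lin_split t B c ω).trans (congrArg (· + _) (sampled_sbit c))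
  rw [← hS, h1, sum_singleton] at ea ec
  set s : ℝ := if (ω k).2 then 1 else -1 with hs
  have hs1 : |s| = 1 := by rw [hs]; split_ifs <;> simp
  set la := lin t (off B a) ω
  set lc := lin t (off B c) ω
  have hza : |lin t a ω| ≤ T := by
    rw [ea]
    refine (abs_add_le _ _).trans ?_
    rw [abs_mul, hs1, one_mul]
    linarith [le_max_left |a k| |c k|]
  have hzc : |lin t c ω| ≤ T := by
    rw [ec]
    refine (abs_add_le _ _).trans ?_
    rw [abs_mul, hs1, one_mul]
    linarith [le_max_right |a k| |c k|]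
  have n1 := soft_near hτ hza
  have n2 := soft_near hτ hzc
  have e : |a k - c k| ≤ |lin t a ω - lin t c ω| + 2 * η := by
    rw [ea, ec]
    calc |a k - c k| = |s * (a k - c k)| := by rw [abs_mul, hs1, one_mul]
      _ = |(s * a k + la - (s * c k + lc)) - (la - lc)| := by ring_nf
      _ ≤ _ := (abs_sub _ _).trans (by linarith [abs_sub la lc])
  have e2 : |lin t a ω - lin t c ω| ≤ Δ + 2 * τ := by
    have : lin t a ω - lin t c ω = (soft τ T (lin t a ω) - soft τ T (lin t c ω)) -
        (soft τ T (lin t a ω) - lin t a ω) + (soft τ T (lin t c ω) - lin t c ω) := by ring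
    rw [this]
    refine (abs_add_le _ _).trans ((add_le_add (abs_sub _ _) le_rfl).trans ?_)
    linarith
  linarith

variable {τ' : ℝ}

/-- Upper bound on average. -/
theorem upper_mean (hP : 0 < P) (ht : t ≤ P) (hp : 1 ≤ p) (hτ : 0 ≤ τ) (hT : 0 ≤ T) (hη : 0 ≤ η)
    (hητ : η ≤ τ / 2) (hτ' : 0 < τ') (a c : Fin m → ℝ) (B : Finset (Fin m))
    (hB : ∀ k ∉ B, |a k| ≤ τ' ∧ |c k| ≤ τ') (hva : (t : ℝ) / P * ∑ k, a k ^ 2 ≤ τ' ^ 2)
    (hvc : (t : ℝ) / P * ∑ k, c k ^ 2 ≤ τ' ^ 2) :
    (𝔼 ω : Fin m → Fin P × Bool, |soft τ T (lin t a ω) - soft τ T (lin t c ω)| ^ p) ≤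
      (2 * T) ^ p * (4 * Real.exp (1 - η / τ') + ((t : ℝ) / P * B.card) ^ 2) +
      2 ^ p * ((t : ℝ) / P) * (∑ k, |a k - c k| ^ p +
        (B.filter fun k => τ / 2 < max |a k| |c k|).card * (2 * η) ^ p) := by
  have hne : Nonempty (Fin P × Bool) := ⟨(⟨0, hP⟩, true)⟩
  set q := (t : ℝ) / P with hq
  have hq0 : 0 ≤ q := by positivity
  refine (expect_le_expect fun ω _ => upper_pointwise hp hτ hT hη hητ a c B ω).trans ?_
  rw [expect_add_distrib, ← mul_expect, expect_add_distrib, expect_add_distrib,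
    expect_sum_comm, expect_sum_comm]
  have hb : ∀ k, (𝔼 ω : Fin m → Fin P × Bool, bit t (ω k)) = q := fun k => by
    have := expect_coord_mul k (bit t (P := P)) (fun _ => 1) (fun _ _ => rfl)
    simpa [expect_bit hP ht, ← hq] using this
  have e1 : ∀ k ∈ B, (𝔼 ω : Fin m → Fin P × Bool, bit t (ω k) *
      ∑ k' ∈ B.erase k, bit t (ω k')) ≤ q * (q * B.card) := by
    intro k hk
    rw [expect_coord_mul k (bit t (P := P)) (fun ω => ∑ k' ∈ B.erase k, bit t (ω k'))
      (fun ω x => sum_congr rfl fun l hl => by rw [Function.update_of_ne (mem_erase.1 hl).1]),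
      expect_bit hP ht, ← hq, expect_sum_comm]
    refine mul_le_mul_of_nonneg_left ?_ hq0
    simp only [hb, sum_const, nsmul_eq_mul]
    rw [mul_comm q]
    refine mul_le_mul_of_nonneg_right ?_ hq0
    exact_mod_cast card_erase_le
  have hla : (𝔼 ω : Fin m → Fin P × Bool, big η (lin t (off B a) ω)) ≤ 2 * Real.exp (1 - η / τ') := by
    refine light_tail hP ht hτ' _ (fun k => ?_) (le_trans ?_ hva)
    · by_cases hk : k ∈ B
      · simp [off, hk, hτ'.le]
      · simpa [off, hk] using (hB k hk).1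
    · refine mul_le_mul_of_nonneg_left (sum_le_sum fun k _ => ?_) hq0
      by_cases hk : k ∈ B <;> simp [off, hk, sq_nonneg]
  have hlc : (𝔼 ω : Fin m → Fin P × Bool, big η (lin t (off B c) ω)) ≤ 2 * Real.exp (1 - η / τ') := by
    refine light_tail hP ht hτ' _ (fun k => ?_) (le_trans ?_ hvc)
    · by_cases hk : k ∈ B
      · simp [off, hk, hτ'.le]
      · simpa [off, hk] using (hB k hk).2
    · refine mul_le_mul_of_nonneg_left (sum_le_sum fun k _ => ?_) hq0
      by_cases hk : k ∈ B <;> simp [off, hk, sq_nonneg]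
  refine add_le_add (mul_le_mul_of_nonneg_left ?_ (by positivity)) ?_
  · have := sum_le_sum e1
    rw [sum_const, nsmul_eq_mul] at this
    nlinarith
  · simp only [← expect_mul, hb]
    refine le_of_eq_of_le (b := 2 ^ p * q *
      (∑ k ∈ B.filter (fun k => τ / 2 < max |a k| |c k|), (|a k - c k| ^ p + (2 * η) ^ p))) ?_ ?_
    · rw [mul_sum]; exact sum_congr rfl fun k _ => by ring
    · refine mul_le_mul_of_nonneg_left ?_ (by positivity)
      rw [sum_add_distrib, sum_const, nsmul_eq_mul]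
      exact add_le_add (sum_le_univ_sum_of_nonneg fun k => by positivity) le_rfl

/-- Lower bound on average. -/
theorem lower_mean (hP : 0 < P) (ht : t ≤ P) (hp : 1 ≤ p) (hτ : 0 ≤ τ) (hη : 0 ≤ η)
    (hτ' : 0 < τ') (a c : Fin m → ℝ) (B H : Finset (Fin m)) (hHB : H ⊆ B)
    (hH : ∀ k ∈ H, 4 * (τ + η) ≤ |a k - c k| ∧ max |a k| |c k| + η ≤ T)
    (hB : ∀ k ∉ B, |a k| ≤ τ' ∧ |c k| ≤ τ') (hva : (t : ℝ) / P * ∑ k, a k ^ 2 ≤ τ' ^ 2)
    (hvc : (t : ℝ) / P * ∑ k, c k ^ 2 ≤ τ' ^ 2)
    (hcoll : (t : ℝ) / P * B.card ≤ 1 / 4) (hexp : 4 * Real.exp (1 - η / τ') ≤ 1 / 4) :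
    (t : ℝ) / P / 2 * ∑ k ∈ H, (|a k - c k| / 2) ^ p ≤
      𝔼 ω : Fin m → Fin P × Bool, |soft τ T (lin t a ω) - soft τ T (lin t c ω)| ^ p := by
  have hne : Nonempty (Fin P × Bool) := ⟨(⟨0, hP⟩, true)⟩
  refine le_trans ?_ (expect_le_expect fun ω _ => lower_pointwise hp hτ hη a c B H hHB hH ω)
  rw [expect_sum_comm, mul_sum]
  refine sum_le_sum fun k hk => ?_
  have hkB := hHB hk
  rw [expect_coord_mul k (bit t (P := P)) (fun ω => (|a k - c k| / 2) ^ p *
      (1 - ∑ k' ∈ B.erase k, bit t (ω k') -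
        big η (lin t (off B a) ω) - big η (lin t (off B c) ω)))
    (fun ω x => by
      have hs : ∑ k' ∈ B.erase k, bit t (Function.update ω k x k') =
          ∑ k' ∈ B.erase k, bit t (ω k') :=
        sum_congr rfl fun l hl => by rw [Function.update_of_ne (mem_erase.1 hl).1]
      simp only [lin_off_update t a hkB, lin_off_update t c hkB, hs]),
    expect_bit hP ht, ← mul_expect, expect_sub_distrib, expect_sub_distrib, expect_sub_distrib,
    Fintype.expect_const, expect_sum_comm]
  have hb : ∀ k, (𝔼 ω : Fin m → Fin P × Bool, bit t (ω k)) = (t : ℝ) / P := fun k => by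
    have := expect_coord_mul k (bit t (P := P)) (fun _ => 1) (fun _ _ => rfl)
    simpa [expect_bit hP ht] using this
  have h1 : ∑ k' ∈ B.erase k, (𝔼 ω : Fin m → Fin P × Bool, bit t (ω k')) ≤ 1 / 4 := by
    simp only [hb, sum_const, nsmul_eq_mul]
    refine le_trans ?_ hcoll
    rw [mul_comm ((t : ℝ) / P)]
    refine mul_le_mul_of_nonneg_right ?_ (by positivity)
    exact_mod_cast card_erase_le
  have hla : (𝔼 ω : Fin m → Fin P × Bool, big η (lin t (off B a) ω)) ≤ 2 * Real.exp (1 - η / τ') := by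
    refine light_tail hP ht hτ' _ (fun k => ?_) (le_trans ?_ hva)
    · by_cases hk : k ∈ B
      · simp [off, hk, hτ'.le]
      · simpa [off, hk] using (hB k hk).1
    · refine mul_le_mul_of_nonneg_left (sum_le_sum fun k _ => ?_) (by positivity)
      by_cases hk : k ∈ B <;> simp [off, hk, sq_nonneg]
  have hlc : (𝔼 ω : Fin m → Fin P × Bool, big η (lin t (off B c) ω)) ≤ 2 * Real.exp (1 - η / τ') := by
    refine light_tail hP ht hτ' _ (fun k => ?_) (le_trans ?_ hvc)
    · by_cases hk : k ∈ B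
      · simp [off, hk, hτ'.le]
      · simpa [off, hk] using (hB k hk).2
    · refine mul_le_mul_of_nonneg_left (sum_le_sum fun k _ => ?_) (by positivity)
      by_cases hk : k ∈ B <;> simp [off, hk, sq_nonneg]
  have hD : 0 ≤ (|a k - c k| / 2) ^ p := by positivity
  calc (t : ℝ) / P / 2 * (|a k - c k| / 2) ^ p
      = (t : ℝ) / P * ((|a k - c k| / 2) ^ p * (1 / 2)) := by ring
    _ ≤ _ := mul_le_mul_of_nonneg_left (mul_le_mul_of_nonneg_left (by linarith) hD) (by positivity)

end Vale.Agent.P249.High
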