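import Vale.Agent.P249.HighLevel

/-!
The levels added up: two vectors in a ball of radius `16 R ^ 2` and their difference.
-/

namespace Vale.Agent.P249.High

open Finset
open scoped BigOperators

/-- The noise allowance at scale parameter `R`. -/
noncomputable def noise (R : ℕ) : ℝ := 1 / (1600 * (R : ℝ) ^ 2)

/-- The clipping level. -/
noncomputable def clip (R : ℕ) : ℝ := 48 * (R : ℝ) ^ 3 + 1

/-- The feature of level `j`. -/
noncomputable def feat (p : ℝ) (R G : ℕ) {m P : ℕ} (j : ℕ) (u : Fin m → ℝ)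
    (ω : Fin m → Fin P × Bool) : ℝ :=
  soft (1 / 20) (clip R) (lin (R ^ (G - j)) (fun k => (R : ℝ) ^ ((j : ℝ) / p) * u k) ω)

/-- The numerical conditions on the parameters. -/
structure Good (p : ℝ) (m R G N₀ : ℕ) : Prop where
  two_le : 2 ≤ p
  R_ge : 4 ≤ R
  N_pos : 0 < N₀
  var : (m : ℝ) ^ (1 - 2 / p) * (16 * (R : ℝ) ^ 2) ^ 2 ≤ N₀ * (noise R / R) ^ 2
  coll : 2 * (16 * (R : ℝ) ^ 2 / (noise R / R)) ^ p / N₀ ≤ 1 / 4
  coll_sq : (2 * clip R) ^ p * ((2 * (16 * (R : ℝ) ^ 2 / (noise R / R)) ^ p / N₀) ^ 2 * N₀) ≤ 1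
  tail : (2 * clip R) ^ p * (4 * Real.exp (1 - R)) * N₀ ≤ 1
  tail_small : 4 * Real.exp (1 - (R : ℝ)) ≤ 1 / 4
  levels : 4 * (m : ℝ) ≤ (R : ℝ) ^ G

lemma feat_zero (p : ℝ) (R G : ℕ) {m P : ℕ} (j : ℕ) (ω : Fin m → Fin P × Bool) :
    feat p R G j 0 ω = 0 := by
  have h : (fun k => (R : ℝ) ^ ((j : ℝ) / p) * (0 : Fin m → ℝ) k) = 0 := by funext k; simp
  rw [feat, h, lin_zero, soft_small (by rw [clip]; positivity) (by norm_num)]

lemma card_large_le {m : ℕ} {p θ : ℝ} (hp : 0 < p) (hθ : 0 < θ) (a c : Fin m → ℝ) :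
    ((univ.filter fun k => θ < max |a k| |c k|).card : ℝ) * θ ^ p ≤
      ∑ k, |a k| ^ p + ∑ k, |c k| ^ p := by
  rw [← nsmul_eq_mul, ← sum_const, ← sum_add_distrib]
  refine (sum_le_sum fun k hk => ?_).trans (sum_le_univ_sum_of_nonneg fun k => by positivity)
  have h := (mem_filter.1 hk).2
  refine (Real.rpow_le_rpow hθ.le h.le hp.le).trans ?_
  have n1 : 0 ≤ |a k| ^ p := by positivity
  have n2 : 0 ≤ |c k| ^ p := by positivity
  rcases le_total |a k| |c k| with h' | h'
  · rw [max_eq_right h']; linarith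
  · rw [max_eq_left h']; linarith

lemma sum_sq_le {m : ℕ} {p r : ℝ} (hp : 2 ≤ p) (hr : 0 ≤ r) (u : Fin m → ℝ)
    (hu : ∑ k, |u k| ^ p ≤ r ^ p) : ∑ k, u k ^ 2 ≤ (m : ℝ) ^ (1 - 2 / p) * r ^ 2 := by
  have hp0 : 0 < p := by linarith
  have h := Real.rpow_sum_le_const_mul_sum_rpow (s := (univ : Finset (Fin m)))
    (f := fun k => u k ^ 2) (p := p / 2) (by rw [le_div_iff₀ two_pos]; linarith)
  simp only [abs_pow, card_univ, Fintype.card_fin] at h
  have e : ∀ k, (|u k| ^ 2) ^ (p / 2) = |u k| ^ p := fun k => by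
    rw [← Real.rpow_two, ← Real.rpow_mul (abs_nonneg _)]
    congr 1
    ring
  have e2 : ∑ k, |u k| ^ 2 = ∑ k, u k ^ 2 := sum_congr rfl fun k _ => sq_abs _
  simp only [e] at h
  rw [e2] at h
  have hS : 0 ≤ ∑ k, u k ^ 2 := sum_nonneg fun k _ => sq_nonneg _
  have h2 : (∑ k, u k ^ 2) ^ (p / 2) ≤ (m : ℝ) ^ (p / 2 - 1) * r ^ p :=
    h.trans (mul_le_mul_of_nonneg_left hu (by positivity))
  have h3 := Real.rpow_le_rpow (Real.rpow_nonneg hS _) h2 (show 0 ≤ 2 / p by positivity)
  rw [← Real.rpow_mul hS, show p / 2 * (2 / p) = 1 by field_simp, Real.rpow_one,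
    Real.mul_rpow (by positivity) (by positivity), ← Real.rpow_mul (Nat.cast_nonneg m),
    ← Real.rpow_mul hr, show p * (2 / p) = (2 : ℕ) by push_cast; field_simp,
    Real.rpow_natCast] at h3
  refine h3.trans (le_of_eq ?_)
  congr 2
  field_simp

section pair

variable {p : ℝ} {m R G N₀ : ℕ} (hG : Good p m R G N₀)
include hG

lemma weight_rpow (j : ℕ) : ((R : ℝ) ^ ((j : ℝ) / p)) ^ p = (R : ℝ) ^ j := by
  have := hG.two_le
  rw [← Real.rpow_mul (Nat.cast_nonneg R), div_mul_cancel₀ _ (by linarith : p ≠ 0),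
    Real.rpow_natCast]

lemma prob_eq {j : ℕ} (hj : j ≤ G) :
    ((R ^ (G - j) : ℕ) : ℝ) / ((N₀ * R ^ G : ℕ) : ℝ) = 1 / (N₀ * (R : ℝ) ^ j) := by
  have hR : (0 : ℝ) < R := by exact_mod_cast (show 0 < R by linarith [hG.R_ge])
  have hN : (0 : ℝ) < N₀ := by exact_mod_cast hG.N_pos
  push_cast
  rw [div_eq_div_iff (by positivity) (by positivity), ← mul_assoc, mul_comm _ (N₀ : ℝ), mul_assoc,
    ← pow_add, Nat.sub_add_cancel hj, one_mul]

/-- The facts about one level used by both bounds. -/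
lemma level_facts {j : ℕ} (hj : j ≤ G) {u : Fin m → ℝ}
    (hu : ∑ k, |u k| ^ p ≤ (16 * (R : ℝ) ^ 2) ^ p) :
    ((R ^ (G - j) : ℕ) : ℝ) / ((N₀ * R ^ G : ℕ) : ℝ) *
        ∑ k, ((R : ℝ) ^ ((j : ℝ) / p) * u k) ^ 2 ≤ (noise R / R) ^ 2 ∧
      ∑ k, |(R : ℝ) ^ ((j : ℝ) / p) * u k| ^ p ≤ (R : ℝ) ^ j * (16 * (R : ℝ) ^ 2) ^ p := by
  have hp := hG.two_le
  have hR : (1 : ℝ) ≤ R := by exact_mod_cast (show 1 ≤ R by linarith [hG.R_ge])
  have hN : (0 : ℝ) < N₀ := by exact_mod_cast hG.N_pos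
  refine ⟨?_, ?_⟩
  · rw [prob_eq hG hj]
    simp only [mul_pow, ← mul_sum]
    have hw : ((R : ℝ) ^ ((j : ℝ) / p)) ^ 2 ≤ (R : ℝ) ^ j := by
      rw [← Real.rpow_natCast ((R : ℝ) ^ ((j : ℝ) / p)) 2, ← Real.rpow_mul (by linarith),
        ← Real.rpow_natCast (R : ℝ) j]
      refine Real.rpow_le_rpow_of_exponent_le hR ?_
      rw [div_mul_eq_mul_div, div_le_iff₀ (by linarith)]
      push_cast
      exact mul_le_mul_of_nonneg_left hp (Nat.cast_nonneg j)
    have hs := sum_sq_le hp (by positivity) u hu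
    calc 1 / (N₀ * (R : ℝ) ^ j) * (((R : ℝ) ^ ((j : ℝ) / p)) ^ 2 * ∑ k, u k ^ 2)
        ≤ 1 / (N₀ * (R : ℝ) ^ j) * ((R : ℝ) ^ j * ((N₀ : ℝ) * (noise R / R) ^ 2)) := by
          refine mul_le_mul_of_nonneg_left (mul_le_mul hw (hs.trans hG.var)
            (sum_nonneg fun k _ => sq_nonneg _) (by positivity)) (by positivity)
      _ = _ := by field_simp
  · have e : ∀ k, |(R : ℝ) ^ ((j : ℝ) / p) * u k| ^ p = (R : ℝ) ^ j * |u k| ^ p := fun k => by
      rw [abs_mul, Real.mul_rpow (abs_nonneg _) (abs_nonneg _),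
        abs_of_nonneg (Real.rpow_nonneg (Nat.cast_nonneg R) _), weight_rpow hG]
    simp only [e, ← mul_sum]
    exact mul_le_mul_of_nonneg_left hu (by positivity)

/-- The coordinates that count as large at level `j` are few. -/
lemma card_level_le {j : ℕ} (hj : j ≤ G) {θ : ℝ} (hθ : 0 < θ) {u v : Fin m → ℝ}
    (hu : ∑ k, |u k| ^ p ≤ (16 * (R : ℝ) ^ 2) ^ p) (hv : ∑ k, |v k| ^ p ≤ (16 * (R : ℝ) ^ 2) ^ p) :
    1 / (N₀ * (R : ℝ) ^ j) * ((univ.filter fun k => θ < max |(R : ℝ) ^ ((j : ℝ) / p) * u k|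
        |(R : ℝ) ^ ((j : ℝ) / p) * v k|).card : ℝ) ≤
      2 * (16 * (R : ℝ) ^ 2 / θ) ^ p / N₀ := by
  have hp : 0 < p := by linarith [hG.two_le]
  have hR : (0 : ℝ) < R := by exact_mod_cast (show 0 < R by linarith [hG.R_ge])
  have hN : (0 : ℝ) < N₀ := by exact_mod_cast hG.N_pos
  have h := card_large_le hp hθ (fun k => (R : ℝ) ^ ((j : ℝ) / p) * u k)
    (fun k => (R : ℝ) ^ ((j : ℝ) / p) * v k)
  have hθp : 0 < θ ^ p := by positivity
  rw [← le_div_iff₀ hθp] at h
  refine (mul_le_mul_of_nonneg_left (h.trans (div_le_div_of_nonneg_right (add_le_add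
    (level_facts hG hj hu).2 (level_facts hG hj hv).2) hθp.le)) (by positivity)).trans (le_of_eq ?_)
  rw [Real.div_rpow (by positivity) hθ.le]
  field_simp
  ring

/-- Upper bound for one level. -/
theorem pair_upper {j : ℕ} (hj : j ≤ G) {u v : Fin m → ℝ}
    (hu : ∑ k, |u k| ^ p ≤ (16 * (R : ℝ) ^ 2) ^ p) (hv : ∑ k, |v k| ^ p ≤ (16 * (R : ℝ) ^ 2) ^ p) :
    (N₀ : ℝ) * (𝔼 ω : Fin m → Fin (N₀ * R ^ G) × Bool,
        |feat p R G j u ω - feat p R G j v ω| ^ p) ≤
      2 + 2 ^ p * (∑ k, |u k - v k| ^ p + 2) := by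
  have hp := hG.two_le
  have hR : (4 : ℝ) ≤ R := by exact_mod_cast hG.R_ge
  have hN : (0 : ℝ) < N₀ := by exact_mod_cast hG.N_pos
  set w := (R : ℝ) ^ ((j : ℝ) / p) with hw
  have hτ' : 0 < noise R / R := by unfold noise; positivity
  set B := univ.filter fun k => noise R / R < max |w * u k| |w * v k| with hB
  have hη : noise R ≤ 1 / 20 / 2 := by
    unfold noise
    rw [div_le_iff₀ (by positivity)]
    nlinarith
  have h := upper_mean (P := N₀ * R ^ G) (t := R ^ (G - j)) (p := p) (τ := 1 / 20) (T := clip R)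
    (η := noise R) (τ' := noise R / R)
    (Nat.mul_pos hG.N_pos (pow_pos (by linarith [hG.R_ge]) _))
    ((Nat.pow_le_pow_right (by linarith [hG.R_ge]) (Nat.sub_le _ _)).trans
      (Nat.le_mul_of_pos_left _ hG.N_pos))
    (by linarith) (by norm_num) (by unfold clip; positivity) (by unfold noise; positivity) hη hτ'
    (fun k => w * u k) (fun k => w * v k) B
    (fun k hk => by
      simp only [hB, mem_filter, mem_univ, true_and, not_lt] at hk
      exact ⟨(le_max_left _ _).trans hk, (le_max_right _ _).trans hk⟩)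
    (level_facts hG hj hu).1 (level_facts hG hj hv).1
  rw [prob_eq hG hj] at h
  refine (mul_le_mul_of_nonneg_left h hN.le).trans ?_
  have hexp : noise R / (noise R / R) = R := by
    have : 0 < noise R := by unfold noise; positivity
    field_simp
  rw [hexp, mul_add]
  refine add_le_add ?_ ?_
  · have hc := card_level_le hG hj hτ' hu hv
    rw [← hw, ← hB] at hc
    have hc0 : 0 ≤ 1 / (N₀ * (R : ℝ) ^ j) * (B.card : ℝ) := by positivity
    have hsq := pow_le_pow_left₀ hc0 hc 2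
    have hT : 0 ≤ (2 * clip R) ^ p := Real.rpow_nonneg (by unfold clip; positivity) _
    have := mul_le_mul_of_nonneg_left hsq (mul_nonneg hN.le hT)
    linarith [hG.tail, hG.coll_sq]
  · have e : ∀ k, |w * u k - w * v k| ^ p = (R : ℝ) ^ j * |u k - v k| ^ p := fun k => by
      rw [← mul_sub, abs_mul, Real.mul_rpow (abs_nonneg _) (abs_nonneg _),
        abs_of_nonneg (Real.rpow_nonneg (Nat.cast_nonneg R) _), weight_rpow hG]
    simp only [e, ← mul_sum]
    rw [show (N₀ : ℝ) * (2 ^ p * (1 / (N₀ * (R : ℝ) ^ j)) * ((R : ℝ) ^ j * ∑ k, |u k - v k| ^ p +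
        ((B.filter fun k => 1 / 20 / 2 < max |w * u k| |w * v k|).card : ℝ) * (2 * noise R) ^ p)) =
      2 ^ p * (∑ k, |u k - v k| ^ p + (N₀ : ℝ) * (1 / (N₀ * (R : ℝ) ^ j) *
        ((B.filter fun k => 1 / 20 / 2 < max |w * u k| |w * v k|).card : ℝ)) * (2 * noise R) ^ p) by
      field_simp]
    refine mul_le_mul_of_nonneg_left (add_le_add le_rfl ?_) (by positivity)
    have hc := card_level_le hG hj (show (0 : ℝ) < 1 / 20 / 2 by norm_num) hu hv
    rw [← hw] at hc
    have hsub : ((B.filter fun k => 1 / 20 / 2 < max |w * u k| |w * v k|).card : ℝ) ≤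
        (univ.filter fun k => 1 / 20 / 2 < max |w * u k| |w * v k|).card :=
      Nat.cast_le.2 (card_le_card fun k hk => mem_filter.2 ⟨mem_univ _, (mem_filter.1 hk).2⟩)
    have h1 := (mul_le_mul_of_nonneg_left hsub (show 0 ≤ 1 / (N₀ * (R : ℝ) ^ j) by positivity)).trans hc
    refine (mul_le_mul_of_nonneg_right (mul_le_mul_of_nonneg_left h1 hN.le) ?_).trans ?_
    · exact Real.rpow_nonneg (by unfold noise; positivity) _
    rw [mul_div_cancel₀ _ hN.ne', mul_assoc]
    refine (mul_le_mul_of_nonneg_left ?_ (by norm_num)).trans (le_of_eq (mul_one 2))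
    rw [← Real.mul_rpow (by positivity) (by unfold noise; positivity)]
    refine Real.rpow_le_one (by unfold noise; positivity) ?_ (by linarith)
    refine le_of_eq_of_le (b := 4 / 5) ?_ (by norm_num)
    unfold noise
    field_simp
    ring

/-- Lower bound, all levels together. -/
theorem pair_lower {u v : Fin m → ℝ} (hu : ∑ k, |u k| ^ p ≤ (16 * (R : ℝ) ^ 2) ^ p)
    (hv : ∑ k, |v k| ^ p ≤ (16 * (R : ℝ) ^ 2) ^ p) {r : ℝ} (hr : 0 ≤ r) (hrR : r ≤ 16 * (R : ℝ) ^ 2)
    (hur : ∑ k, |u k| ^ p ≤ r ^ p) (hvr : ∑ k, |v k| ^ p ≤ r ^ p)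
    (h1 : 1 ≤ ∑ k, |u k - v k| ^ p) (hR' : ∑ k, |u k - v k| ^ p ≤ (R : ℝ) ^ p) :
    (∑ k, |u k - v k| ^ p) / (4 * 2 ^ p) ≤ ∑ j ∈ range (G + 1),
      (N₀ : ℝ) * (𝔼 ω : Fin m → Fin (N₀ * R ^ G) × Bool,
        |feat p R G j u ω - feat p R G j v ω| ^ p) := by
  classical
  have hp := hG.two_le
  have hp0 : 0 < p := by linarith
  have hR : (4 : ℝ) ≤ R := by exact_mod_cast hG.R_ge
  have hN : (0 : ℝ) < N₀ := by exact_mod_cast hG.N_pos
  set D := ∑ k, |u k - v k| ^ p with hD
  set K := 3 * (16 * (R : ℝ) ^ 2) with hK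
  have hK0 : 0 < K := by positivity
  set w : ℕ → ℝ := fun j => (R : ℝ) ^ ((j : ℝ) / p) with hw
  have hw0 : ∀ j, 0 < w j := fun j => Real.rpow_pos_of_pos (by linarith) _
  set S := univ.filter fun k => D / (4 * m) ≤ |u k - v k| ^ p ∧
    max |u k| |v k| ≤ K * |u k - v k| with hS
  have hlevel : ∀ k ∈ S, ∃ j, j ≤ G ∧ 1 / 4 ≤ w j * |u k - v k| := by
    intro k hk
    refine ⟨G, le_rfl, ?_⟩
    have hk' := (mem_filter.1 hk).2.1
    have hm : (0 : ℝ) < m := by exact_mod_cast k.pos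
    rw [div_le_iff₀ (by positivity)] at hk'
    have h2 : (1 / 4 : ℝ) ^ p ≤ (w G * |u k - v k|) ^ p := by
      rw [Real.mul_rpow (hw0 G).le (abs_nonneg _), hw, weight_rpow hG]
      have : (1 / 4 : ℝ) ^ p ≤ 1 := Real.rpow_le_one (by norm_num) (by norm_num) hp0.le
      refine this.trans (h1.trans (hk'.trans ?_))
      rw [mul_comm]
      exact mul_le_mul_of_nonneg_right hG.levels (by positivity)
    exact (Real.rpow_le_rpow_iff (by norm_num) (mul_nonneg (hw0 G).le (abs_nonneg _)) hp0).1 h2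
  set jk : Fin m → ℕ := fun k =>
    if h : ∃ j, j ≤ G ∧ 1 / 4 ≤ w j * |u k - v k| then Nat.find h else 0 with hjk
  have hjk1 : ∀ k ∈ S, jk k ≤ G ∧ 1 / 4 ≤ w (jk k) * |u k - v k| ∧
      w (jk k) * |u k - v k| ≤ R := by
    intro k hk
    have h := hlevel k hk
    simp only [hjk, dif_pos h]
    refine ⟨(Nat.find_spec h).1, (Nat.find_spec h).2, ?_⟩
    rcases Nat.eq_zero_or_pos (Nat.find h) with e | e
    · rw [e, hw]
      simp only [Nat.cast_zero, zero_div, Real.rpow_zero, one_mul]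
      refine (Real.rpow_le_rpow_iff (abs_nonneg _) (by linarith) hp0).1 (le_trans ?_ hR')
      exact single_le_sum (f := fun k => |u k - v k| ^ p) (fun _ _ => by positivity) (mem_univ k)
    · obtain ⟨i, hi⟩ := Nat.exists_eq_succ_of_ne_zero e.ne'
      have hmin := Nat.find_min h (show i < Nat.find h by omega)
      rw [hi]
      have hi' : i ≤ G := by have := (Nat.find_spec h).1; omega
      have hlt : w i * |u k - v k| < 1 / 4 := by
        by_contra hc
        exact hmin ⟨hi', not_lt.1 hc⟩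
      have hstep : w (i + 1) ≤ w i * R := by
        simp only [hw]
        rw [show ((i + 1 : ℕ) : ℝ) / p = (i : ℝ) / p + 1 / p by push_cast; ring,
          Real.rpow_add (by linarith)]
        refine mul_le_mul_of_nonneg_left ?_ (hw0 i).le
        exact Real.rpow_le_self_of_one_le (by linarith) (by rw [div_le_one hp0]; linarith)
      calc w (i + 1) * |u k - v k| ≤ w i * R * |u k - v k| :=
            mul_le_mul_of_nonneg_right hstep (abs_nonneg _)
        _ = w i * |u k - v k| * R := by ring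
        _ ≤ 1 / 4 * R := mul_le_mul_of_nonneg_right hlt.le (by linarith)
        _ ≤ R := by linarith
  -- the mass outside the counted coordinates
  have hmass : D / 2 ≤ ∑ k ∈ S, |u k - v k| ^ p := by
    have hout : ∀ k, k ∉ S → |u k - v k| ^ p ≤
        D / (4 * m) + (|u k| ^ p + |v k| ^ p) / K ^ p := by
      intro k hk
      have n0 : 0 ≤ |u k - v k| ^ p := by positivity
      have n1 : 0 ≤ |u k| ^ p := by positivity
      have n2 : 0 ≤ |v k| ^ p := by positivity
      by_cases hsmall : D / (4 * m) ≤ |u k - v k| ^ p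
      swap
      · have : 0 ≤ (|u k| ^ p + |v k| ^ p) / K ^ p := by positivity
        linarith [not_le.1 hsmall]
      have hk2 : K * |u k - v k| ≤ max |u k| |v k| := by
        by_contra hc
        exact hk (mem_filter.2 ⟨mem_univ _, hsmall, (not_le.1 hc).le⟩)
      have h3 := Real.rpow_le_rpow (by positivity) hk2 hp0.le
      rw [Real.mul_rpow hK0.le (abs_nonneg _), mul_comm, ← le_div_iff₀ (by positivity)] at h3
      refine h3.trans (le_add_of_nonneg_of_le (by positivity) ?_)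
      refine div_le_div_of_nonneg_right ?_ (by positivity)
      rcases le_total |u k| |v k| with h | h
      · rw [max_eq_right h]; linarith
      · rw [max_eq_left h]; linarith
    have hsplit := sum_add_sum_compl S fun k => |u k - v k| ^ p
    rw [← hD] at hsplit
    have h4 : ∑ k ∈ Sᶜ, |u k - v k| ^ p ≤ D / 4 + D / 4 := by
      refine ((sum_le_sum fun k hk => hout k (mem_compl.1 hk)).trans
        (sum_le_univ_sum_of_nonneg fun k => by positivity)).trans ?_
      rw [sum_add_distrib, sum_const, card_univ, Fintype.card_fin, nsmul_eq_mul, ← sum_div,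
        sum_add_distrib]
      refine add_le_add ?_ ?_
      · rcases Nat.eq_zero_or_pos m with rfl | hm
        · simp; positivity
        · have : (0 : ℝ) < m := by exact_mod_cast hm
          exact le_of_eq (by field_simp)
      · rw [div_le_iff₀ (by positivity)]
        have h5 : 8 * r ^ p ≤ K ^ p := by
          rw [hK, Real.mul_rpow (by norm_num) (by positivity)]
          refine mul_le_mul ?_ (Real.rpow_le_rpow hr hrR hp0.le) (by positivity) (by positivity)
          calc (8 : ℝ) ≤ 3 ^ (2 : ℝ) := by norm_num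
            _ ≤ 3 ^ p := Real.rpow_le_rpow_of_exponent_le (by norm_num) hp
        calc ∑ k, |u k| ^ p + ∑ k, |v k| ^ p ≤ 1 / 4 * (8 * r ^ p) := by linarith
          _ ≤ D / 4 * K ^ p := mul_le_mul (by linarith) h5 (by positivity) (by linarith)
    linarith
  -- level by level
  set H : ℕ → Finset (Fin m) := fun j => S.filter fun k => jk k = j
  have hlev : ∀ j ∈ range (G + 1), (∑ k ∈ H j, |u k - v k| ^ p) / (2 * 2 ^ p) ≤
      (N₀ : ℝ) * (𝔼 ω : Fin m → Fin (N₀ * R ^ G) × Bool,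
        |feat p R G j u ω - feat p R G j v ω| ^ p) := by
    intro j hj
    have hjG : j ≤ G := Nat.lt_succ_iff.1 (mem_range.1 hj)
    have hτ' : 0 < noise R / R := by unfold noise; positivity
    have hη : noise R ≤ 1 / 80 := by
      unfold noise
      rw [div_le_iff₀ (by positivity)]
      nlinarith
    have hη0 : 0 < noise R := by unfold noise; positivity
    set B := univ.filter fun k => noise R / R < max |w j * u k| |w j * v k| with hB
    have hHd : ∀ k ∈ H j, 1 / 4 ≤ |w j * u k - w j * v k| ∧ |w j * u k - w j * v k| ≤ R ∧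
        max |w j * u k| |w j * v k| ≤ K * |w j * u k - w j * v k| := by
      intro k hk
      obtain ⟨hkS, hkj⟩ := mem_filter.1 hk
      obtain ⟨-, a1, a2⟩ := hjk1 k hkS
      rw [hkj] at a1 a2
      have e : |w j * u k - w j * v k| = w j * |u k - v k| := by
        rw [← mul_sub, abs_mul, abs_of_pos (hw0 j)]
      rw [e]
      refine ⟨a1, a2, ?_⟩
      rw [abs_mul, abs_mul, abs_of_pos (hw0 j), ← mul_max_of_nonneg _ _ (hw0 j).le, mul_left_comm K]
      exact mul_le_mul_of_nonneg_left (mem_filter.1 hkS).2.2 (hw0 j).le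
    have h := lower_mean (P := N₀ * R ^ G) (t := R ^ (G - j)) (p := p) (τ := 1 / 20) (T := clip R)
      (η := noise R) (τ' := noise R / R)
      (Nat.mul_pos hG.N_pos (pow_pos (by linarith [hG.R_ge]) _))
      ((Nat.pow_le_pow_right (by linarith [hG.R_ge]) (Nat.sub_le _ _)).trans
        (Nat.le_mul_of_pos_left _ hG.N_pos))
      (by linarith) (by norm_num) hη0.le hτ' (fun k => w j * u k) (fun k => w j * v k) B (H j)
      (fun k hk => by
        refine mem_filter.2 ⟨mem_univ _, ?_⟩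
        obtain ⟨a1, -, -⟩ := hHd k hk
        have h8 : noise R / R ≤ noise R := div_le_self hη0.le (by linarith)
        have := abs_sub (w j * u k) (w j * v k)
        linarith [le_max_left |w j * u k| |w j * v k|, le_max_right |w j * u k| |w j * v k|])
      (fun k hk => by
        obtain ⟨a1, a2, a3⟩ := hHd k hk
        refine ⟨by linarith, ?_⟩
        have := mul_le_mul_of_nonneg_left a2 hK0.le
        unfold clip
        rw [hK] at a3 this
        linarith)
      (fun k hk => by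
        simp only [hB, mem_filter, mem_univ, true_and, not_lt] at hk
        exact ⟨(le_max_left _ _).trans hk, (le_max_right _ _).trans hk⟩)
      (level_facts hG hjG hu).1 (level_facts hG hjG hv).1
      (by
        rw [prob_eq hG hjG, hB]
        exact (card_level_le hG hjG hτ' hu hv).trans hG.coll)
      (by rw [show noise R / (noise R / R) = (R : ℝ) by field_simp]; exact hG.tail_small)
    rw [prob_eq hG hjG] at h
    refine le_trans (le_of_eq ?_) (mul_le_mul_of_nonneg_left h hN.le)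
    have e : ∀ k, (|w j * u k - w j * v k| / 2) ^ p = (R : ℝ) ^ j * |u k - v k| ^ p / 2 ^ p :=
      fun k => by
      rw [Real.div_rpow (abs_nonneg _) (by norm_num), ← mul_sub, abs_mul,
        Real.mul_rpow (abs_nonneg _) (abs_nonneg _), abs_of_pos (hw0 j)]
      simp only [hw, weight_rpow hG]
    simp only [e, ← sum_div, ← mul_sum]
    field_simp
  refine le_trans ?_ (sum_le_sum hlev)
  rw [← sum_div, sum_fiberwise_of_maps_to (g := jk) (fun k hk => mem_range.2
    (Nat.lt_succ_of_le (hjk1 k hk).1))]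
  calc D / (4 * 2 ^ p) = D / 2 / (2 * 2 ^ p) := by ring
    _ ≤ _ := div_le_div_of_nonneg_right hmass (by positivity)

end pair

end Vale.Agent.P249.High
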