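import Vale.Agent.P249.IsoSplit
import Vale.Agent.P249.HighFeature

/-!
Sampling the flat part and hashing the sparse part.
-/

namespace Vale.Agent.P249.Iso

open Real Finset MeasureTheory Vale.Agent.P249
open scoped BigOperators

/-- A sample matches the means up to `ε U`. -/
lemma sample_additive {Ω : Type*} [Fintype Ω] [Nonempty Ω] {Q : Type*} [Fintype Q] (Δ : Q → Ω → ℝ)
    (U : Q → ℝ) (hΔ : ∀ q ω, 0 ≤ Δ q ω) (hEU : ∀ q, (𝔼 ω, Δ q ω) ≤ U q)
    (hU : ∀ q, 0 < U q) {Λ ε : ℝ} (hΛ : 0 ≤ Λ) (hb : ∀ q ω, Δ q ω ≤ Λ * U q)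
    (hε : 0 < ε) (hε1 : ε ≤ 1) (N : ℕ)
    (hN : 4 * (Λ + 1) / ε ^ 2 * Real.log (2 * Fintype.card Q + 1) < N) :
    ∃ w : Fin N → Ω, ∀ q, |∑ l, Δ q (w l) - (N : ℝ) * 𝔼 ω, Δ q ω| ≤ ε * U q * N := by
  letI : MeasurableSpace Ω := ⊤
  set E : Q → ℝ := fun q => 𝔼 ω, Δ q ω with hE
  have hE0 : ∀ q, 0 ≤ E q := fun q => expect_nonneg fun ω _ => hΔ q ω
  set s : Q → Ω → ℝ := fun q ω => (Δ q ω + (U q - E q)) / U q with hs
  obtain ⟨w, -, hw⟩ := exists_sample (μ := High.unif Ω) s (fun _ => (1 : ℝ)) 1 (Λ + 1) ε one_pos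
    (by linarith) hε hε1 Integrable.of_finite (by rw [High.integral_unif']; simp)
    (fun _ => zero_le_one) (fun q => Integrable.of_finite)
    (fun q => by
      rw [High.integral_unif', hs]
      simp only [← expect_div, expect_add_distrib, Fintype.expect_const]
      rw [show (𝔼 ω, Δ q ω) + (U q - E q) = U q by simp [hE], div_self (hU q).ne'])
    (fun q ω => div_nonneg (add_nonneg (hΔ q ω) (sub_nonneg.2 (hEU q))) (hU q).le)
    (fun q ω => by
      rw [mul_one, div_le_iff₀ (hU q), add_mul, one_mul]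
      linarith [hb q ω, hE0 q])
    N (by simpa using hN)
  refine ⟨w, fun q => ?_⟩
  obtain ⟨hlo, hhi⟩ := hw q
  simp only [one_mul, div_one, hs, ← sum_div, sum_add_distrib, sum_const, card_univ,
    Fintype.card_fin, nsmul_eq_mul] at hlo hhi
  rw [le_div_iff₀ (hU q)] at hlo
  rw [div_le_iff₀ (hU q)] at hhi
  change |∑ l, Δ q (w l) - (N : ℝ) * E q| ≤ _
  rw [abs_le]
  constructor <;> linarith

lemma expect_collide {m B : ℕ} (k k' : Fin m) (hk : k ≠ k') (hB : 0 < B) :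
    (𝔼 h : Fin m → Fin B, if h k = h k' then (1 : ℝ) else 0) = 1 / B := by
  classical
  have : Nonempty (Fin B) := ⟨⟨0, hB⟩⟩
  have e : ∀ h : Fin m → Fin B, (if h k = h k' then (1 : ℝ) else 0) =
      ∑ b, (if h k = b then (1 : ℝ) else 0) * (if h k' = b then (1 : ℝ) else 0) := fun h => by
    rw [sum_eq_single (h k) (fun b _ hb => by simp [Ne.symm hb]) (by simp)]
    simp [eq_comm]
  simp only [e]
  rw [expect_sum_comm]
  have hone : ∀ b : Fin B, (𝔼 a : Fin B, if a = b then (1 : ℝ) else 0) = 1 / B := fun b => by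
    rw [Fintype.expect_eq_sum_div_card]; simp
  have hmarg : ∀ b : Fin B, (𝔼 h : Fin m → Fin B, if h k' = b then (1 : ℝ) else 0) = 1 / B := fun b => by
    have := High.expect_coord_mul k' (fun a : Fin B => if a = b then (1 : ℝ) else 0)
      (fun _ => (1 : ℝ)) (fun _ _ => rfl)
    simpa [hone b] using this
  have hterm : ∀ b : Fin B, (𝔼 h : Fin m → Fin B,
      (if h k = b then (1 : ℝ) else 0) * (if h k' = b then (1 : ℝ) else 0)) = 1 / B * (1 / B) := fun b => by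
    rw [High.expect_coord_mul k (fun a : Fin B => if a = b then (1 : ℝ) else 0)
      (fun h => if h k' = b then (1 : ℝ) else 0)
      (fun h a => by rw [Function.update_of_ne (Ne.symm hk)]), hone, hmarg]
  simp only [hterm, sum_const, card_univ, Fintype.card_fin, nsmul_eq_mul]
  field_simp

/-- Hashing a sparse vector keeps its `p`-th mass in the mean. -/
lemma hash_mean {p : ℝ} (hp : 1 ≤ p) {m B q : ℕ} (hB : 0 < B) (hq : 1 ≤ q) (v : Fin m → ℝ)
    (hsupp : (univ.filter fun k => v k ≠ 0).card ≤ q) :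
    (∀ h : Fin m → Fin B, ∑ b, |∑ k, if h k = b then v k else 0| ^ p ≤
      (q : ℝ) ^ p * ∑ k, |v k| ^ p) ∧
    |(𝔼 h : Fin m → Fin B, ∑ b, |∑ k, if h k = b then v k else 0| ^ p) - ∑ k, |v k| ^ p| ≤
      (q : ℝ) ^ p * ((q : ℝ) ^ 2 / B) * ∑ k, |v k| ^ p := by
  classical
  have hp0 : 0 < p := by linarith
  set S := univ.filter fun k => v k ≠ 0 with hS
  set V := ∑ k, |v k| ^ p with hV
  have hV0 : 0 ≤ V := sum_nonneg fun k _ => by positivity
  have hq1 : (1 : ℝ) ≤ q := by exact_mod_cast hq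
  have hVS : V = ∑ k ∈ S, |v k| ^ p := by
    refine (sum_subset (subset_univ S) fun k _ hk => ?_).symm
    have : v k = 0 := by simpa [hS] using hk
    simp [this, Real.zero_rpow hp0.ne']
  set H : (Fin m → Fin B) → ℝ := fun h => ∑ b, |∑ k, if h k = b then v k else 0| ^ p with hH
  have hinner : ∀ (h : Fin m → Fin B) (b : Fin B), (∑ k, if h k = b then v k else 0) = ∑ k ∈ S.filter (fun k => h k = b), v k := by
    intro h b
    rw [sum_filter, sum_subset (subset_univ S) fun k _ hk => ?_]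
    · have : v k = 0 := by simpa [hS] using hk
      simp [this]
  have hup : ∀ h, H h ≤ (q : ℝ) ^ p * V := by
    intro h
    rw [hVS, ← sum_fiberwise_of_maps_to (g := h) (fun k _ => mem_univ (h k)) (fun k => |v k| ^ p),
      mul_sum]
    refine sum_le_sum fun b _ => ?_
    rw [hinner]
    refine (Real.rpow_le_rpow (abs_nonneg _) (abs_sum_le_sum_abs _ _) hp0.le).trans ?_
    refine (Real.rpow_sum_le_const_mul_sum_rpow _ (fun k => v k) hp).trans ?_
    refine mul_le_mul_of_nonneg_right ?_ (sum_nonneg fun k _ => by positivity)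
    refine (Real.rpow_le_rpow (Nat.cast_nonneg _) (Nat.cast_le.2 ((card_filter_le _ _).trans hsupp))
      (by linarith)).trans ?_
    exact Real.rpow_le_rpow_of_exponent_le hq1 (by linarith)
  refine ⟨hup, ?_⟩
  have hbad : ∀ h, |H h - V| ≤ (q : ℝ) ^ p * V *
      ∑ z ∈ S.offDiag, (if h z.1 = h z.2 then (1 : ℝ) else 0) := by
    intro h
    by_cases hinj : Set.InjOn h (S : Set (Fin m))
    · have e : H h = V := by
        rw [hVS, ← sum_fiberwise_of_maps_to (g := h) (fun k _ => mem_univ (h k)) (fun k => |v k| ^ p)]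
        refine sum_congr rfl fun b _ => ?_
        rw [hinner]
        rcases (S.filter fun k => h k = b).eq_empty_or_nonempty with hemp | ⟨k₀, hk₀⟩
        · rw [hemp]; simp [Real.zero_rpow hp0.ne']
        · have : S.filter (fun k => h k = b) = {k₀} := by
            refine eq_singleton_iff_unique_mem.2 ⟨hk₀, fun k hk => ?_⟩
            exact hinj (mem_filter.1 hk).1 (mem_filter.1 hk₀).1
              ((mem_filter.1 hk).2.trans (mem_filter.1 hk₀).2.symm)
          rw [this, sum_singleton, sum_singleton]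
      rw [e, sub_self, abs_zero]
      exact mul_nonneg (by positivity) (sum_nonneg fun z _ => by positivity)
    · simp only [Set.InjOn, not_forall] at hinj
      obtain ⟨a, ha, b, hb, hab, hne⟩ := hinj
      have h1 : (1 : ℝ) ≤ ∑ z ∈ S.offDiag, (if h z.1 = h z.2 then (1 : ℝ) else 0) := by
        refine le_trans (le_of_eq ?_) (single_le_sum
          (f := fun z : Fin m × Fin m => if h z.1 = h z.2 then (1 : ℝ) else 0)
          (fun z _ => by positivity) (mem_offDiag.2 ⟨ha, hb, hne⟩ : (a, b) ∈ S.offDiag))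
        simp [hab]
      refine le_trans ?_ (le_mul_of_one_le_right (by positivity) h1)
      have hH0 : 0 ≤ H h := sum_nonneg fun b _ => by positivity
      rw [abs_le]
      constructor
      · have : V ≤ (q : ℝ) ^ p * V := le_mul_of_one_le_left hV0 (Real.one_le_rpow hq1 hp0.le)
        linarith
      · linarith [hup h]
  have : Nonempty (Fin B) := ⟨⟨0, hB⟩⟩
  calc |(𝔼 h, H h) - V| = |𝔼 h, (H h - V)| := by rw [expect_sub_distrib, Fintype.expect_const]
    _ ≤ 𝔼 h, |H h - V| := abs_expect_le _ _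
    _ ≤ 𝔼 h, (q : ℝ) ^ p * V * ∑ z ∈ S.offDiag, (if h z.1 = h z.2 then (1 : ℝ) else 0) :=
      expect_le_expect fun h _ => hbad h
    _ = (q : ℝ) ^ p * V * ∑ z ∈ S.offDiag, (1 / (B : ℝ)) := by
      rw [← mul_expect, expect_sum_comm]
      congr 1
      exact sum_congr rfl fun z hz => expect_collide z.1 z.2 (mem_offDiag.1 hz).2.2 hB
    _ ≤ (q : ℝ) ^ p * V * ((q : ℝ) ^ 2 / B) := by
      refine mul_le_mul_of_nonneg_left ?_ (by positivity)
      rw [sum_const, nsmul_eq_mul, mul_one_div]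
      refine div_le_div_of_nonneg_right ?_ (Nat.cast_nonneg B)
      have hoff : (S.offDiag).card ≤ q * q := by
        rw [offDiag_card]
        exact (Nat.sub_le _ _).trans (Nat.mul_le_mul hsupp hsupp)
      rw [sq]; exact_mod_cast hoff
    _ = _ := by ring

variable {p : ℝ} [Fact (1 ≤ ENNReal.ofReal p)]

/-- Flat part sampled, sparse part hashed. -/
theorem embed_split (hp : 1 ≤ p) {ε : ℝ} (hε : 0 < ε) (hε1 : ε ≤ 1) {n m N q B : ℕ}
    (hm : 1 ≤ m) (hN : 1 ≤ N) (hq : 1 ≤ q) (hqB : (q : ℝ) ^ p * (q : ℝ) ^ 2 ≤ ε * B)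
    (X : Fin n → Lq p m) (hX : Function.Injective X)
    (Y : Fin N → Fin n → Fin m → ℝ) {T : ℝ} (hT : 0 ≤ T)
    (hlip : ∀ j x w k, |Y j x k - Y j w k| ≤ 2 * T * ‖X x - X w‖)
    (hsupp : ∀ j x w, (univ.filter fun k => ((X x) k - Y j x k) - ((X w) k - Y j w k) ≠ 0).card ≤ q)
    (hsum : ∀ x w, |(∑ j, ∑ k, (|Y j x k - Y j w k| ^ p +
        |((X x) k - Y j x k) - ((X w) k - Y j w k)| ^ p)) - N * ‖X x - X w‖ ^ p| ≤
          ε * N * ‖X x - X w‖ ^ p) :
    ∃ D : ℕ, (D : ℝ) ≤ (4 * ((2 * T) ^ p * m + 1) / ε ^ 2 * Real.log (2 * (n : ℝ) ^ 2 + 1) + 2) +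
        B * (4 * ((q : ℝ) ^ p * N + 1) / ε ^ 2 * Real.log (2 * (n : ℝ) ^ 2 + 1) + 2) ∧
      ∃ F : Fin n → Fin D → ℝ, ∀ x w,
        |(∑ l, |F x l - F w l| ^ p) - ‖X x - X w‖ ^ p| ≤ 12 * ε * ‖X x - X w‖ ^ p := by
  classical
  have hp0 : 0 < p := by linarith
  have hB : 0 < B := by
    rcases Nat.eq_zero_or_pos B with h | h
    · subst h
      have : (0 : ℝ) < (q : ℝ) ^ p * (q : ℝ) ^ 2 := by positivity
      simp at hqB; linarith
    · exact h
  have hm0 : (0 : ℝ) < m := by exact_mod_cast hm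
  have hN0 : (0 : ℝ) < N := by exact_mod_cast hN
  set P := { z : Fin n × Fin n // z.1 ≠ z.2 } with hP
  set d : P → ℝ := fun z => ‖X z.1.1 - X z.1.2‖ with hd
  have hdp : ∀ z, 0 < d z ^ p := fun z =>
    Real.rpow_pos_of_pos (norm_pos_iff.mpr (sub_ne_zero.mpr (hX.ne z.2))) p
  set a : P → Fin N → Fin m → ℝ := fun z j k => Y j z.1.1 k - Y j z.1.2 k with ha
  set v : P → Fin N → Fin m → ℝ := fun z j k =>
    ((X z.1.1) k - Y j z.1.1 k) - ((X z.1.2) k - Y j z.1.2 k) with hv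
  set AY : P → ℝ := fun z => (∑ j, ∑ k, |a z j k| ^ p) / N with hAY
  set AV : P → ℝ := fun z => (∑ j, ∑ k, |v z j k| ^ p) / N with hAV
  have hA0 : ∀ z, 0 ≤ AY z ∧ 0 ≤ AV z := fun z =>
    ⟨div_nonneg (sum_nonneg fun j _ => sum_nonneg fun k _ => by positivity) hN0.le,
      div_nonneg (sum_nonneg fun j _ => sum_nonneg fun k _ => by positivity) hN0.le⟩
  have htot : ∀ z, |AY z + AV z - d z ^ p| ≤ ε * d z ^ p := by
    intro z
    have h := hsum z.1.1 z.1.2
    simp only [sum_add_distrib] at h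
    simp only [hAY, hAV, ha, hv]
    rw [← add_div, div_sub' hN0.ne', abs_div, abs_of_pos hN0, div_le_iff₀ hN0]
    exact h.trans (le_of_eq (by ring))
  have hA2 : ∀ z, AY z ≤ 2 * d z ^ p ∧ AV z ≤ 2 * d z ^ p := fun z => by
    have h := (abs_le.1 (htot z)).2
    have := mul_le_mul_of_nonneg_right hε1 (hdp z).le
    obtain ⟨h1, h2⟩ := hA0 z
    constructor <;> linarith
  have hcard : Real.log (2 * (Fintype.card P : ℝ) + 1) ≤ Real.log (2 * (n : ℝ) ^ 2 + 1) := by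
    gcongr
    have := Fintype.card_subtype_le (fun z : Fin n × Fin n => z.1 ≠ z.2)
    rw [Fintype.card_prod, Fintype.card_fin] at this
    rw [sq]; exact_mod_cast this
  have hl0 : 0 ≤ Real.log (2 * (n : ℝ) ^ 2 + 1) := Real.log_nonneg (by nlinarith)
  set lg := Real.log (2 * (n : ℝ) ^ 2 + 1) with hlg
  have hl1 : 0 ≤ Real.log (2 * (Fintype.card P : ℝ) + 1) :=
    Real.log_nonneg (by linarith [Nat.cast_nonneg (α := ℝ) (Fintype.card P)])
  -- flat part
  have : Nonempty (Fin N × Fin m) := ⟨(⟨0, hN⟩, ⟨0, hm⟩)⟩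
  set Λ₁ : ℝ := (2 * T) ^ p * m with hΛ₁
  set N₁ := ⌈4 * (Λ₁ + 1) / ε ^ 2 * lg⌉₊ + 1 with hN₁
  obtain ⟨w₁, hw₁⟩ := sample_additive (Ω := Fin N × Fin m) (fun z ω => |a z ω.1 ω.2| ^ p)
    (fun z => 2 * d z ^ p / m) (fun z ω => by positivity)
    (fun z => by
      rw [Fintype.expect_eq_sum_div_card, Fintype.sum_prod_type, Fintype.card_prod, Fintype.card_fin,
        Fintype.card_fin, Nat.cast_mul, ← div_div]
      exact div_le_div_of_nonneg_right (hA2 z).1 hm0.le)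
    (fun z => div_pos (mul_pos two_pos (hdp z)) hm0) (show 0 ≤ Λ₁ by positivity)
    (fun z ω => by
      refine (Real.rpow_le_rpow (abs_nonneg _) (hlip ω.1 z.1.1 z.1.2 ω.2) hp0.le).trans ?_
      rw [Real.mul_rpow (by positivity) (norm_nonneg _),
        show Λ₁ * (2 * d z ^ p / m) = 2 * ((2 * T) ^ p * d z ^ p) by rw [hΛ₁]; field_simp]
      linarith [mul_nonneg (show 0 ≤ (2 * T) ^ p by positivity) (hdp z).le])
    hε hε1 N₁ (by
      rw [hN₁]; push_cast
      have h1 : 4 * (Λ₁ + 1) / ε ^ 2 * Real.log (2 * (Fintype.card P : ℝ) + 1) ≤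
          4 * (Λ₁ + 1) / ε ^ 2 * lg := mul_le_mul_of_nonneg_left hcard (by positivity)
      linarith [Nat.le_ceil (4 * (Λ₁ + 1) / ε ^ 2 * lg)])
  -- sparse part
  have : Nonempty (Fin B) := ⟨⟨0, hB⟩⟩
  have : Nonempty (Fin N × (Fin m → Fin B)) := ⟨(⟨0, hN⟩, fun _ => ⟨0, hB⟩)⟩
  set Λ₂ : ℝ := (q : ℝ) ^ p * N with hΛ₂
  set N₂ := ⌈4 * (Λ₂ + 1) / ε ^ 2 * lg⌉₊ + 1 with hN₂
  set H : P → Fin N × (Fin m → Fin B) → ℝ := fun z ω =>
    ∑ b, |∑ k, if ω.2 k = b then v z ω.1 k else 0| ^ p with hH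
  have hEH : ∀ z, |(𝔼 ω, H z ω) - AV z| ≤ ε * AV z := by
    intro z
    rw [← univ_product_univ, expect_product]
    simp only [hH, hAV, Fintype.expect_eq_sum_div_card (ι := Fin N), Fintype.card_fin]
    rw [← sub_div, ← sum_sub_distrib, abs_div, abs_of_pos hN0, mul_div_assoc', mul_sum]
    refine div_le_div_of_nonneg_right ((abs_sum_le_sum_abs _ _).trans (sum_le_sum fun j _ => ?_)) hN0.le
    refine ((hash_mean hp hB hq (v z j) (hsupp j z.1.1 z.1.2)).2).trans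
      (mul_le_mul_of_nonneg_right ?_ (sum_nonneg fun k _ => by positivity))
    rw [mul_div_assoc', div_le_iff₀ (by exact_mod_cast hB)]
    exact hqB
  obtain ⟨w₂, hw₂⟩ := sample_additive (Ω := Fin N × (Fin m → Fin B)) H (fun z => 4 * d z ^ p)
    (fun z ω => sum_nonneg fun b _ => by positivity)
    (fun z => by
      have h := (abs_le.1 (hEH z)).2
      have := mul_le_mul_of_nonneg_right hε1 (hA0 z).2
      linarith [(hA2 z).2])
    (fun z => mul_pos (by norm_num) (hdp z)) (show 0 ≤ Λ₂ by positivity)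
    (fun z ω => by
      refine ((hash_mean hp hB hq (v z ω.1) (hsupp ω.1 z.1.1 z.1.2)).1 ω.2).trans ?_
      rw [hΛ₂, mul_assoc]
      refine mul_le_mul_of_nonneg_left ?_ (by positivity)
      have h1 : ∑ k, |v z ω.1 k| ^ p ≤ N * AV z := by
        rw [hAV, mul_div_cancel₀ _ hN0.ne']
        exact single_le_sum (f := fun j => ∑ k, |v z j k| ^ p)
          (fun j _ => sum_nonneg fun k _ => by positivity) (mem_univ ω.1)
      have h2 := mul_le_mul_of_nonneg_left (hA2 z).2 hN0.le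
      linarith [mul_nonneg hN0.le (hdp z).le])
    hε hε1 N₂ (by
      rw [hN₂]; push_cast
      have h1 : 4 * (Λ₂ + 1) / ε ^ 2 * Real.log (2 * (Fintype.card P : ℝ) + 1) ≤
          4 * (Λ₂ + 1) / ε ^ 2 * lg := mul_le_mul_of_nonneg_left hcard (by positivity)
      linarith [Nat.le_ceil (4 * (Λ₂ + 1) / ε ^ 2 * lg)])
  have hN₁0 : (0 : ℝ) < N₁ := by rw [hN₁]; positivity
  have hN₂0 : (0 : ℝ) < N₂ := by rw [hN₂]; positivity
  let ι := Fin N₁ ⊕ (Fin N₂ × Fin B)
  let G : Fin n → ι → ℝ := fun x => Sum.elim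
    (fun l => ((m : ℝ) / N₁) ^ (1 / p) * Y (w₁ l).1 x (w₁ l).2)
    (fun lb => (1 / (N₂ : ℝ)) ^ (1 / p) *
      ∑ k, if (w₂ lb.1).2 k = lb.2 then (X x) k - Y (w₂ lb.1).1 x k else 0)
  refine ⟨N₁ + N₂ * B, ?_, fun x l => G x ((Fintype.equivFinOfCardEq (α := ι) (by simp [ι])).symm l),
    fun x w => ?_⟩
  · push_cast
    have h1 : (N₁ : ℝ) ≤ 4 * (Λ₁ + 1) / ε ^ 2 * lg + 2 := by
      rw [hN₁]; push_cast
      linarith [Nat.ceil_lt_add_one (show 0 ≤ 4 * (Λ₁ + 1) / ε ^ 2 * lg by positivity)]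
    have h2 : (N₂ : ℝ) ≤ 4 * (Λ₂ + 1) / ε ^ 2 * lg + 2 := by
      rw [hN₂]; push_cast
      linarith [Nat.ceil_lt_add_one (show 0 ≤ 4 * (Λ₂ + 1) / ε ^ 2 * lg by positivity)]
    have h3 := mul_le_mul_of_nonneg_right h2 (Nat.cast_nonneg (α := ℝ) B)
    linarith
  rcases eq_or_ne x w with rfl | hxw
  · simp [Real.zero_rpow hp0.ne']
  set z : P := ⟨(x, w), hxw⟩ with hz
  rw [(Fintype.equivFinOfCardEq (α := ι) (by simp [ι])).symm.sum_comp (fun i => |G x i - G w i| ^ p),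
    Fintype.sum_sum_type]
  have hc : ∀ c : ℝ, 0 ≤ c → ∀ r : ℝ, |c ^ (1 / p) * r| ^ p = c * |r| ^ p := fun c hc r => by
    rw [abs_mul, abs_of_nonneg (Real.rpow_nonneg hc _), Real.mul_rpow (Real.rpow_nonneg hc _) (abs_nonneg _),
      ← Real.rpow_mul hc, one_div_mul_cancel hp0.ne', Real.rpow_one]
  have e1 : ∑ l, |G x (Sum.inl l) - G w (Sum.inl l)| ^ p =
      (m : ℝ) / N₁ * ∑ l, |a z (w₁ l).1 (w₁ l).2| ^ p := by
    rw [mul_sum]
    refine sum_congr rfl fun l _ => ?_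
    simp only [G, Sum.elim_inl, ← mul_sub, ha, hz]
    exact hc _ (by positivity) _
  have e2 : ∑ lb, |G x (Sum.inr lb) - G w (Sum.inr lb)| ^ p = 1 / (N₂ : ℝ) * ∑ l, H z (w₂ l) := by
    rw [mul_sum, Fintype.sum_prod_type]
    refine sum_congr rfl fun l _ => ?_
    simp only [hH]
    rw [mul_sum]
    refine sum_congr rfl fun b _ => ?_
    simp only [G, Sum.elim_inr, ← mul_sub, hv, hz]
    rw [hc _ (by positivity), ← sum_sub_distrib]
    congr 2
    refine congrArg abs (sum_congr rfl fun k _ => ?_)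
    split_ifs <;> simp
  rw [e1, e2]
  have h1 := hw₁ z
  have h2 := hw₂ z
  have eE1 : (N₁ : ℝ) * (𝔼 ω : Fin N × Fin m, |a z ω.1 ω.2| ^ p) = N₁ * (AY z / m) := by
    rw [Fintype.expect_eq_sum_div_card, Fintype.sum_prod_type, Fintype.card_prod, Fintype.card_fin,
      Fintype.card_fin, Nat.cast_mul, ← div_div]
  rw [eE1] at h1
  have k1 : |(m : ℝ) / N₁ * (∑ l, |a z (w₁ l).1 (w₁ l).2| ^ p) - AY z| ≤ ε * (2 * d z ^ p) := by
    have h := mul_le_mul_of_nonneg_left h1 (show 0 ≤ (m : ℝ) / N₁ by positivity)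
    rw [← abs_of_pos (show 0 < (m : ℝ) / N₁ by positivity), ← abs_mul,
      abs_of_pos (show 0 < (m : ℝ) / N₁ by positivity)] at h
    refine le_trans (le_of_eq (congrArg abs ?_)) (h.trans (le_of_eq ?_)) <;> field_simp
  have k2 : |1 / (N₂ : ℝ) * (∑ l, H z (w₂ l)) - (𝔼 ω, H z ω)| ≤ ε * (4 * d z ^ p) := by
    have h := mul_le_mul_of_nonneg_left h2 (show 0 ≤ 1 / (N₂ : ℝ) by positivity)
    rw [← abs_of_pos (show 0 < 1 / (N₂ : ℝ) by positivity), ← abs_mul,
      abs_of_pos (show 0 < 1 / (N₂ : ℝ) by positivity)] at h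
    refine le_trans (le_of_eq (congrArg abs ?_)) (h.trans (le_of_eq ?_)) <;> field_simp
  have k3 := (hEH z).trans (mul_le_mul_of_nonneg_left (hA2 z).2 hε.le)
  have k4 := htot z
  have hdd : ‖X x - X w‖ ^ p = d z ^ p := rfl
  rw [hdd]
  rw [abs_le] at k1 k2 k3 k4 ⊢
  have hεd := mul_nonneg hε.le (hdp z).le
  constructor <;> linarith [k1.1, k1.2, k2.1, k2.2, k3.1, k3.2, k4.1, k4.2]

end Vale.Agent.P249.Iso
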