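import Vale.Agent.P249.IsoMain

/-!
The reduction iterated: dimension `C n ^ ε` at every distortion above one, for `p > 1`.
-/

namespace Vale.Agent.P249.Iso

open MeasureTheory Real Finset Vale.Agent.P249
open scoped BigOperators

variable {p : ℝ} [Fact (1 ≤ ENNReal.ofReal p)]

/-- Every `n` points of any `L_p` go into `ℓ_p^N`, `N ≤ C n ^ a`, with distortion `D`. -/
def Red (p : ℝ) [Fact (1 ≤ ENNReal.ofReal p)] (D a : ℝ) : Prop :=
  ∃ C : ℝ, ∀ n : ℕ, 2 ≤ n → ∃ N : ℕ, (N : ℝ) ≤ C * (n : ℝ) ^ a ∧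
      ∀ (Ω : Type) (mΩ : MeasurableSpace Ω) (μ : @Measure Ω mΩ)
        (x : Fin n → Lp ℝ (ENNReal.ofReal p) μ), Function.Injective x →
        ∃ F : Fin n → Fin N → ℝ, ∃ s : ℝ, 0 < s ∧ ∀ i j,
          s * ‖x i - x j‖ ≤ (∑ k, |F i k - F j k| ^ p) ^ (1 / p) ∧
          (∑ k, |F i k - F j k| ^ p) ^ (1 / p) ≤ D * (s * ‖x i - x j‖)

lemma red_mono {D a b : ℝ} (hab : a ≤ b) (h : Red p D a) : Red p D b := by
  obtain ⟨C, h⟩ := h
  refine ⟨max C 0, fun n hn => ?_⟩
  obtain ⟨N, hN, hF⟩ := h n hn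
  refine ⟨N, hN.trans ?_, hF⟩
  exact mul_le_mul (le_max_left _ _)
    (rpow_le_rpow_of_exponent_le (by exact_mod_cast (show 1 ≤ n by omega)) hab) (by positivity)
    (le_max_right _ _)

lemma red_base (hp : 1 ≤ p) {D : ℝ} (hD : 1 < D) : Red p D 2 := by
  obtain ⟨C, hC⟩ := Vale.Agent.P249.NearLinear.near_linear p hp D hD
  obtain ⟨K, hK, hl⟩ := log_pow_le (show 0 < p + 1 by linarith) (one_pos (α := ℝ))
  refine ⟨max C 0 * K, fun n hn => ?_⟩
  obtain ⟨N, hN, hF⟩ := hC n hn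
  have hn1 : (1 : ℝ) ≤ n := by exact_mod_cast (show 1 ≤ n by omega)
  refine ⟨N, hN.trans ?_, fun Ω mΩ μ x hx => ?_⟩
  · have h := hl n hn1
    rw [rpow_one] at h
    rw [rpow_two]
    calc C * n * Real.log n ^ (p + 1) ≤ max C 0 * n * (K * n) :=
          mul_le_mul (mul_le_mul_of_nonneg_right (le_max_left _ _) (by linarith)) h
            (rpow_nonneg (Real.log_nonneg hn1) _) (by positivity)
      _ = _ := by ring
  · obtain ⟨F, s, hs, h⟩ := hF Ω mΩ μ x hx
    exact ⟨F, s, hs, fun i j => ⟨(h i j).1, (h i j).2.trans (le_of_eq (mul_assoc _ _ _))⟩⟩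

/-- Bookkeeping of one step. -/
lemma step_bound {C C₁ K₁ K₂ L P M U V R : ℝ} (hC : 0 ≤ C) (hL : 0 ≤ L) (hP : 0 ≤ P) (hP1 : P ≤ 1)
    (hM : M ≤ C₁ + 1) (hMP : P * (C₁ * L) ≤ K₁ * R) (hLR : L ≤ K₂ * R) (hUV : U * V ≤ K₂ * R) :
    C * (P * M + 1) * L + C * U * V ≤ C * (K₁ + 3 * K₂) * R := by
  have h0 := mul_le_mul_of_nonneg_left (mul_le_mul_of_nonneg_right hM hL) hP
  have h1 : P * L ≤ L := mul_le_of_le_one_left hL hP1
  have h2 : P * M * L ≤ K₁ * R + L := by linarith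
  have h3 := mul_le_mul_of_nonneg_left (add_le_add (add_le_add h2 hLR) hUV) hC
  have h4 := mul_le_mul_of_nonneg_left hLR hC
  linarith

lemma red_step (hp : 1 < p) {D₁ D₂ a γ δ : ℝ} (hD₁ : 1 ≤ D₁) (hD₂ : 1 < D₂) (ha : 0 ≤ a)
    (hγ : 0 < γ) (hδ : 0 < δ) (h : Red p D₁ a) :
    Red p (D₁ * D₂) (max (a - γ * p) (4 * γ * p * (p + 1)) + δ) := by
  classical
  have hp0 : 0 < p := by linarith
  obtain ⟨C₁, hC₁⟩ := h
  have hDp : 1 < D₂ ^ p := one_lt_rpow hD₂ hp0
  set ε := min (1 / 24) ((D₂ ^ p - 1) / 48) with hε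
  have hε0 : 0 < ε := lt_min (by norm_num) (by linarith)
  have hε24 : ε ≤ 1 / 24 := min_le_left _ _
  have hεD : 48 * ε ≤ D₂ ^ p - 1 := by
    linarith [show ε ≤ (D₂ ^ p - 1) / 48 from min_le_right _ _]
  obtain ⟨C, hC, n₀, hred⟩ := exists_reduction (p := p) hp hε0 (by linarith) hγ
  set b := max (a - γ * p) (4 * γ * p * (p + 1)) + δ with hb
  have hb0 : 0 ≤ b := add_nonneg (le_max_of_le_right (by positivity)) hδ.le
  obtain ⟨K, hK, hl⟩ := log_pow_le one_pos hδ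
  obtain ⟨K', hK', hl'⟩ := log_pow_le (show 0 < 2 * p * (p + 1) + 1 by positivity) hδ
  choose Mf hMf using hC₁
  set Cm := max C₁ 0 with hCm
  have hCm0 : 0 ≤ Cm := le_max_right _ _
  set Small : ℝ := Cm * (n₀ + 1 : ℝ) ^ a with hSmall
  refine ⟨Small + C * (Cm * K + 3 * (K + K')) + 1, fun n hn => ?_⟩
  have hn1 : (1 : ℝ) ≤ n := by exact_mod_cast (show 1 ≤ n by omega)
  have hn0 : (0 : ℝ) < n := by linarith
  have hnb : 1 ≤ (n : ℝ) ^ b := Real.one_le_rpow hn1 hb0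
  have hSmall0 : 0 ≤ Small := by positivity
  have hbig0 : 0 ≤ C * (Cm * K + 3 * (K + K')) := by positivity
  obtain ⟨hM, hMemb⟩ := hMf n hn
  set M := Mf n hn with hMdef
  have hMCm : (M : ℝ) ≤ Cm * (n : ℝ) ^ a :=
    hM.trans (mul_le_mul_of_nonneg_right (le_max_left _ _) (by positivity))
  rcases le_or_gt n n₀ with hsm | hlg
  · refine ⟨M, ?_, fun Ω mΩ μ x hx => ?_⟩
    · have h1 : (M : ℝ) ≤ Small := by
        refine hMCm.trans (mul_le_mul_of_nonneg_left (rpow_le_rpow hn0.le ?_ ha) hCm0)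
        have : (n : ℝ) ≤ n₀ := by exact_mod_cast hsm
        linarith
      calc (M : ℝ) ≤ (Small + C * (Cm * K + 3 * (K + K')) + 1) * 1 := by linarith
        _ ≤ _ := mul_le_mul_of_nonneg_left hnb (by linarith)
    · obtain ⟨F, s, hs, hF⟩ := hMemb Ω mΩ μ x hx
      refine ⟨F, s, hs, fun i j => ⟨(hF i j).1, (hF i j).2.trans ?_⟩⟩
      exact mul_le_mul_of_nonneg_right (le_mul_of_one_le_right (by linarith) hD₂.le)
        (mul_nonneg hs.le (norm_nonneg _))
  set bound := C * ((n : ℝ) ^ (-(γ * p)) * (max M 1 : ℕ) + 1) * Real.log n +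
    C * (n : ℝ) ^ (4 * γ * p * (p + 1)) * Real.log n ^ (2 * p * (p + 1) + 1) with hbound
  have hl0 : 0 ≤ Real.log (n : ℝ) := Real.log_nonneg hn1
  have hb0' : 0 ≤ bound := by positivity
  refine ⟨⌊bound⌋₊, (Nat.floor_le hb0').trans ?_, fun Ω mΩ μ x hx => ?_⟩
  · have hL1 : Real.log (n : ℝ) ≤ K * (n : ℝ) ^ δ := by simpa using hl n hn1
    have e1 : (n : ℝ) ^ δ ≤ (n : ℝ) ^ b := rpow_le_rpow_of_exponent_le hn1 (by
      have h9 : 0 ≤ max (a - γ * p) (4 * γ * p * (p + 1)) := le_max_of_le_right (by positivity)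
      linarith)
    refine (step_bound hC.le hl0 (by positivity)
      (Real.rpow_le_one_of_one_le_of_nonpos hn1 (neg_nonpos.2 (by positivity)))
      (M := ((max M 1 : ℕ) : ℝ)) (C₁ := Cm * (n : ℝ) ^ a) (K₁ := Cm * K) (K₂ := K + K')
      (R := (n : ℝ) ^ b) ?_ ?_ ?_ ?_).trans
      (mul_le_mul_of_nonneg_right (by linarith) (by positivity))
    · rw [Nat.cast_max, Nat.cast_one]
      exact max_le (by linarith) (le_add_of_nonneg_left (by positivity))
    · calc (n : ℝ) ^ (-(γ * p)) * (Cm * (n : ℝ) ^ a * Real.log n)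
          ≤ (n : ℝ) ^ (-(γ * p)) * (Cm * (n : ℝ) ^ a * (K * (n : ℝ) ^ δ)) := by gcongr
        _ = Cm * K * ((n : ℝ) ^ (-(γ * p)) * (n : ℝ) ^ a * (n : ℝ) ^ δ) := by ring
        _ ≤ Cm * K * (n : ℝ) ^ b := by
            refine mul_le_mul_of_nonneg_left ?_ (by positivity)
            rw [← rpow_add hn0, ← rpow_add hn0]
            refine rpow_le_rpow_of_exponent_le hn1 ?_
            linarith [le_max_left (a - γ * p) (4 * γ * p * (p + 1))]
    · exact hL1.trans (mul_le_mul (by linarith) e1 (by positivity) (by positivity))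
    · calc (n : ℝ) ^ (4 * γ * p * (p + 1)) * Real.log n ^ (2 * p * (p + 1) + 1)
          ≤ (n : ℝ) ^ (4 * γ * p * (p + 1)) * (K' * (n : ℝ) ^ δ) :=
            mul_le_mul_of_nonneg_left (hl' n hn1) (by positivity)
        _ = K' * ((n : ℝ) ^ (4 * γ * p * (p + 1)) * (n : ℝ) ^ δ) := by ring
        _ ≤ (K + K') * (n : ℝ) ^ b := by
            refine mul_le_mul (by linarith) ?_ (by positivity) (by positivity)
            rw [← rpow_add hn0]
            refine rpow_le_rpow_of_exponent_le hn1 ?_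
            linarith [le_max_right (a - γ * p) (4 * γ * p * (p + 1))]
  -- the map
  obtain ⟨G, s₁, hs₁, hG⟩ := hMemb Ω mΩ μ x hx
  rcases Nat.eq_zero_or_pos M with h | hMpos
  · exfalso
    have hempty : IsEmpty (Fin M) := by rw [h]; infer_instance
    have h1 := (hG ⟨0, by omega⟩ ⟨1, by omega⟩).1
    rw [show (univ : Finset (Fin M)) = ∅ from univ_eq_empty, sum_empty,
      zero_rpow (show 1 / p ≠ 0 by positivity)] at h1
    have h2 : 0 < ‖x ⟨0, by omega⟩ - x ⟨1, by omega⟩‖ :=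
      norm_pos_iff.mpr (sub_ne_zero.mpr (hx.ne (by simp [Fin.ext_iff])))
    linarith [mul_pos hs₁ h2]
  set X : Fin n → Lq p M := fun i => WithLp.toLp _ (G i) with hX
  have hXn : ∀ i j, ‖X i - X j‖ = (∑ l, |G i l - G j l| ^ p) ^ (1 / p) := fun i j => by
    rw [lq_norm hp0]; rfl
  have hXi : Function.Injective X := fun i j hij => by
    by_contra hne
    have h1 := (hG i j).1
    rw [← hXn, hij, sub_self, norm_zero] at h1
    linarith [mul_pos hs₁ (norm_pos_iff.mpr (sub_ne_zero.mpr (hx.ne hne)))]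
  obtain ⟨D', hD', F, hF⟩ := hred n hlg.le M hMpos X hXi
  have hDle : D' ≤ ⌊bound⌋₊ := by
    refine Nat.le_floor (hD'.trans ?_)
    rw [hbound, max_eq_left (show 1 ≤ M from hMpos)]
  obtain ⟨F', hF'⟩ := pad hp0 hDle F
  set u := 12 * ε with hu
  have hu1 : u ≤ 1 / 2 := by linarith
  refine ⟨F', (1 - u) ^ (1 / p) * s₁, mul_pos (rpow_pos_of_pos (by linarith) _) hs₁, fun i j => ?_⟩
  rw [hF' i j]
  obtain ⟨g1, g2⟩ := hG i j
  rw [← hXn] at g1 g2
  have hFij := abs_le.1 (hF i j)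
  set S := ∑ l, |F i l - F j l| ^ p with hS
  set Nx := ‖X i - X j‖ with hNx
  have hNx0 : 0 ≤ Nx := norm_nonneg _
  have hS0 : 0 ≤ S := sum_nonneg fun l _ => by positivity
  have hroot : ∀ a : ℝ, 0 ≤ a → (a * Nx ^ p) ^ (1 / p) = a ^ (1 / p) * Nx := fun a ha => by
    rw [mul_rpow ha (by positivity), ← rpow_mul hNx0, mul_one_div_cancel hp0.ne', rpow_one]
  constructor
  · calc (1 - u) ^ (1 / p) * s₁ * ‖x i - x j‖ ≤ (1 - u) ^ (1 / p) * Nx := by
          rw [mul_assoc]; exact mul_le_mul_of_nonneg_left g1 (rpow_nonneg (by linarith) _)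
      _ = ((1 - u) * Nx ^ p) ^ (1 / p) := (hroot _ (by linarith)).symm
      _ ≤ S ^ (1 / p) := rpow_le_rpow (mul_nonneg (by linarith) (by positivity))
          (by linarith [hFij.1]) (by positivity)
  · have hratio : (1 + u) ^ (1 / p) ≤ D₂ * (1 - u) ^ (1 / p) :=
      ratio_bound hp0 (by positivity) hu1 (by linarith) (by linarith)
    calc S ^ (1 / p) ≤ ((1 + u) * Nx ^ p) ^ (1 / p) :=
          rpow_le_rpow hS0 (by linarith [hFij.2]) (by positivity)
      _ = (1 + u) ^ (1 / p) * Nx := hroot _ (by linarith)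
      _ ≤ D₂ * (1 - u) ^ (1 / p) * (D₁ * (s₁ * ‖x i - x j‖)) :=
          mul_le_mul hratio g2 hNx0 (mul_nonneg (by linarith) (rpow_nonneg (by linarith) _))
      _ = _ := by ring

/-- Dimension `n ^ ε` at every distortion `D > 1`. -/
theorem red_all (hp : 1 < p) {D ε : ℝ} (hD : 1 < D) (hε : 0 < ε) : Red p D ε := by
  have hp0 : 0 < p := by linarith
  set γ := ε / (8 * p * (p + 1)) with hγ
  have hγ0 : 0 < γ := by positivity
  have hγ4 : 4 * γ * p * (p + 1) = ε / 2 := by rw [hγ]; field_simp; ring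
  set g := γ * p / 2 with hg
  have hg0 : 0 < g := by positivity
  set δ := min g (ε / 2) with hδ
  have hδ0 : 0 < δ := lt_min hg0 (half_pos hε)
  set J := ⌈2 / g⌉₊ with hJ
  set D₀ := D ^ (1 / ((J : ℝ) + 1)) with hD₀
  have hD0 : 1 < D₀ := one_lt_rpow hD (by positivity)
  have hit : ∀ j : ℕ, Red p (D₀ ^ (j + 1)) (max (2 - j * g) ε) := by
    intro j
    induction j with
    | zero => rw [pow_one]; exact red_mono (by simp) (red_base hp.le hD0)
    | succ j ih =>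
      rw [pow_succ]
      refine red_mono ?_ (red_step hp (one_le_pow₀ hD0.le) hD0 (le_max_of_le_right hε.le) hγ0 hδ0 ih)
      rw [hγ4, ← max_add_add_right]
      refine max_le ?_ (le_max_of_le_right (by linarith [min_le_right g (ε / 2)]))
      rcases le_total (2 - (j : ℝ) * g) ε with h | h
      · rw [max_eq_right h]
        exact le_max_of_le_right (by linarith [min_le_left g (ε / 2)])
      · rw [max_eq_left h]
        refine le_max_of_le_left ?_
        push_cast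
        linarith [min_le_left g (ε / 2)]
  have hJ2 : 2 - (J : ℝ) * g ≤ ε := by
    have h := Nat.le_ceil (2 / g)
    rw [div_le_iff₀ hg0] at h
    linarith
  have e : D₀ ^ (J + 1) = D := by
    rw [hD₀, ← rpow_natCast, ← rpow_mul (by linarith)]
    push_cast
    rw [one_div_mul_cancel (by positivity), rpow_one]
  have h := hit J
  rw [e, max_eq_right hJ2] at h
  exact h

end Vale.Agent.P249.Iso
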