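import Vale.Agent.P249.IsoSoft
import Vale.Agent.P249.GlueWindows

/-!
The test used at the few scales where the exponential average spreads out: a second average
in Gaussian coordinates after the Mazur map.
-/

namespace Vale.Agent.P249.Iso

open Real Finset Vale.Agent.P249
open scoped BigOperators

lemma add_rpow_le {r a b : ℝ} (hr : 0 ≤ r) (ha : 0 ≤ a) (hb : 0 ≤ b) :
    (a + b) ^ r ≤ 2 ^ r * (a ^ r + b ^ r) := by
  have h : a + b ≤ 2 * max a b := by linarith [le_max_left a b, le_max_right a b]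
  refine (Real.rpow_le_rpow (by linarith) h hr).trans ?_
  rw [Real.mul_rpow (by norm_num) (le_max_of_le_left ha)]
  refine mul_le_mul_of_nonneg_left ?_ (by positivity)
  rcases le_total a b with h' | h'
  · rw [max_eq_right h']; linarith [Real.rpow_nonneg ha r]
  · rw [max_eq_left h']; linarith [Real.rpow_nonneg hb r]

/-- The Mazur map at scale `ℓ` and radius `R ℓ`. -/
lemma mazur_step {p : ℝ} (hp : 1 < p) : ∃ C e : ℝ, 1 ≤ C ∧ 0 ≤ e ∧ e < p ∧
    ∀ ℓ R : ℝ, 0 < ℓ → 1 ≤ R → ∃ S : ℝ, 0 < S ∧ ∀ (m : ℕ) (a b : Fin m → ℝ),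
      ∑ i, |a i| ^ p ≤ (3 * R * ℓ) ^ p → ∑ i, |b i| ^ p ≤ (3 * R * ℓ) ^ p →
      (∑ i, |a i - b i| ^ p ≤ ℓ ^ p →
        ∑ i, (spow (p / 2) (a i) - spow (p / 2) (b i)) ^ 2 ≤ C * S) ∧
      (∀ c : ℝ, 1 ≤ c → ∑ i, (spow (p / 2) (a i) - spow (p / 2) (b i)) ^ 2 ≤ c * R * S →
        ∑ i, |a i - b i| ^ p ≤ C * c * R ^ e * ℓ ^ p) := by
  have hp0 : 0 < p := by linarith
  set q := p / 2 with hq
  have hq2 : q * 2 = p := by rw [hq]; ring
  have hmaxsum : ∀ (ℓ R : ℝ), 0 < ℓ → 1 ≤ R → ∀ (m : ℕ) (a b : Fin m → ℝ),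
      ∑ i, |a i| ^ p ≤ (3 * R * ℓ) ^ p → ∑ i, |b i| ^ p ≤ (3 * R * ℓ) ^ p →
      ∑ i, max |a i| |b i| ^ p ≤ (6 * R * ℓ) ^ p := by
    intro ℓ R hℓ hR m a b ha hb
    have h1 : ∀ i, max |a i| |b i| ^ p ≤ |a i| ^ p + |b i| ^ p := fun i => by
      rcases le_total |a i| |b i| with h | h
      · rw [max_eq_right h]; linarith [Real.rpow_nonneg (abs_nonneg (a i)) p]
      · rw [max_eq_left h]; linarith [Real.rpow_nonneg (abs_nonneg (b i)) p]
    refine (sum_le_sum fun i _ => h1 i).trans ?_
    rw [sum_add_distrib, show 6 * R * ℓ = 2 * (3 * R * ℓ) by ring,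
      Real.mul_rpow two_pos.le (by positivity)]
    have h2 : (2 : ℝ) ≤ 2 ^ p := Real.self_le_rpow_of_one_le one_le_two hp.le
    have h3 := mul_le_mul_of_nonneg_right h2 (show 0 ≤ (3 * R * ℓ) ^ p by positivity)
    linarith
  rcases le_or_gt 2 p with hp2 | hp2
  · refine ⟨max 1 (max (q ^ 2 * 6 ^ (p - 2)) (2 ^ p)), p - 1, le_max_left _ _, by linarith,
      by linarith, fun ℓ R hℓ hR => ⟨ℓ ^ (2 : ℝ) * (R * ℓ) ^ (p - 2), by positivity,
      fun m a b ha hb => ⟨fun hd => ?_, fun c hc hd => ?_⟩⟩⟩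
    · have hq1 : 1 ≤ q := by rw [hq]; linarith
      have h1 : ∀ i, (spow q (a i) - spow q (b i)) ^ 2 ≤
          q ^ 2 * (|a i - b i| ^ (2 : ℝ) * max |a i| |b i| ^ (p - 2)) := by
        intro i
        have h := (spow_high hq1 (a i) (b i)).1
        rw [← sq_abs]
        refine (pow_le_pow_left₀ (abs_nonneg _) h 2).trans (le_of_eq ?_)
        rw [Real.rpow_two, mul_pow, mul_pow, ← Real.rpow_natCast (max |a i| |b i| ^ (q - 1)) 2,
          ← Real.rpow_mul (le_max_of_le_left (abs_nonneg _)),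
          show (q - 1) * ((2 : ℕ) : ℝ) = p - 2 by push_cast; linarith]
        ring
      refine (sum_le_sum fun i _ => h1 i).trans ?_
      rw [← mul_sum]
      refine (mul_le_mul_of_nonneg_left (holder_sum univ hp0 (by norm_num : (0 : ℝ) ≤ 2)
        (by linarith : 0 ≤ p - 2) (by ring) hℓ (show 0 < 6 * R * ℓ by positivity)
        (fun i => |a i - b i|) (fun i => max |a i| |b i|) (fun i => abs_nonneg _)
        (fun i => le_max_of_le_left (abs_nonneg _)) hd (hmaxsum ℓ R hℓ hR m a b ha hb))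
        (sq_nonneg q)).trans ?_
      rw [mul_assoc 6, Real.mul_rpow (by norm_num) (by positivity)]
      calc q ^ 2 * (ℓ ^ (2 : ℝ) * (6 ^ (p - 2) * (R * ℓ) ^ (p - 2)))
          = q ^ 2 * 6 ^ (p - 2) * (ℓ ^ (2 : ℝ) * (R * ℓ) ^ (p - 2)) := by ring
        _ ≤ _ := mul_le_mul_of_nonneg_right (le_max_of_le_right (le_max_left _ _)) (by positivity)
    · have hq1 : 1 ≤ q := by rw [hq]; linarith
      have h1 : ∀ i, |a i - b i| ^ p ≤ 2 ^ p * (spow q (a i) - spow q (b i)) ^ 2 := by
        intro i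
        have h := pow_le_pow_left₀ (Real.rpow_nonneg (abs_nonneg _) _)
          (spow_high hq1 (a i) (b i)).2 2
        rw [mul_pow, sq_abs, ← Real.rpow_natCast (|a i - b i| ^ q) 2,
          ← Real.rpow_mul (abs_nonneg _), ← Real.rpow_natCast ((2 : ℝ) ^ q) 2,
          ← Real.rpow_mul two_pos.le, show q * ((2 : ℕ) : ℝ) = p by push_cast; linarith] at h
        exact h
      refine (sum_le_sum fun i _ => h1 i).trans ?_
      rw [← mul_sum]
      refine (mul_le_mul_of_nonneg_left hd (by positivity)).trans ?_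
      have e1 : R * (ℓ ^ (2 : ℝ) * (R * ℓ) ^ (p - 2)) = R ^ (p - 1) * ℓ ^ p := by
        rw [Real.mul_rpow (by linarith) hℓ.le, show p - 1 = 1 + (p - 2) by ring,
          Real.rpow_add (by linarith : 0 < R), Real.rpow_one,
          show ℓ ^ p = ℓ ^ (2 : ℝ) * ℓ ^ (p - 2) by rw [← Real.rpow_add hℓ]; ring_nf]
        ring
      calc 2 ^ p * (c * R * (ℓ ^ (2 : ℝ) * (R * ℓ) ^ (p - 2))) = 2 ^ p * c * (R ^ (p - 1) * ℓ ^ p) := by
            rw [← e1]; ring
        _ ≤ max 1 (max (q ^ 2 * 6 ^ (p - 2)) (2 ^ p)) * c * (R ^ (p - 1) * ℓ ^ p) := by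
            gcongr
            exact le_max_of_le_right (le_max_right _ _)
        _ = _ := by ring
  · have hq0 : 0 < q := by rw [hq]; linarith
    have hq1 : q ≤ 1 := by rw [hq]; linarith
    refine ⟨max 4 ((q ^ p)⁻¹ * 6 ^ (p * (1 - q))), q + p * (1 - q),
      le_max_of_le_left (by norm_num), by nlinarith, by nlinarith,
      fun ℓ R hℓ hR => ⟨ℓ ^ p, by positivity, fun m a b ha hb => ⟨fun hd => ?_, fun c hc hd => ?_⟩⟩⟩
    · have h1 : ∀ i, (spow q (a i) - spow q (b i)) ^ 2 ≤ 4 * |a i - b i| ^ p := by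
        intro i
        rw [← sq_abs]
        refine (pow_le_pow_left₀ (abs_nonneg _) (spow_low hq0 hq1 (a i) (b i)).1 2).trans (le_of_eq ?_)
        rw [mul_pow, ← Real.rpow_natCast (|a i - b i| ^ q) 2, ← Real.rpow_mul (abs_nonneg _),
          show q * ((2 : ℕ) : ℝ) = p by push_cast; linarith]
        norm_num
      refine (sum_le_sum fun i _ => h1 i).trans ?_
      rw [← mul_sum]
      exact mul_le_mul (le_max_left _ _) hd (sum_nonneg fun i _ => by positivity)
        (le_max_of_le_left (by norm_num))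
    · have h1 : ∀ i, |a i - b i| ^ p ≤ (q ^ p)⁻¹ *
          ((|spow q (a i) - spow q (b i)| ^ (2 / p)) ^ (p * q) * max |a i| |b i| ^ (p * (1 - q))) := by
        intro i
        have h := Real.rpow_le_rpow (by positivity) (spow_low hq0 hq1 (a i) (b i)).2 hp0.le
        rw [Real.mul_rpow hq0.le (abs_nonneg _), Real.mul_rpow (abs_nonneg _) (by positivity),
          ← Real.rpow_mul (le_max_of_le_left (abs_nonneg _)), mul_comm (1 - q) p] at h
        rw [le_inv_mul_iff₀ (by positivity), ← Real.rpow_mul (abs_nonneg _),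
          show 2 / p * (p * q) = p by field_simp; linarith]
        exact h
      refine (sum_le_sum fun i _ => h1 i).trans ?_
      rw [← mul_sum]
      have hA : 0 < (c * R * ℓ ^ p) ^ (1 / p) := by positivity
      have hh := holder_sum univ hp0 (show 0 ≤ p * q by positivity)
        (show 0 ≤ p * (1 - q) by nlinarith) (by ring) hA (show 0 < 6 * R * ℓ by positivity)
        (fun i => |spow q (a i) - spow q (b i)| ^ (2 / p)) (fun i => max |a i| |b i|)
        (fun i => by positivity) (fun i => le_max_of_le_left (abs_nonneg _))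
        (by
          simp only [← Real.rpow_mul (abs_nonneg _), div_mul_cancel₀ _ hp0.ne', Real.rpow_two, sq_abs]
          rw [← Real.rpow_mul (by positivity), div_mul_cancel₀ _ hp0.ne', Real.rpow_one]
          exact hd)
        (hmaxsum ℓ R hℓ hR m a b ha hb)
      refine (mul_le_mul_of_nonneg_left hh (by positivity)).trans ?_
      rw [← Real.rpow_mul (show (0 : ℝ) ≤ c * R * ℓ ^ p by positivity), show 1 / p * (p * q) = q by field_simp,
        Real.mul_rpow (by positivity) (by positivity), Real.mul_rpow (by linarith) (by linarith),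
        mul_assoc 6, Real.mul_rpow (by norm_num) (by positivity), Real.mul_rpow (by linarith) hℓ.le,
        ← Real.rpow_mul hℓ.le]
      have hcq : c ^ q ≤ c := Real.rpow_le_self_of_one_le hc hq1
      have eR : R ^ (q + p * (1 - q)) = R ^ q * R ^ (p * (1 - q)) := Real.rpow_add (by linarith) _ _
      have eℓ : ℓ ^ p = ℓ ^ (p * q) * ℓ ^ (p * (1 - q)) := by rw [← Real.rpow_add hℓ]; ring_nf
      calc (q ^ p)⁻¹ * (c ^ q * R ^ q * ℓ ^ (p * q) *
            (6 ^ (p * (1 - q)) * (R ^ (p * (1 - q)) * ℓ ^ (p * (1 - q)))))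
          = (q ^ p)⁻¹ * 6 ^ (p * (1 - q)) * c ^ q *
            ((R ^ q * R ^ (p * (1 - q))) * (ℓ ^ (p * q) * ℓ ^ (p * (1 - q)))) := by ring
        _ ≤ max 4 ((q ^ p)⁻¹ * 6 ^ (p * (1 - q))) * c *
            ((R ^ q * R ^ (p * (1 - q))) * (ℓ ^ (p * q) * ℓ ^ (p * (1 - q)))) := by
            gcongr
            exact le_max_right _ _
        _ = _ := by rw [← eR, ← eℓ]; ring

variable {p : ℝ} [Fact (1 ≤ ENNReal.ofReal p)]

/-- The test at a spread-out scale: mass `(log n) ^ e` with `e < p`. -/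
theorem exists_jump (hp : 1 < p) : ∃ C e : ℝ, 0 ≤ C ∧ 0 ≤ e ∧ e < p ∧
    ∀ n : ℕ, 2 ≤ n → ∀ (m : ℕ) (X : Fin n → Lq p m) (ℓ : ℝ), 0 < ℓ →
      ∃ T : Fin n → Fin m → ℝ, (∀ x k, 0 ≤ T x k) ∧
        (∀ x, ∑ k, T x k ≤ C * (Real.log n + 1) ^ e) ∧
        ∀ x w, ‖X x - X w‖ ≤ ℓ → ∀ k,
          |(X x) k - (X w) k| ^ p ≤ ℓ ^ p * (T x k + T w k) := by
  classical
  have hp0 : 0 < p := by linarith
  obtain ⟨C₁, e, hC₁, he0, hep, hmz⟩ := mazur_step hp
  set α := exp (-1) * exp (-(C₁ / 8)) / 2 with hα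
  have hα0 : 0 < α := by positivity
  set c₀ := 8 * (p + 1) with hc₀
  set Cbad := 3 ^ p * (2 * p) ^ p with hCbad
  set Cgood := C₁ * c₀ * 2 ^ e + 6 ^ p with hCgood
  set Kc := 2 * ((2 : ℝ) ^ (p / 2) / α) ^ 2 with hKc
  refine ⟨Kc * (Cbad + Cgood), e, by positivity, he0, hep, fun n hn m X ℓ hℓ => ?_⟩
  set L := Real.log n with hL
  have hn1 : (1 : ℝ) ≤ n := by exact_mod_cast (show 1 ≤ n by omega)
  have hL0 : 0 ≤ L := Real.log_nonneg hn1
  set R := 2 * L + 2 with hR
  have hR1 : 1 ≤ R := by linarith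
  obtain ⟨S, hS, hMz⟩ := hmz ℓ R hℓ hR1
  set d : Fin n → Fin n → ℝ := fun a b => ‖X a - X b‖ with hd
  have hd0 : ∀ a, d a a = 0 := fun a => by simp [hd]
  have hdn : ∀ a b, 0 ≤ d a b := fun a b => norm_nonneg _
  have hsym : ∀ a b, d a b = d b a := fun a b => norm_sub_rev _ _
  have htri : ∀ a b c, d a c ≤ d a b + d b c := fun a b c =>
    norm_sub_le_norm_sub_add_norm_sub _ _ _
  have hdp : ∀ a b, ∑ k, |(X a) k - (X b) k| ^ p = d a b ^ p := fun a b => by
    rw [hd, lq_norm_pow hp0]; rfl
  -- the second average, for each centre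
  set v : Fin n → Fin n → Fin m → ℝ := fun c z k =>
    spow (p / 2) ((X z) k - (X c) k) / √S with hv
  have hker : ∀ c : Fin n, ∃ K : (Fin m → ℝ) → Fin n → ℝ, (∀ a z, 0 ≤ K a z) ∧
      (∀ a, ∑ z, K a z = 1) ∧
      (∀ a b, exp (-((∑ i, (a i - b i) ^ 2) / 8)) ≤ ∑ z, √(K a z * K b z)) ∧
      (∀ a z, K a z ≠ 0 → d c z ≤ 2 * R * ℓ) ∧
      (∀ x, d c x ≤ 2 * R * ℓ → ∀ z,
        K (v c x) z ≤ exp (-((∑ i, (v c x i - v c z i) ^ 2) / 8))) := by
    intro c
    let Z := { z : Fin n // d c z ≤ 2 * R * ℓ }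
    have : Nonempty Z := ⟨⟨c, by rw [hd0]; positivity⟩⟩
    obtain ⟨K, hK0, hK1, hKa, hKd⟩ := gauss_kernel (fun z : Z => v c z.1)
    set K' : (Fin m → ℝ) → Fin n → ℝ := fun a z =>
      if h : d c z ≤ 2 * R * ℓ then K a ⟨z, h⟩ else 0 with hK'
    have hext : ∀ f : Fin n → ℝ, (∀ z, ¬ d c z ≤ 2 * R * ℓ → f z = 0) → ∑ z, f z = ∑ z : Z, f z.1 := by
      intro f hf
      rw [← sum_subset (subset_univ (univ.filter fun z => d c z ≤ 2 * R * ℓ))
        (fun z _ hz => hf z (by simpa using hz))]
      exact sum_subtype _ (by simp) f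
    refine ⟨K', fun a z => ?_, fun a => ?_, fun a b => ?_, fun a z hz => ?_, fun x hx z => ?_⟩
    · simp only [hK']; split_ifs with h
      · exact hK0 _ _
      · exact le_rfl
    · rw [hext (K' a) (fun z hz => dif_neg hz)]
      refine (sum_congr rfl fun z _ => ?_).trans (hK1 a)
      simp only [hK', dif_pos z.2, Subtype.coe_eta]
    · rw [hext (fun z => √(K' a z * K' b z)) (fun z hz => by simp [hK', hz])]
      refine (hKa a b).trans_eq (sum_congr rfl fun z _ => ?_)
      simp only [hK', dif_pos z.2, Subtype.coe_eta]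
    · by_contra h; exact hz (dif_neg h)
    · simp only [hK']; split_ifs with h
      · exact hKd ⟨x, hx⟩ ⟨z, h⟩
      · exact (exp_pos _).le
  choose K hK0 hK1 hKa hKsupp hKd using hker
  set Γ : Fin n → Fin n × Fin n → ℝ := fun x cz =>
    wgt d ℓ x cz.1 * K cz.1 (v cz.1 x) cz.2 with hΓ
  have hΓ0 : ∀ x cz, 0 ≤ Γ x cz := fun x cz => mul_nonneg (wgt_nonneg _ _) (hK0 _ _ _)
  refine ⟨fun x k => Kc * (∑ cz, Γ x cz * |(X cz.2) k - (X x) k| ^ p) / ℓ ^ p,
    fun x k => div_nonneg (mul_nonneg (by positivity)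
      (sum_nonneg fun cz _ => mul_nonneg (hΓ0 x cz) (by positivity))) (by positivity),
    fun x => ?_, fun x w hxw k => ?_⟩
  · -- the mass
    rw [← sum_div, ← mul_sum, sum_comm]
    simp only [← mul_sum, hdp]
    rw [mul_div_assoc, mul_assoc Kc (Cbad + Cgood)]
    refine mul_le_mul_of_nonneg_left ?_ (by positivity)
    rw [sum_div, Fintype.sum_prod_type]
    have hper : ∀ c, ∑ z, Γ x (c, z) * d z x ^ p / ℓ ^ p ≤
        (Cbad / n) + wgt d ℓ x c * (Cgood * (L + 1) ^ e) := by
      intro c
      have hw0 : 0 ≤ wgt d ℓ x c := wgt_nonneg _ _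
      have e1 : ∀ z, Γ x (c, z) * d z x ^ p / ℓ ^ p =
          wgt d ℓ x c * (K c (v c x) z * (d z x / ℓ) ^ p) := fun z => by
        rw [Real.div_rpow (hdn z x) hℓ.le]; simp only [hΓ]; ring
      simp only [e1, ← mul_sum]
      by_cases hc : d x c ≤ R * ℓ
      · refine le_add_of_nonneg_of_le (by positivity) (mul_le_mul_of_nonneg_left ?_ hw0)
        have hcx : d c x ≤ 2 * R * ℓ := by
          rw [hsym]; linarith [show 0 ≤ R * ℓ by positivity]
        have hper2 : ∀ z, K c (v c x) z * (d z x / ℓ) ^ p ≤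
            K c (v c x) z * (C₁ * c₀ * 2 ^ e * (L + 1) ^ e) + 6 ^ p / n := by
          intro z
          by_cases hz : K c (v c x) z = 0
          · rw [hz, zero_mul, zero_mul, zero_add]; positivity
          have hcz := hKsupp c _ z hz
          by_cases hv2 : ∑ i, (spow (p / 2) ((X z) i - (X c) i) -
              spow (p / 2) ((X x) i - (X c) i)) ^ 2 ≤ c₀ * R * S
          · refine le_add_of_le_of_nonneg (mul_le_mul_of_nonneg_left ?_ (hK0 _ _ _)) (by positivity)
            have hb : ∀ u, d c u ≤ 2 * R * ℓ → ∑ i, |(X u) i - (X c) i| ^ p ≤ (3 * R * ℓ) ^ p := by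
              intro u hu
              rw [hdp, hsym]
              exact Real.rpow_le_rpow (hdn _ _) (by linarith [show 0 ≤ R * ℓ by positivity]) hp0.le
            have h := (hMz m (fun i => (X z) i - (X c) i) (fun i => (X x) i - (X c) i) (hb z hcz)
              (hb x hcx)).2 c₀ (by rw [hc₀]; linarith) hv2
            simp only [sub_sub_sub_cancel_right, hdp] at h
            rw [Real.div_rpow (hdn z x) hℓ.le, div_le_iff₀ (by positivity)]
            refine h.trans ?_
            have : R ^ e ≤ 2 ^ e * (L + 1) ^ e := by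
              rw [← Real.mul_rpow (by norm_num) (by linarith)]
              exact Real.rpow_le_rpow (by linarith) (by linarith) he0
            calc C₁ * c₀ * R ^ e * ℓ ^ p ≤ C₁ * c₀ * (2 ^ e * (L + 1) ^ e) * ℓ ^ p := by gcongr
              _ = _ := by ring
          · refine le_add_of_nonneg_of_le (mul_nonneg (hK0 _ _ _) (by positivity)) ?_
            push Not at hv2
            have hdec : K c (v c x) z ≤ exp (-((p + 1) * L)) := by
              refine (hKd c x hcx z).trans (exp_le_exp.2 (neg_le_neg ?_))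
              rw [le_div_iff₀ (by norm_num : (0 : ℝ) < 8)]
              have e2 : ∑ i, (v c x i - v c z i) ^ 2 = (∑ i, (spow (p / 2) ((X z) i - (X c) i) -
                  spow (p / 2) ((X x) i - (X c) i)) ^ 2) / S := by
                rw [sum_div]
                refine sum_congr rfl fun i _ => ?_
                simp only [hv]
                rw [← sub_div, div_pow, Real.sq_sqrt hS.le]
                ring
              rw [e2, le_div_iff₀ hS]
              refine le_trans ?_ hv2.le
              rw [hc₀]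
              have : 0 ≤ S * (p + 1) * (L + 2) := by positivity
              rw [hR]; linarith
            have hdist : (d z x / ℓ) ^ p ≤ 6 ^ p * (n : ℝ) ^ p := by
              rw [← Real.mul_rpow (by norm_num) (Nat.cast_nonneg n)]
              refine Real.rpow_le_rpow (div_nonneg (hdn _ _) hℓ.le) ?_ hp0.le
              rw [div_le_iff₀ hℓ]
              have h1 : d z x ≤ 3 * R * ℓ := by linarith [htri z c x, hsym z c, hsym c x]
              have h2 : L + 1 ≤ n := by
                have := Real.log_le_sub_one_of_pos (show (0 : ℝ) < n by linarith)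
                linarith
              have h3 : 3 * R * ℓ ≤ 6 * n * ℓ := by
                refine mul_le_mul_of_nonneg_right ?_ hℓ.le
                rw [hR]; linarith
              linarith
            have hexp : exp (-((p + 1) * L)) = ((n : ℝ) ^ (p + 1))⁻¹ := by
              rw [Real.rpow_def_of_pos (by linarith), ← exp_neg, hL]; ring_nf
            calc K c (v c x) z * (d z x / ℓ) ^ p ≤ ((n : ℝ) ^ (p + 1))⁻¹ * (6 ^ p * (n : ℝ) ^ p) := by
                  rw [← hexp]
                  exact mul_le_mul hdec hdist (Real.rpow_nonneg (div_nonneg (hdn _ _) hℓ.le) _)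
                    (exp_pos _).le
              _ = _ := by
                  rw [Real.rpow_add (by linarith), Real.rpow_one]
                  field_simp
        refine (sum_le_sum fun z _ => hper2 z).trans ?_
        rw [sum_add_distrib, ← sum_mul, hK1, one_mul, sum_const, card_univ, Fintype.card_fin,
          nsmul_eq_mul, mul_div_cancel₀ _ (show (n : ℝ) ≠ 0 by linarith), hCgood]
        have : (1 : ℝ) ≤ (L + 1) ^ e := Real.one_le_rpow (by linarith) he0
        have := mul_le_mul_of_nonneg_left this (show (0 : ℝ) ≤ 6 ^ p by positivity)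
        linarith
      · refine le_add_of_le_of_nonneg ?_ (by positivity)
        push Not at hc
        set r := d x c / ℓ with hr
        have hr0 : 0 ≤ r := div_nonneg (hdn _ _) hℓ.le
        have hrR : R ≤ r := by rw [hr, le_div_iff₀ hℓ]; exact hc.le
        have hz : ∀ z, K c (v c x) z * (d z x / ℓ) ^ p ≤ K c (v c x) z * (3 ^ p * r ^ p) := by
          intro z
          by_cases hz : K c (v c x) z = 0
          · rw [hz, zero_mul, zero_mul]
          have hcz := hKsupp c _ z hz
          refine mul_le_mul_of_nonneg_left ?_ (hK0 _ _ _)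
          rw [← Real.mul_rpow (by norm_num) hr0]
          refine Real.rpow_le_rpow (div_nonneg (hdn _ _) hℓ.le) ?_ hp0.le
          rw [div_le_iff₀ hℓ, hr, mul_assoc, div_mul_cancel₀ _ hℓ.ne']
          linarith [htri z c x, hsym z c, hsym c x]
        refine (mul_le_mul_of_nonneg_left (sum_le_sum fun z _ => hz z) hw0).trans ?_
        rw [← sum_mul, hK1, one_mul]
        have h1 : wgt d ℓ x c ≤ exp (-r) := wgt_le_exp hd0 x c
        have h2 := rpow_le_exp_half hp0 hr0
        have h3 : exp (-r) * exp (r / 2) ≤ (n : ℝ)⁻¹ := by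
          rw [← exp_add, ← Real.exp_log (show (0 : ℝ) < n by linarith), ← exp_neg]
          refine exp_le_exp.2 ?_
          rw [← hL]; linarith
        calc wgt d ℓ x c * (3 ^ p * r ^ p) ≤ exp (-r) * (3 ^ p * ((2 * p) ^ p * exp (r / 2))) := by
              gcongr
          _ = Cbad * (exp (-r) * exp (r / 2)) := by rw [hCbad]; ring
          _ ≤ Cbad * (n : ℝ)⁻¹ := by gcongr
          _ = _ := by rw [div_eq_mul_inv]
    refine (sum_le_sum fun c _ => hper c).trans ?_
    rw [sum_add_distrib, ← sum_mul, sum_wgt, one_mul, sum_const, card_univ, Fintype.card_fin,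
      nsmul_eq_mul, mul_div_cancel₀ _ (show (n : ℝ) ≠ 0 by linarith)]
    have := le_mul_of_one_le_right (show 0 ≤ Cbad by positivity)
      (Real.one_le_rpow (show (1 : ℝ) ≤ L + 1 by linarith) he0)
    linarith
  · -- the inequality
    have haff : α ≤ ∑ cz, √(Γ x cz) * √(Γ w cz) := by
      rw [Fintype.sum_prod_type]
      have hgood : ∀ c, (if d x c ≤ R * ℓ then exp (-1) * exp (-(C₁ / 8)) * wgt d ℓ x c else 0) ≤
          ∑ z, √(Γ x (c, z)) * √(Γ w (c, z)) := by
        intro c
        split_ifs with hc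
        · have hwc : d c w ≤ 2 * R * ℓ := by
            have : ℓ ≤ R * ℓ := le_mul_of_one_le_left hℓ.le hR1
            change d x w ≤ ℓ at hxw
            linarith [htri c x w, hsym c x]
          have hcx : d c x ≤ 2 * R * ℓ := by
            rw [hsym]; linarith [show 0 ≤ R * ℓ by positivity]
          have hb : ∀ u, d c u ≤ 2 * R * ℓ → ∑ i, |(X u) i - (X c) i| ^ p ≤ (3 * R * ℓ) ^ p := by
            intro u hu
            rw [hdp, hsym]
            exact Real.rpow_le_rpow (hdn _ _) (by linarith [show 0 ≤ R * ℓ by positivity]) hp0.le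
          have hM := (hMz m (fun i => (X x) i - (X c) i) (fun i => (X w) i - (X c) i) (hb x hcx)
            (hb w hwc)).1 (by
              simp only [sub_sub_sub_cancel_right]
              rw [hdp]
              exact Real.rpow_le_rpow (hdn _ _) hxw hp0.le)
          have hK : exp (-(C₁ / 8)) ≤ ∑ z, √(K c (v c x) z * K c (v c w) z) := by
            refine le_trans (exp_le_exp.2 (neg_le_neg ?_)) (hKa c (v c x) (v c w))
            rw [div_le_div_iff_of_pos_right (by norm_num : (0 : ℝ) < 8)]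
            calc ∑ i, (v c x i - v c w i) ^ 2
                = (∑ i, (spow (p / 2) ((X x) i - (X c) i) - spow (p / 2) ((X w) i - (X c) i)) ^ 2) / S := by
                  rw [sum_div]
                  refine sum_congr rfl fun i _ => ?_
                  simp only [hv]
                  rw [← sub_div, div_pow, Real.sq_sqrt hS.le]
              _ ≤ C₁ := by rw [div_le_iff₀ hS]; exact hM
          have hww : exp (-1) * wgt d ℓ x c ≤ √(wgt d ℓ x c) * √(wgt d ℓ w c) := by
            have h := wgt_stable hsym htri hℓ (show d w x ≤ ℓ by rw [hsym]; exact hxw) c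
            have h0 : exp (-2) * wgt d ℓ x c ≤ wgt d ℓ w c := by
              rw [exp_neg, inv_mul_le_iff₀ (exp_pos _)]; exact h
            rw [← Real.sqrt_mul (wgt_nonneg _ _)]
            refine Real.le_sqrt_of_sq_le ?_
            rw [mul_pow, ← Real.exp_nat_mul, show ((2 : ℕ) : ℝ) * -1 = -2 by norm_num]
            calc exp (-2) * wgt d ℓ x c ^ 2 = wgt d ℓ x c * (exp (-2) * wgt d ℓ x c) := by ring
              _ ≤ _ := mul_le_mul_of_nonneg_left h0 (wgt_nonneg _ _)
          calc exp (-1) * exp (-(C₁ / 8)) * wgt d ℓ x c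
              = exp (-1) * wgt d ℓ x c * exp (-(C₁ / 8)) := by ring
            _ ≤ √(wgt d ℓ x c) * √(wgt d ℓ w c) * ∑ z, √(K c (v c x) z * K c (v c w) z) :=
              mul_le_mul hww hK (exp_pos _).le (by positivity)
            _ = _ := by
              rw [mul_sum]
              refine sum_congr rfl fun z _ => ?_
              simp only [hΓ]
              rw [Real.sqrt_mul (wgt_nonneg _ _), Real.sqrt_mul (wgt_nonneg _ _), Real.sqrt_mul (hK0 _ _ _)]
              ring
        · exact sum_nonneg fun z _ => by positivity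
      refine le_trans ?_ (sum_le_sum fun c _ => hgood c)
      rw [← sum_filter, ← mul_sum]
      have hhalf : 1 / 2 ≤ ∑ c ∈ univ.filter (fun c => d x c ≤ R * ℓ), wgt d ℓ x c := by
        have hsplit := sum_filter_add_sum_filter_not univ (fun c => d x c ≤ R * ℓ) (wgt d ℓ x)
        rw [sum_wgt] at hsplit
        have hbad : ∑ c ∈ univ.filter (fun c => ¬ d x c ≤ R * ℓ), wgt d ℓ x c ≤ n * exp (-R) := by
          refine (sum_le_card_nsmul _ _ (exp (-R)) fun c hc => ?_).trans ?_
          · refine (wgt_le_exp hd0 x c).trans (exp_le_exp.2 (neg_le_neg ?_))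
            rw [le_div_iff₀ hℓ]
            exact (not_le.1 (mem_filter.1 hc).2).le
          · rw [nsmul_eq_mul]
            refine mul_le_mul_of_nonneg_right ?_ (exp_pos _).le
            exact_mod_cast (card_le_univ _).trans_eq (Fintype.card_fin n)
        have hsmall : (n : ℝ) * exp (-R) ≤ 1 / 2 := by
          rw [← Real.exp_log (show (0 : ℝ) < n by linarith), ← hL, ← exp_add]
          calc exp (L + -R) ≤ exp (-1) := exp_le_exp.2 (by linarith)
            _ ≤ 1 / 2 := by
              rw [exp_neg, inv_le_comm₀ (exp_pos _) (by norm_num)]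
              linarith [Real.exp_one_gt_d9]
        linarith
      rw [hα]
      calc exp (-1) * exp (-(C₁ / 8)) / 2 = exp (-1) * exp (-(C₁ / 8)) * (1 / 2) := by ring
        _ ≤ _ := mul_le_mul_of_nonneg_left hhalf (by positivity)
    set A : Fin n → ℝ := fun u => ∑ cz, Γ u cz * |(X cz.2) k - (X u) k| ^ p with hA
    have hA0 : ∀ u, 0 ≤ A u := fun u => sum_nonneg fun cz _ => mul_nonneg (hΓ0 u cz) (by positivity)
    have hΓ1 : ∀ u, ∑ cz, Γ u cz = 1 := fun u => by
      rw [Fintype.sum_prod_type]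
      simp only [hΓ, ← mul_sum, hK1, mul_one, sum_wgt]
    have hcs : ∀ u u' : Fin n, ∑ cz, √(Γ u cz) * √(Γ u' cz) * |(X cz.2) k - (X u) k| ^ (p / 2) ≤
        √(A u) := by
      intro u u'
      have h := Real.sum_sqrt_mul_sqrt_le (univ : Finset (Fin n × Fin n))
        (f := fun cz => Γ u cz * |(X cz.2) k - (X u) k| ^ p) (g := fun cz => Γ u' cz)
        (fun cz => mul_nonneg (hΓ0 _ _) (by positivity)) (fun cz => hΓ0 _ _)
      rw [hΓ1, Real.sqrt_one, mul_one] at h
      refine le_of_eq_of_le (sum_congr rfl fun cz _ => ?_) h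
      rw [Real.sqrt_mul (hΓ0 _ _), Real.sqrt_eq_rpow (|(X cz.2) k - (X u) k| ^ p),
        ← Real.rpow_mul (abs_nonneg _), show p * (1 / 2) = p / 2 by ring]
      ring
    set D := |(X x) k - (X w) k| with hD
    have h1 : α * D ^ (p / 2) ≤ 2 ^ (p / 2) * (√(A x) + √(A w)) := by
      refine (mul_le_mul_of_nonneg_right haff (by positivity)).trans ?_
      rw [sum_mul, mul_add]
      refine le_trans (sum_le_sum fun cz _ => mul_le_mul_of_nonneg_left
        ((Real.rpow_le_rpow (abs_nonneg _) (show D ≤ |(X cz.2) k - (X x) k| + |(X cz.2) k - (X w) k| by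
          rw [hD, abs_sub_comm ((X cz.2) k)]; exact abs_sub_le _ _ _) (by positivity)).trans
          (add_rpow_le (by positivity) (abs_nonneg _) (abs_nonneg _))) (by positivity)) ?_
      simp only [mul_add, sum_add_distrib]
      refine add_le_add ?_ ?_
      · refine le_of_eq_of_le ?_ (mul_le_mul_of_nonneg_left (hcs x w) (by positivity))
        rw [mul_sum]; exact sum_congr rfl fun cz _ => by ring
      · refine le_of_eq_of_le ?_ (mul_le_mul_of_nonneg_left (hcs w x) (by positivity))
        rw [mul_sum]; exact sum_congr rfl fun cz _ => by ring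
    have h2 : D ^ (p / 2) ≤ 2 ^ (p / 2) / α * (√(A x) + √(A w)) := by
      rw [div_mul_eq_mul_div, le_div_iff₀ hα0]; linarith
    have h3 : D ^ p ≤ Kc * (A x + A w) := by
      have h := pow_le_pow_left₀ (by positivity) h2 2
      rw [← Real.rpow_natCast (D ^ (p / 2)) 2, ← Real.rpow_mul (abs_nonneg _),
        show p / 2 * ((2 : ℕ) : ℝ) = p by push_cast; ring, mul_pow] at h
      refine h.trans ?_
      have h4 : (√(A x) + √(A w)) ^ 2 ≤ 2 * (A x + A w) := by
        nlinarith [sq_nonneg (√(A x) - √(A w)), Real.sq_sqrt (hA0 x), Real.sq_sqrt (hA0 w)]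
      refine (mul_le_mul_of_nonneg_left h4 (by positivity)).trans (le_of_eq ?_)
      rw [hKc]; ring
    refine h3.trans (le_of_eq ?_)
    simp only [hA]
    have : ℓ ^ p ≠ 0 := (Real.rpow_pos_of_pos hℓ p).ne'
    field_simp

end Vale.Agent.P249.Iso
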