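import Mathlib

/-!
The posterior kernel of a Gaussian channel on a finite set of points of a Euclidean space.
-/

namespace Vale.Agent.P249.Iso

open MeasureTheory Real Finset
open scoped BigOperators

/-- The standard Gaussian density. -/
noncomputable def gd (t : ℝ) : ℝ := ProbabilityTheory.gaussianPDFReal 0 1 t

lemma gd_eq (t : ℝ) : gd t = (√(2 * π))⁻¹ * exp (-(t ^ 2 / 2)) := by
  simp only [gd, ProbabilityTheory.gaussianPDFReal, NNReal.coe_one, sub_zero, mul_one]
  rw [neg_div]

lemma gd_pos (t : ℝ) : 0 < gd t := ProbabilityTheory.gaussianPDFReal_pos 0 1 t one_ne_zero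

lemma sqrt_gd_mul (u w : ℝ) :
    √(gd u * gd w) = exp (-((u - w) ^ 2 / 8)) * gd ((u + w) / 2) := by
  rw [← Real.sqrt_sq (mul_nonneg (exp_pos (-((u - w) ^ 2 / 8))).le (gd_pos ((u + w) / 2)).le)]
  congr 1
  simp only [gd_eq, mul_pow, ← Real.exp_nat_mul]
  rw [show exp (((2 : ℕ) : ℝ) * -((u - w) ^ 2 / 8)) * ((√(2 * π))⁻¹ ^ 2 *
      exp (((2 : ℕ) : ℝ) * -(((u + w) / 2) ^ 2 / 2))) = (√(2 * π))⁻¹ ^ 2 *
      exp (((2 : ℕ) : ℝ) * -((u - w) ^ 2 / 8) + ((2 : ℕ) : ℝ) * -(((u + w) / 2) ^ 2 / 2)) by
    rw [exp_add]; ring]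
  rw [show (((2 : ℕ) : ℝ) * -((u - w) ^ 2 / 8) + ((2 : ℕ) : ℝ) * -(((u + w) / 2) ^ 2 / 2)) =
    -(u ^ 2 / 2) + -(w ^ 2 / 2) by push_cast; ring, exp_add]
  ring

variable {m : ℕ}

/-- The product density centred at `a`. -/
noncomputable def dens (a y : Fin m → ℝ) : ℝ := ∏ i, gd (y i - a i)

lemma dens_pos (a y : Fin m → ℝ) : 0 < dens a y := prod_pos fun _ _ => gd_pos _

lemma integrable_dens (a : Fin m → ℝ) : Integrable (dens a) :=
  Integrable.fintype_prod fun i =>
    (ProbabilityTheory.integrable_gaussianPDFReal 0 1).comp_sub_right (a i)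

lemma integral_dens (a : Fin m → ℝ) : ∫ y, dens a y = 1 := by
  unfold dens
  rw [MeasureTheory.integral_fintype_prod_volume_eq_prod (fun i t => gd (t - a i))]
  refine prod_eq_one fun i _ => ?_
  simp only [gd]
  rw [integral_sub_right_eq_self (fun t => ProbabilityTheory.gaussianPDFReal 0 1 t) (a i)]
  exact ProbabilityTheory.integral_gaussianPDFReal_eq_one 0 one_ne_zero

lemma sqrt_dens_mul (a b y : Fin m → ℝ) :
    √(dens a y * dens b y) =
      exp (-((∑ i, (a i - b i) ^ 2) / 8)) * dens (fun i => (a i + b i) / 2) y := by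
  rw [dens, dens, ← prod_mul_distrib,
    Real.sqrt_prod univ (fun i _ => mul_nonneg (gd_pos _).le (gd_pos _).le), dens, sum_div,
    ← sum_neg_distrib, exp_sum, ← prod_mul_distrib]
  refine prod_congr rfl fun i _ => ?_
  rw [sqrt_gd_mul]
  congr 2 <;> ring_nf

lemma continuous_dens (a : Fin m → ℝ) : Continuous (dens a) := by
  unfold dens
  simp only [gd_eq]
  fun_prop

lemma sqrt_le_tilt {A B s : ℝ} (hA : 0 ≤ A) (hB : 0 ≤ B) (hs : 0 < s) :
    √(A * B) ≤ s / 2 * A + 1 / (2 * s) * B := by
  refine Real.sqrt_le_iff.2 ⟨by positivity, ?_⟩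
  have e : s / 2 * A * (1 / (2 * s) * B) = A * B / 4 := by field_simp; ring
  nlinarith [sq_nonneg (s / 2 * A - 1 / (2 * s) * B)]

lemma tilt_eq {A B : ℝ} (hA : 0 < A) (hB : 0 < B) :
    √B / √A / 2 * A + 1 / (2 * (√B / √A)) * B = √(A * B) := by
  have ha : 0 < √A := Real.sqrt_pos.2 hA
  have hb : 0 < √B := Real.sqrt_pos.2 hB
  obtain ⟨a, ha', rfl⟩ : ∃ a, 0 < a ∧ A = a ^ 2 := ⟨√A, ha, (Real.sq_sqrt hA.le).symm⟩
  obtain ⟨b, hb', rfl⟩ : ∃ b, 0 < b ∧ B = b ^ 2 := ⟨√B, hb, (Real.sq_sqrt hB.le).symm⟩
  rw [← mul_pow, Real.sqrt_sq ha'.le, Real.sqrt_sq hb'.le, Real.sqrt_sq (mul_pos ha' hb').le]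
  field_simp
  ring

lemma mul_div_le_sqrt {p q S : ℝ} (hp : 0 < p) (hq : 0 < q) (hS : p + q ≤ S) :
    p * q / S ≤ √(p * q) := by
  rw [div_le_iff₀ (by linarith)]
  have h2 : √(p * q) ≤ p + q := Real.sqrt_le_iff.2 ⟨by linarith, by nlinarith⟩
  calc p * q = √(p * q) * √(p * q) := (Real.mul_self_sqrt (mul_pos hp hq).le).symm
    _ ≤ √(p * q) * S := mul_le_mul_of_nonneg_left (h2.trans hS) (Real.sqrt_nonneg _)

/-- The posterior kernel. -/
theorem gauss_kernel {Z : Type*} [Fintype Z] [Nonempty Z] (v : Z → Fin m → ℝ) :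
    ∃ K : (Fin m → ℝ) → Z → ℝ, (∀ a z, 0 ≤ K a z) ∧ (∀ a, ∑ z, K a z = 1) ∧
      (∀ a b, exp (-((∑ i, (a i - b i) ^ 2) / 8)) ≤ ∑ z, √(K a z * K b z)) ∧
      (∀ z₀ z, K (v z₀) z ≤ exp (-((∑ i, (v z₀ i - v z i) ^ 2) / 8))) := by
  classical
  set S : (Fin m → ℝ) → ℝ := fun y => ∑ z, dens (v z) y with hS
  have hSpos : ∀ y, 0 < S y := fun y => sum_pos (fun z _ => dens_pos _ _) univ_nonempty
  have hScont : Continuous S := continuous_finsetSum _ fun z _ => continuous_dens _
  set f : Z → (Fin m → ℝ) → ℝ := fun z y => dens (v z) y / S y with hf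
  have hf0 : ∀ z y, 0 < f z y := fun z y => div_pos (dens_pos _ _) (hSpos y)
  have hf1 : ∀ z y, f z y ≤ 1 := fun z y => by
    rw [hf, div_le_one (hSpos y)]
    exact single_le_sum (fun z _ => (dens_pos (v z) y).le) (mem_univ z)
  have hfsum : ∀ y, ∑ z, f z y = 1 := fun y => by
    simp only [hf, ← sum_div]; exact div_self (hSpos y).ne'
  have hfm : ∀ z, AEStronglyMeasurable (f z) volume := fun z =>
    ((continuous_dens (v z)).div hScont fun y => (hSpos y).ne').aestronglyMeasurable
  have hint : ∀ a z, Integrable fun y => dens a y * f z y := fun a z =>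
    (integrable_dens a).mul_bdd (c := 1) (hfm z)
      (Filter.Eventually.of_forall fun y => by
        rw [Real.norm_eq_abs, abs_of_pos (hf0 z y)]; exact hf1 z y)
  set K : (Fin m → ℝ) → Z → ℝ := fun a z => ∫ y, dens a y * f z y with hK
  have hK0 : ∀ a z, 0 < K a z := fun a z => by
    rw [hK, integral_pos_iff_support_of_nonneg (fun y => (mul_pos (dens_pos a y) (hf0 z y)).le)
      (hint a z)]
    have : (Function.support fun y => dens a y * f z y) = Set.univ :=
      Set.eq_univ_of_forall fun y => (mul_pos (dens_pos a y) (hf0 z y)).ne'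
    rw [this]
    exact Measure.measure_univ_pos.2 (NeZero.ne _)
  refine ⟨K, fun a z => (hK0 a z).le, fun a => ?_, fun a b => ?_, fun z₀ z => ?_⟩
  · simp only [hK]
    rw [← integral_finsetSum _ fun z _ => hint a z]
    simp only [← mul_sum, hfsum, mul_one]
    exact integral_dens a
  · set E := exp (-((∑ i, (a i - b i) ^ 2) / 8)) with hE
    set c : Fin m → ℝ := fun i => (a i + b i) / 2 with hc
    calc E = E * ∑ z, ∫ y, dens c y * f z y := by
          rw [← integral_finsetSum _ fun z _ => hint c z]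
          simp only [← mul_sum, hfsum, mul_one, integral_dens]
      _ = ∑ z, ∫ y, E * (dens c y * f z y) := by rw [mul_sum]; simp only [integral_const_mul]
      _ ≤ _ := by
          refine sum_le_sum fun z _ => ?_
          set A := K a z with hA
          set B := K b z with hB
          have hA0 : 0 < A := hK0 a z
          have hB0 : 0 < B := hK0 b z
          set s := √B / √A with hs
          have hs0 : 0 < s := by positivity
          calc ∫ y, E * (dens c y * f z y)
              ≤ ∫ y, (s / 2 * (dens a y * f z y) + 1 / (2 * s) * (dens b y * f z y)) := by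
                refine integral_mono ((hint c z).const_mul E)
                  (((hint a z).const_mul _).add ((hint b z).const_mul _)) fun y => ?_
                have h1 : E * dens c y ≤ s / 2 * dens a y + 1 / (2 * s) * dens b y := by
                  rw [hE, hc, ← sqrt_dens_mul]
                  exact sqrt_le_tilt (dens_pos a y).le (dens_pos b y).le hs0
                have := mul_le_mul_of_nonneg_right h1 (hf0 z y).le
                simp only [Pi.add_apply]
                linarith
            _ = s / 2 * A + 1 / (2 * s) * B := by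
                rw [integral_add ((hint a z).const_mul _) ((hint b z).const_mul _),
                  integral_const_mul, integral_const_mul]
            _ = √(A * B) := tilt_eq hA0 hB0
  · by_cases h : z₀ = z
    · subst h
      simp only [sub_self, ne_eq, OfNat.ofNat_ne_zero, not_false_eq_true, zero_pow, sum_const_zero,
        zero_div, neg_zero, exp_zero]
      calc K (v z₀) z₀ ≤ ∫ y, dens (v z₀) y := integral_mono (hint _ _) (integrable_dens _)
            fun y => mul_le_of_le_one_right (dens_pos _ _).le (hf1 _ _)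
        _ = 1 := integral_dens _
    · set E := exp (-((∑ i, (v z₀ i - v z i) ^ 2) / 8)) with hE
      set c : Fin m → ℝ := fun i => (v z₀ i + v z i) / 2 with hc
      calc K (v z₀) z ≤ ∫ y, E * dens c y := by
            refine integral_mono (hint _ _) ((integrable_dens c).const_mul E) fun y => ?_
            rw [hE, hc, ← sqrt_dens_mul]
            simp only [hf]
            rw [mul_div_assoc']
            refine mul_div_le_sqrt (dens_pos _ _) (dens_pos _ _) ?_
            rw [hS]
            exact (sum_pair (f := fun w => dens (v w) y) h).symm.le.trans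
              (sum_le_univ_sum_of_nonneg fun w => (dens_pos _ _).le)
        _ = E := by rw [integral_const_mul, integral_dens, mul_one]

end Vale.Agent.P249.Iso
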