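import Vale.Agent.P249.NearLinear
import Vale.Agent.P249.IsoEmbed

/-!
Sublinear dimension at every distortion above one, for `p > 1`.
-/

namespace Vale.Agent.P249.Iso

open MeasureTheory Real Finset Vale.Agent.P249
open scoped BigOperators

lemma log_pow_le {a e : ℝ} (ha : 0 < a) (he : 0 < e) : ∃ K : ℝ, 0 < K ∧ ∀ n : ℝ, 1 ≤ n →
    Real.log n ^ a ≤ K * n ^ e := by
  refine ⟨(a / e) ^ a, by positivity, fun n hn => ?_⟩
  have h := Real.log_le_rpow_div (show 0 ≤ n by linarith) (show 0 < e / a by positivity)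
  refine (Real.rpow_le_rpow (Real.log_nonneg hn) h ha.le).trans (le_of_eq ?_)
  rw [Real.div_rpow (by positivity) (by positivity), ← Real.rpow_mul (by linarith),
    div_mul_cancel₀ _ ha.ne', Real.div_rpow he.le ha.le, Real.div_rpow ha.le he.le]
  field_simp

lemma pad {p : ℝ} (hp : 0 < p) {D D' : ℕ} (h : D ≤ D') {n : ℕ} (F : Fin n → Fin D → ℝ) :
    ∃ F' : Fin n → Fin D' → ℝ, ∀ x w, ∑ l, |F' x l - F' w l| ^ p = ∑ l, |F x l - F w l| ^ p := by
  refine ⟨fun x l => if hl : (l : ℕ) < D then F x ⟨l, hl⟩ else 0, fun x w => ?_⟩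
  rw [← sum_subset (subset_univ ((univ : Finset (Fin D)).map (Fin.castLEEmb h))) fun l _ hl => ?_]
  · rw [sum_map]
    refine sum_congr rfl fun l _ => ?_
    simp
  · have : ¬ (l : ℕ) < D := fun hlt => hl (mem_map.2 ⟨⟨l, hlt⟩, mem_univ _, Fin.ext rfl⟩)
    simp [this, Real.zero_rpow hp.ne']

lemma flat_bound {p ε L lg W m T e : ℝ} (hε : 0 < ε) (hL : 1 ≤ L) (hlg : lg ≤ 4 * L) (hlg0 : 0 ≤ lg)
    (hm : 0 ≤ m) (he : 0 ≤ e) (hT : T = 2 ^ p * e) (hW : W = e * m + 1) :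
    4 * (T * m + 1) / ε ^ 2 * lg + 2 ≤ (4 * ((2 : ℝ) ^ p + 1) / ε ^ 2 * 4 + 2) * W * L := by
  have hem : 0 ≤ e * m := mul_nonneg he hm
  have h2p : 0 ≤ (2 : ℝ) ^ p := by positivity
  have hW1 : 1 ≤ W := by linarith
  have h1 : T * m + 1 ≤ ((2 : ℝ) ^ p + 1) * W := by rw [hT, hW]; nlinarith
  have h0 : 0 ≤ T * m + 1 := by rw [hT]; positivity
  have h2 : 4 * (T * m + 1) / ε ^ 2 * lg ≤ 4 * (((2 : ℝ) ^ p + 1) * W) / ε ^ 2 * (4 * L) := by gcongr
  have h3 : (1 : ℝ) ≤ W * L := one_le_mul_of_one_le_of_one_le hW1 hL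
  calc 4 * (T * m + 1) / ε ^ 2 * lg + 2
      ≤ 4 * (((2 : ℝ) ^ p + 1) * W) / ε ^ 2 * (4 * L) + 2 * (W * L) := add_le_add h2 (by linarith)
    _ = _ := by ring

lemma sparse_bound {p ε L lg Q N B Z n γ : ℝ} (hp : 0 < p) (hε : 0 < ε) (hε1 : ε ≤ 1) (hL : 1 ≤ L)
    (hlg : lg ≤ 4 * L) (hlg0 : 0 ≤ lg) (hQ : 1 ≤ Q) (hN : 0 ≤ N) (hn : 0 ≤ n) (hB0 : 0 ≤ B)
    (hB : B ≤ Q ^ p * Q ^ 2 / ε + 1) (hZ0 : 0 ≤ Z)
    (hQZ : Q ≤ Z * (L ^ p * n ^ (2 * γ * p))) :
    B * (4 * (Q ^ p * N + 1) / ε ^ 2 * lg + 2) ≤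
      2 / ε * (4 * (N + 1) / ε ^ 2 * 4 + 2) * Z ^ (2 * p + 2) *
        n ^ (4 * γ * p * (p + 1)) * L ^ (2 * p * (p + 1) + 1) := by
  have hqp : 1 ≤ Q ^ p := Real.one_le_rpow hQ hp.le
  have h' : (1 : ℝ) ≤ Q ^ p * Q ^ 2 / ε := by
    rw [le_div_iff₀ hε, one_mul]
    exact hε1.trans (one_le_mul_of_one_le_of_one_le hqp (one_le_pow₀ hQ))
  have hB1 : B ≤ 2 / ε * (Q ^ p * Q ^ 2) := by
    rw [show 2 / ε * (Q ^ p * Q ^ 2) = 2 * (Q ^ p * Q ^ 2 / ε) by ring]
    linarith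
  have h2 : 4 * (Q ^ p * N + 1) / ε ^ 2 * lg + 2 ≤
      (4 * (N + 1) / ε ^ 2 * 4 + 2) * (Q ^ p * L) := by
    have h3 : Q ^ p * N + 1 ≤ (N + 1) * Q ^ p := by linarith
    have h4 : 4 * (Q ^ p * N + 1) / ε ^ 2 * lg ≤ 4 * ((N + 1) * Q ^ p) / ε ^ 2 * (4 * L) := by gcongr
    have h5 : (1 : ℝ) ≤ Q ^ p * L := one_le_mul_of_one_le_of_one_le hqp hL
    calc 4 * (Q ^ p * N + 1) / ε ^ 2 * lg + 2
        ≤ 4 * ((N + 1) * Q ^ p) / ε ^ 2 * (4 * L) + 2 * (Q ^ p * L) := add_le_add h4 (by linarith)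
      _ = _ := by ring
  calc B * (4 * (Q ^ p * N + 1) / ε ^ 2 * lg + 2)
      ≤ 2 / ε * (Q ^ p * Q ^ 2) * ((4 * (N + 1) / ε ^ 2 * 4 + 2) * (Q ^ p * L)) :=
        mul_le_mul hB1 h2 (by positivity) (by positivity)
    _ = 2 / ε * (4 * (N + 1) / ε ^ 2 * 4 + 2) * (Q ^ (2 * p + 2) * L) := by
        rw [show 2 * p + 2 = p + p + 2 by ring, Real.rpow_add (by linarith), Real.rpow_add (by linarith),
          Real.rpow_two]
        ring
    _ ≤ 2 / ε * (4 * (N + 1) / ε ^ 2 * 4 + 2) * ((Z * (L ^ p * n ^ (2 * γ * p))) ^ (2 * p + 2) * L) := by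
        gcongr
    _ = _ := by
        rw [Real.mul_rpow hZ0 (by positivity), Real.mul_rpow (by positivity) (by positivity),
          ← Real.rpow_mul (by linarith : 0 ≤ L), ← Real.rpow_mul hn,
          Real.rpow_add_one (show L ≠ 0 by linarith)]
        ring_nf

/-- The final dimension count. -/
lemma dim_bound {C Cs K₁ K₂ K₃ L n M P Q R W U V : ℝ} (hC : 0 ≤ C) (hM : M * L ≤ Cs * n * W + L)
    (hP0 : 0 ≤ P) (hP1 : P ≤ 1) (hL : 0 ≤ L) (hn : 0 ≤ n) (hCs : 0 ≤ Cs) (hW : W ≤ K₁ * Q)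
    (hPQ : P * (n * Q) = R) (hUV : U * V ≤ K₂ * R) (hLR : L ≤ K₃ * R) :
    C * (P * M + 1) * L + C * U * V ≤ C * (Cs * K₁ + 2 * K₃ + K₂) * R := by
  have h1 : P * (M * L) ≤ Cs * K₁ * R + L := by
    refine (mul_le_mul_of_nonneg_left hM hP0).trans ?_
    rw [mul_add]
    refine add_le_add ?_ (mul_le_of_le_one_left hL hP1)
    calc P * (Cs * n * W) ≤ P * (Cs * n * (K₁ * Q)) := by gcongr
      _ = Cs * K₁ * (P * (n * Q)) := by ring
      _ = _ := by rw [hPQ]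
  have := mul_le_mul_of_nonneg_left (add_le_add h1 hUV) hC
  have := mul_le_mul_of_nonneg_left hLR hC
  linarith

lemma ratio_bound {p u D : ℝ} (hp : 0 < p) (hu0 : 0 ≤ u) (hu : u ≤ 1 / 2) (hD : 0 ≤ D)
    (hDu : 1 + 4 * u ≤ D ^ p) : (1 + u) ^ (1 / p) ≤ D * (1 - u) ^ (1 / p) := by
  have h1 : 1 + u ≤ D ^ p * (1 - u) := by
    refine le_trans ?_ (mul_le_mul_of_nonneg_right hDu (by linarith))
    nlinarith
  refine (rpow_le_rpow (by linarith) h1 (by positivity)).trans (le_of_eq ?_)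
  rw [mul_rpow (by positivity) (by linarith), ← rpow_mul hD, mul_one_div_cancel hp.ne', rpow_one]

variable {p : ℝ} [Fact (1 ≤ ENNReal.ofReal p)]

set_option maxHeartbeats 1000000 in
/-- The reduction for finite-dimensional sets: `n ^ (-γ)` of the dimension and a small power. -/
theorem exists_reduction (hp : 1 < p) {ε : ℝ} (hε : 0 < ε) (hε1 : ε ≤ 1) {γ : ℝ} (hγ : 0 < γ) :
    ∃ C : ℝ, 0 < C ∧ ∃ n₀ : ℕ, ∀ n : ℕ, n₀ ≤ n → ∀ m : ℕ, 1 ≤ m → ∀ X : Fin n → Lq p m,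
      Function.Injective X → ∃ D : ℕ,
        (D : ℝ) ≤ C * ((n : ℝ) ^ (-(γ * p)) * m + 1) * Real.log n +
          C * (n : ℝ) ^ (4 * γ * p * (p + 1)) * Real.log n ^ (2 * p * (p + 1) + 1) ∧
        ∃ F : Fin n → Fin D → ℝ, ∀ x w,
          |(∑ l, |F x l - F w l| ^ p) - ‖X x - X w‖ ^ p| ≤ 12 * ε * ‖X x - X w‖ ^ p := by
  classical
  have hp0 : 0 < p := by linarith
  obtain ⟨C₀, hC₀, hsplit⟩ := exists_split hp.le (show 0 < ε / 4 by linarith) (by linarith)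
  set N := ⌈4 * C₀ / ε⌉₊ + 1 with hN
  have hN0 : (0 : ℝ) < N := by rw [hN]; positivity
  have hCN : C₀ ≤ ε / 4 * N := by
    have h := (Nat.le_ceil (4 * C₀ / ε)).trans (le_add_of_nonneg_right zero_le_one)
    rw [div_le_iff₀ hε] at h
    rw [hN]; push_cast
    linarith
  set κ := ε * N / (8 * (C₀ + 1) * (2 * (N : ℝ) / γ) ^ p) with hκ
  have hκ0 : 0 < κ := by positivity
  obtain ⟨n₁, hpot⟩ := exists_potential (p := p) hp κ hκ0
  set Kq := 2 * κ + 3 with hKq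
  set Kl : ℝ := 4 * ((2 : ℝ) ^ p + 1) / ε ^ 2 * 4 + 2 with hKl
  set Ks : ℝ := (2 / ε) * (4 * ((N : ℝ) + 1) / ε ^ 2 * 4 + 2) * Kq ^ (2 * p + 2) with hKs
  refine ⟨Kl + Ks, by positivity, max n₁ (max 3 ⌈exp (2 * N / γ)⌉₊), fun n hn m hm X hX => ?_⟩
  have hn3 : 3 ≤ n := (le_max_left _ _).trans ((le_max_right _ _).trans hn)
  have hn3r : (3 : ℝ) ≤ n := by exact_mod_cast hn3
  set L := Real.log n with hL
  have hLbig : 2 * N / γ ≤ L := by
    rw [hL, Real.le_log_iff_exp_le (by linarith)]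
    exact (Nat.le_ceil _).trans
      (by exact_mod_cast (le_max_right _ _).trans ((le_max_right _ _).trans hn))
  have hL1 : 1 ≤ L := by
    rw [hL, Real.le_log_iff_exp_le (by linarith)]
    linarith [Real.exp_one_lt_three]
  obtain ⟨F, hF0, hF, hFmass⟩ := hpot n ((le_max_left _ _).trans hn) m X hX
  set J := ⌊γ * L / N⌋₊ with hJ
  have hJ2 : 2 ≤ γ * L / N := by
    rw [le_div_iff₀ hN0]
    rw [div_le_iff₀ hγ] at hLbig
    linarith
  have hJle : (J : ℝ) ≤ γ * L / N := Nat.floor_le (by linarith)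
  have hJge : γ * L / (2 * N) ≤ J := by
    have h := Nat.lt_floor_add_one (γ * L / N)
    have e : γ * L / (2 * N) = γ * L / N / 2 := by ring
    rw [e]; linarith
  have hJ1 : 1 ≤ J := Nat.le_floor (by push_cast; linarith)
  set T := exp (-(γ * L)) with hT
  obtain ⟨Y, hYlip, hYsupp, hYsum⟩ := hsplit N J hJ1 n m X F hF0 hF T (exp_pos _)
  set a := κ * L ^ p * (n : ℝ) ^ (2 * γ * p) with ha
  have ha0 : 0 ≤ a := by positivity
  set q := 2 * ⌈a⌉₊ + 1 with hq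
  have hcount : ∀ x, ((univ.filter fun k => T * exp (-((N * J : ℕ) : ℝ)) < F x k).card : ℝ) ≤ a := by
    intro x
    set b := exp (-(2 * γ * L)) with hb
    have hbT : b ≤ T * exp (-((N * J : ℕ) : ℝ)) := by
      rw [hb, hT, ← exp_add]
      refine exp_le_exp.2 ?_
      push_cast
      rw [le_div_iff₀ hN0] at hJle
      linarith
    have h1 : ((univ.filter fun k => T * exp (-((N * J : ℕ) : ℝ)) < F x k).card : ℝ) * b ^ p ≤
        κ * L ^ p := by
      rw [← nsmul_eq_mul, ← sum_const]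
      refine (sum_le_sum fun k hk => ?_).trans
        ((sum_le_univ_sum_of_nonneg fun k => Real.rpow_nonneg (hF0 x k) p).trans (hFmass x))
      exact Real.rpow_le_rpow (exp_pos _).le (hbT.trans (mem_filter.1 hk).2.le) hp0.le
    have hbp : b ^ p = ((n : ℝ) ^ (2 * γ * p))⁻¹ := by
      rw [hb, ← Real.exp_mul, Real.rpow_def_of_pos (by linarith), ← exp_neg, hL]
      ring_nf
    rw [hbp, ← div_eq_mul_inv, div_le_iff₀ (by positivity)] at h1
    exact h1
  have hsupp : ∀ j x w, (univ.filter fun k =>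
      ((X x) k - Y j x k) - ((X w) k - Y j w k) ≠ 0).card ≤ q := by
    intro j x w
    have hsub : (univ.filter fun k => ((X x) k - Y j x k) - ((X w) k - Y j w k) ≠ 0) ⊆
        (univ.filter fun k => T * exp (-((N * J : ℕ) : ℝ)) < F x k) ∪
          (univ.filter fun k => T * exp (-((N * J : ℕ) : ℝ)) < F w k) := by
      intro k hk
      simp only [mem_filter, mem_univ, true_and, mem_union] at hk ⊢
      by_contra hcon
      rw [not_or] at hcon
      apply hk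
      rw [show Y j x k = (X x) k from by_contra fun h => hcon.1 (hYsupp j x k h),
        show Y j w k = (X w) k from by_contra fun h => hcon.2 (hYsupp j w k h), sub_self, sub_self,
        sub_self]
    refine (card_le_card hsub).trans ((card_union_le _ _).trans ?_)
    have h1 : ∀ x, (univ.filter fun k => T * exp (-((N * J : ℕ) : ℝ)) < F x k).card ≤ ⌈a⌉₊ := fun x => by
      exact_mod_cast (hcount x).trans (Nat.le_ceil a)
    have := h1 x; have := h1 w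
    omega
  have hsum : ∀ x w, |(∑ j, ∑ k, (|Y j x k - Y j w k| ^ p +
      |((X x) k - Y j x k) - ((X w) k - Y j w k)| ^ p)) - N * ‖X x - X w‖ ^ p| ≤
        ε * N * ‖X x - X w‖ ^ p := by
    intro x w
    refine (hYsum x w).trans ?_
    set d := ‖X x - X w‖
    have hd : 0 ≤ d ^ p := Real.rpow_nonneg (norm_nonneg _) p
    have h1 : (d / (J : ℝ)) ^ p ≤ d ^ p * ((2 * (N : ℝ) / γ) ^ p / L ^ p) := by
      rw [← Real.div_rpow (by positivity) (by linarith), ← Real.mul_rpow (norm_nonneg _) (by positivity)]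
      refine Real.rpow_le_rpow (by positivity) ?_ hp0.le
      rw [div_eq_mul_inv]
      refine mul_le_mul_of_nonneg_left ?_ (norm_nonneg _)
      rw [inv_eq_one_div, div_div, div_le_div_iff₀ (by exact_mod_cast hJ1) (by positivity), one_mul]
      rw [div_le_iff₀ (by positivity)] at hJge
      linarith
    have h2 : ∑ k, F x k ^ p + ∑ k, F w k ^ p ≤ 2 * κ * L ^ p := by linarith [hFmass x, hFmass w]
    have h3 : C₀ * (d / (J : ℝ)) ^ p * (∑ k, F x k ^ p + ∑ k, F w k ^ p) ≤ ε / 4 * N * d ^ p := by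
      calc C₀ * (d / (J : ℝ)) ^ p * (∑ k, F x k ^ p + ∑ k, F w k ^ p)
          ≤ (C₀ + 1) * (d ^ p * ((2 * (N : ℝ) / γ) ^ p / L ^ p)) * (2 * κ * L ^ p) := by
            refine mul_le_mul (mul_le_mul (by linarith) h1 (by positivity) (by linarith)) h2
              (add_nonneg (sum_nonneg fun k _ => Real.rpow_nonneg (hF0 x k) p)
                (sum_nonneg fun k _ => Real.rpow_nonneg (hF0 w k) p)) (by positivity)
        _ = ε / 4 * N * d ^ p := by rw [hκ]; field_simp; ring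
    have h4 := mul_le_mul_of_nonneg_right hCN hd
    have h5 := mul_nonneg (mul_nonneg hε.le hN0.le) hd
    linarith
  set B := ⌈(q : ℝ) ^ p * (q : ℝ) ^ 2 / ε⌉₊ with hB
  have hqB : (q : ℝ) ^ p * (q : ℝ) ^ 2 ≤ ε * B := by
    rw [← div_le_iff₀' hε]; exact Nat.le_ceil _
  obtain ⟨D, hD, G, hG⟩ := embed_split hp.le hε hε1 hm (show 1 ≤ N by omega) (show 1 ≤ q by omega) hqB
    X hX Y (exp_pos (-(γ * L))).le hYlip hsupp hsum
  refine ⟨D, hD.trans ?_, G, hG⟩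
  set lg := Real.log (2 * (n : ℝ) ^ 2 + 1) with hlg
  have hlg4 : lg ≤ 4 * L := by
    rw [hL, show 4 * Real.log (n : ℝ) = Real.log ((n : ℝ) ^ 4) by rw [Real.log_pow]; norm_num]
    refine Real.log_le_log (by positivity) ?_
    nlinarith [sq_nonneg ((n : ℝ) ^ 2 - 2)]
  have hlg0 : 0 ≤ lg := Real.log_nonneg (by nlinarith)
  have hn1 : (1 : ℝ) ≤ n := by linarith
  set E := 2 * p * (p + 1) with hE
  set U := (n : ℝ) ^ (4 * γ * p * (p + 1)) with hU
  have hflat : 4 * ((2 * exp (-(γ * L))) ^ p * m + 1) / ε ^ 2 * lg + 2 ≤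
      Kl * ((n : ℝ) ^ (-(γ * p)) * m + 1) * L := by
    rw [hKl]
    refine flat_bound hε hL1 hlg4 hlg0 (Nat.cast_nonneg m) (by positivity) ?_ rfl
    rw [Real.mul_rpow two_pos.le (exp_pos _).le, ← Real.exp_mul,
      Real.rpow_def_of_pos (show (0 : ℝ) < n by linarith), hL]
    ring_nf
  have hq1 : (1 : ℝ) ≤ q := by exact_mod_cast (show 1 ≤ q by omega)
  have hqb : (q : ℝ) ≤ Kq * (L ^ p * (n : ℝ) ^ (2 * γ * p)) := by
    have h1 : (1 : ℝ) ≤ L ^ p * (n : ℝ) ^ (2 * γ * p) :=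
      one_le_mul_of_one_le_of_one_le (Real.one_le_rpow hL1 hp0.le)
        (Real.one_le_rpow hn1 (by positivity))
    have h := Nat.ceil_lt_add_one ha0
    rw [hq, hKq]; push_cast
    rw [ha] at h ⊢
    linarith
  have hsparse : (B : ℝ) * (4 * ((q : ℝ) ^ p * N + 1) / ε ^ 2 * lg + 2) ≤ Ks * U * L ^ (E + 1) := by
    rw [hKs]
    exact sparse_bound hp0 hε hε1 hL1 hlg4 hlg0 hq1 hN0.le (Nat.cast_nonneg n) (Nat.cast_nonneg B)
      (Nat.ceil_lt_add_one (by positivity)).le (by positivity) hqb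
  have h0 : 0 ≤ ((n : ℝ) ^ (-(γ * p)) * m + 1) * L := by positivity
  have h1 : 0 ≤ U * L ^ (E + 1) := by positivity
  have hKl0 : 0 ≤ Kl := by positivity
  have hKs0 : 0 ≤ Ks := by positivity
  have h6 := mul_nonneg hKs0 h0
  have h7 := mul_nonneg hKl0 h1
  linarith

/-- Sublinear dimension at every distortion `D > 1`. -/
theorem exists_sublinear (hp : 1 < p) {D : ℝ} (hD : 1 < D) :
    ∃ c C : ℝ, 0 < c ∧ ∀ n : ℕ, 2 ≤ n → ∃ N : ℕ, (N : ℝ) ≤ C * (n : ℝ) ^ (1 - c) ∧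
      ∀ (Ω : Type) (mΩ : MeasurableSpace Ω) (μ : @Measure Ω mΩ)
        (x : Fin n → Lp ℝ (ENNReal.ofReal p) μ), Function.Injective x →
        ∃ F : Fin n → Fin N → ℝ, ∃ s : ℝ, 0 < s ∧ ∀ i j,
          s * ‖x i - x j‖ ≤ (∑ k, |F i k - F j k| ^ p) ^ (1 / p) ∧
          (∑ k, |F i k - F j k| ^ p) ^ (1 / p) ≤ D * (s * ‖x i - x j‖) := by
  classical
  have hp0 : 0 < p := by linarith
  set D₁ := D ^ (1 / 2 : ℝ) with hD₁
  have hD1 : 1 < D₁ := one_lt_rpow hD (by norm_num)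
  have hD₁sq : D₁ * D₁ = D := by
    rw [hD₁, ← rpow_add (by linarith)]; norm_num
  obtain ⟨C₁, hC₁⟩ := Vale.Agent.P249.NearLinear.near_linear p hp.le D₁ hD1
  have hDp : 1 < D₁ ^ p := one_lt_rpow hD1 hp0
  set ε := min (1 / 24) ((D₁ ^ p - 1) / 48) with hε
  have hε0 : 0 < ε := lt_min (by norm_num) (by linarith)
  have hε24 : ε ≤ 1 / 24 := min_le_left _ _
  have hεD : 48 * ε ≤ D₁ ^ p - 1 := by
    linarith [show ε ≤ (D₁ ^ p - 1) / 48 from min_le_right _ _]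
  set γ := 1 / (8 * p * (p + 3)) with hγ
  have hγ0 : 0 < γ := by positivity
  obtain ⟨C, hC, n₀, hred⟩ := exists_reduction (p := p) hp hε0 (by linarith) hγ0
  set c := γ * p / 2 with hc
  have hc0 : 0 < c := by positivity
  have hcval : c = 1 / (16 * (p + 3)) := by rw [hc, hγ]; field_simp; ring
  have hc4 : c ≤ 1 / 16 := by
    rw [hcval]; exact div_le_div_of_nonneg_left one_pos.le (by norm_num) (by linarith)
  obtain ⟨K₁, hK₁, hl₁⟩ := log_pow_le (show 0 < p + 2 by linarith) hc0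
  obtain ⟨K₂, hK₂, hl₂⟩ := log_pow_le (show 0 < 2 * p * (p + 1) + 1 by positivity)
    (show 0 < (1 : ℝ) / 4 by norm_num)
  obtain ⟨K₃, hK₃, hl₃⟩ := log_pow_le one_pos (show 0 < 1 - c by linarith)
  choose Mf hMf using hC₁
  set Cs := (C₁ ⊔ 0) + 1 with hCs
  set Small : ℝ := ∑ k ∈ range (n₀ + 1), if h : 2 ≤ k then (Mf k h : ℝ) else 0 with hSmall
  have hSmall0 : 0 ≤ Small := sum_nonneg fun k _ => by split_ifs <;> simp
  refine ⟨c, Small + C * (Cs * K₁ + 2 * K₃ + K₂) + 1, hc0, fun n hn => ?_⟩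
  have hn1 : (1 : ℝ) ≤ n := by exact_mod_cast (show 1 ≤ n by omega)
  have hnpow : 1 ≤ (n : ℝ) ^ (1 - c) := Real.one_le_rpow hn1 (by linarith)
  have hbig0 : 0 ≤ C * (Cs * K₁ + 2 * K₃ + K₂) := by positivity
  obtain ⟨hM, hMemb⟩ := hMf n hn
  set M := Mf n hn with hMdef
  rcases le_or_gt n n₀ with hsm | hlg
  · refine ⟨M, ?_, fun Ω mΩ μ x hx => ?_⟩
    · have h1 : (M : ℝ) ≤ Small := by
        refine le_trans (le_of_eq ?_) (single_le_sum
          (f := fun k => if h : 2 ≤ k then (Mf k h : ℝ) else 0)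
          (fun k _ => by split_ifs <;> simp) (mem_range.2 (by omega : n < n₀ + 1)))
        simp only [dif_pos hn, hMdef]
      calc (M : ℝ) ≤ (Small + C * (Cs * K₁ + 2 * K₃ + K₂) + 1) * 1 := by linarith
        _ ≤ _ := mul_le_mul_of_nonneg_left hnpow (by linarith)
    · obtain ⟨F, s, hs, hF⟩ := hMemb Ω mΩ μ x hx
      refine ⟨F, s, hs, fun i j => ⟨(hF i j).1, (hF i j).2.trans ?_⟩⟩
      rw [mul_assoc]
      refine mul_le_mul_of_nonneg_right ?_ (mul_nonneg hs.le ?_)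
      · rw [← hD₁sq]; exact le_mul_of_one_le_left (by linarith) hD1.le
      · have : Fact (1 ≤ ENNReal.ofReal p) := inferInstance
        exact norm_nonneg _
  set bound := C * ((n : ℝ) ^ (-(γ * p)) * (max M 1 : ℕ) + 1) * Real.log n +
    C * (n : ℝ) ^ (4 * γ * p * (p + 1)) * Real.log n ^ (2 * p * (p + 1) + 1) with hbound
  have hl0 : 0 ≤ Real.log (n : ℝ) := Real.log_nonneg hn1
  have hb0 : 0 ≤ bound := by positivity
  refine ⟨⌊bound⌋₊, (Nat.floor_le hb0).trans ?_, fun Ω mΩ μ x hx => ?_⟩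
  · -- the dimension
    have hMb : ((max M 1 : ℕ) : ℝ) * Real.log n ≤ Cs * n * Real.log n ^ (p + 2) + Real.log n := by
      rw [Nat.cast_max, Nat.cast_one]
      have hR : (0 : ℝ) ≤ (n : ℝ) * Real.log n ^ (p + 1) := by positivity
      have e : Real.log (n : ℝ) ^ (p + 2) = Real.log n ^ (p + 1) * Real.log n := by
        rw [show p + 2 = p + 1 + 1 by ring, Real.rpow_add_one' hl0 (by linarith)]
      have h1 : (M : ℝ) ≤ Cs * ((n : ℝ) * Real.log n ^ (p + 1)) := by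
        refine hM.trans ?_
        rw [mul_assoc]
        exact mul_le_mul_of_nonneg_right (by rw [hCs]; linarith [le_max_left C₁ 0]) hR
      have h2 : max (M : ℝ) 1 ≤ Cs * ((n : ℝ) * Real.log n ^ (p + 1)) + 1 :=
        max_le (by linarith) (le_add_of_nonneg_left (by positivity))
      have h3 := mul_le_mul_of_nonneg_right h2 hl0
      rw [e]
      linarith
    have hC3 := hl₃ n hn1
    rw [Real.rpow_one] at hC3
    have e1 : (n : ℝ) ^ (-(γ * p)) * ((n : ℝ) * (n : ℝ) ^ c) = (n : ℝ) ^ (1 - c) := by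
      rw [← Real.rpow_one_add' (by linarith) (by linarith), ← Real.rpow_add (by linarith), hc]
      ring_nf
    have g2 : (n : ℝ) ^ (4 * γ * p * (p + 1)) * Real.log n ^ (2 * p * (p + 1) + 1) ≤
        K₂ * (n : ℝ) ^ (1 - c) := by
      refine (mul_le_mul_of_nonneg_left (hl₂ n hn1) (by positivity)).trans ?_
      rw [mul_left_comm, ← Real.rpow_add (by linarith)]
      refine mul_le_mul_of_nonneg_left (Real.rpow_le_rpow_of_exponent_le hn1 ?_) hK₂.le
      have : 4 * γ * p * (p + 1) ≤ 1 / 2 := by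
        rw [hγ, show 4 * (1 / (8 * p * (p + 3))) * p * (p + 1) = (p + 1) / (2 * (p + 3)) by
          field_simp; ring, div_le_iff₀ (by positivity)]
        linarith
      linarith
    refine (dim_bound hC.le hMb (by positivity)
      (Real.rpow_le_one_of_one_le_of_nonpos hn1 (neg_nonpos.2 (by positivity))) hl0 (by linarith)
      (by positivity) (hl₁ n hn1) e1 g2 hC3).trans
      (mul_le_mul_of_nonneg_right (by linarith) (by positivity))
  -- the map
  obtain ⟨G, s₁, hs₁, hG⟩ := hMemb Ω mΩ μ x hx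
  rcases Nat.eq_zero_or_pos M with h | hMpos
  · exfalso
    have hempty : IsEmpty (Fin M) := by rw [h]; infer_instance
    have h1 := (hG ⟨0, by omega⟩ ⟨1, by omega⟩).1
    rw [show (univ : Finset (Fin M)) = ∅ from univ_eq_empty, sum_empty,
      zero_rpow (show 1 / p ≠ 0 by positivity)] at h1
    have h2 : 0 < ‖x ⟨0, by omega⟩ - x ⟨1, by omega⟩‖ :=
      norm_pos_iff.mpr (sub_ne_zero.mpr (hx.ne (by simp [Fin.ext_iff])))
    linarith [mul_pos hs₁ h2]
  set X : Fin n → Lq p M := fun i => WithLp.toLp _ (G i) with hX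
  have hXn : ∀ i j, ‖X i - X j‖ = (∑ l, |G i l - G j l| ^ p) ^ (1 / p) := fun i j => by
    rw [lq_norm hp0]; rfl
  have hXi : Function.Injective X := fun i j hij => by
    by_contra hne
    have h1 := (hG i j).1
    rw [← hXn, hij, sub_self, norm_zero] at h1
    linarith [mul_pos hs₁ (norm_pos_iff.mpr (sub_ne_zero.mpr (hx.ne hne)))]
  obtain ⟨D', hD', F, hF⟩ := hred n hlg.le M hMpos X hXi
  have hDle : D' ≤ ⌊bound⌋₊ := by
    refine Nat.le_floor (hD'.trans ?_)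
    rw [hbound, max_eq_left (show 1 ≤ M from hMpos)]
  obtain ⟨F', hF'⟩ := pad hp0 hDle F
  set u := 12 * ε with hu
  have hu1 : u ≤ 1 / 2 := by linarith
  refine ⟨F', (1 - u) ^ (1 / p) * s₁, mul_pos (rpow_pos_of_pos (by linarith) _) hs₁, fun i j => ?_⟩
  rw [hF' i j]
  obtain ⟨g1, g2⟩ := hG i j
  rw [← hXn] at g1 g2
  have hFij := abs_le.1 (hF i j)
  set S := ∑ l, |F i l - F j l| ^ p with hS
  set Nx := ‖X i - X j‖ with hNx
  have hNx0 : 0 ≤ Nx := norm_nonneg _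
  have hS0 : 0 ≤ S := sum_nonneg fun l _ => by positivity
  have hroot : ∀ a : ℝ, 0 ≤ a → (a * Nx ^ p) ^ (1 / p) = a ^ (1 / p) * Nx := fun a ha => by
    rw [mul_rpow ha (by positivity), ← rpow_mul hNx0, mul_one_div_cancel hp0.ne', rpow_one]
  constructor
  · calc (1 - u) ^ (1 / p) * s₁ * ‖x i - x j‖ ≤ (1 - u) ^ (1 / p) * Nx := by
          rw [mul_assoc]; exact mul_le_mul_of_nonneg_left g1 (rpow_nonneg (by linarith) _)
      _ = ((1 - u) * Nx ^ p) ^ (1 / p) := (hroot _ (by linarith)).symm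
      _ ≤ S ^ (1 / p) := rpow_le_rpow (mul_nonneg (by linarith) (by positivity))
          (by linarith [hFij.1]) (by positivity)
  · have hratio : (1 + u) ^ (1 / p) ≤ D₁ * (1 - u) ^ (1 / p) :=
      ratio_bound hp0 (by positivity) hu1 (by linarith) (by linarith)
    calc S ^ (1 / p) ≤ ((1 + u) * Nx ^ p) ^ (1 / p) :=
          rpow_le_rpow hS0 (by linarith [hFij.2]) (by positivity)
      _ = (1 + u) ^ (1 / p) * Nx := hroot _ (by linarith)
      _ ≤ D₁ * (1 - u) ^ (1 / p) * (D₁ * s₁ * ‖x i - x j‖) :=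
          mul_le_mul hratio g2 hNx0 (mul_nonneg (by linarith) (rpow_nonneg (by linarith) _))
      _ = _ := by rw [← hD₁sq]; ring

end Vale.Agent.P249.Iso
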