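import Mathlib

/-!
The Mazur map from `ℓ_p` to `ℓ_2`, coordinate by coordinate, with weighted Hölder bounds.
-/

namespace Vale.Agent.P249.Iso

open Real Finset
open scoped BigOperators

/-- The signed power. -/
noncomputable def spow (q s : ℝ) : ℝ := if 0 ≤ s then s ^ q else -(-s) ^ q

lemma pow_gap_le {q s t : ℝ} (hq : 1 ≤ q) (ht : 0 ≤ t) (hts : t ≤ s) :
    s ^ q - t ^ q ≤ q * (s - t) * s ^ (q - 1) ∧ (s - t) ^ q ≤ s ^ q - t ^ q := by
  rcases (ht.trans hts).eq_or_lt with h | h
  · subst h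
    have : t = 0 := le_antisymm hts ht
    subst this
    simp [Real.zero_rpow (show q ≠ 0 by linarith)]
  constructor
  · have h1 := one_add_mul_self_le_rpow_one_add
      (show (-1 : ℝ) ≤ t / s - 1 by linarith [div_nonneg ht h.le]) hq
    rw [add_sub_cancel, Real.div_rpow ht h.le] at h1
    have hsq : 0 < s ^ q := Real.rpow_pos_of_pos h q
    rw [le_div_iff₀ hsq] at h1
    have e : s ^ q = s ^ (q - 1) * s := by
      rw [← Real.rpow_add_one h.ne']; ring_nf
    have e2 : (t / s - 1) * s ^ q = (t - s) * s ^ (q - 1) := by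
      rw [e]; field_simp
    nlinarith
  · have := Real.add_rpow_le_rpow_add ht (sub_nonneg.2 hts) hq
    rw [add_sub_cancel] at this
    linarith

lemma pow_gap_ge {q s t : ℝ} (hq0 : 0 < q) (hq : q ≤ 1) (ht : 0 ≤ t) (hts : t ≤ s) :
    q * (s - t) ≤ (s ^ q - t ^ q) * s ^ (1 - q) ∧ s ^ q - t ^ q ≤ (s - t) ^ q := by
  rcases (ht.trans hts).eq_or_lt with h | h
  · subst h
    have : t = 0 := le_antisymm hts ht
    subst this
    simp [Real.zero_rpow hq0.ne']
  constructor
  · have h1 := rpow_one_add_le_one_add_mul_self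
      (show (-1 : ℝ) ≤ t / s - 1 by linarith [div_nonneg ht h.le]) hq0.le hq
    rw [add_sub_cancel, Real.div_rpow ht h.le, div_le_iff₀ (Real.rpow_pos_of_pos h q)] at h1
    have e : s ^ q * s ^ (1 - q) = s := by rw [← Real.rpow_add h]; simp
    have e2 : (t / s) * s = t := div_mul_cancel₀ _ h.ne'
    have h2 := mul_le_mul_of_nonneg_right h1 (Real.rpow_nonneg h.le (1 - q))
    rw [mul_assoc, e] at h2
    nlinarith
  · have := Real.rpow_add_le_add_rpow ht (sub_nonneg.2 hts) hq0.le hq
    rw [add_sub_cancel] at this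
    linarith

lemma spow_reduce (q : ℝ) (P : ℝ → ℝ → ℝ → Prop)
    (same : ∀ s t, 0 ≤ t → t ≤ s → P (s - t) (s ^ q - t ^ q) s)
    (opp : ∀ s t, 0 ≤ s → 0 ≤ t → P (s + t) (s ^ q + t ^ q) (max s t)) (hq : 0 < q) (s t : ℝ) :
    P |s - t| |spow q s - spow q t| (max |s| |t|) := by
  have main : ∀ s t : ℝ, t ≤ s → P |s - t| |spow q s - spow q t| (max |s| |t|) := by
    intro s t hts
    rw [abs_of_nonneg (sub_nonneg.2 hts)]
    rcases le_or_gt 0 t with ht | ht
    · have hs := ht.trans hts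
      simp only [spow, ht, hs, ↓reduceIte, abs_of_nonneg]
      rw [abs_of_nonneg (sub_nonneg.2 (Real.rpow_le_rpow ht hts hq.le)), max_eq_left hts]
      exact same s t ht hts
    · rcases le_or_gt 0 s with hs | hs
      · simp only [spow, hs, not_le.2 ht, ↓reduceIte, abs_of_nonneg hs, abs_of_neg ht, sub_neg_eq_add]
        rw [abs_of_nonneg (add_nonneg (Real.rpow_nonneg hs q) (Real.rpow_nonneg (by linarith) q))]
        have := opp s (-t) hs (by linarith)
        rwa [← sub_eq_add_neg] at this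
      · simp only [spow, not_le.2 hs, not_le.2 ht, ↓reduceIte, abs_of_neg hs, abs_of_neg ht]
        rw [neg_sub_neg, abs_of_nonneg (sub_nonneg.2
          (Real.rpow_le_rpow (by linarith) (by linarith) hq.le)), max_eq_right (by linarith)]
        have := same (-t) (-s) (by linarith) (by linarith)
        rwa [neg_sub_neg] at this
  rcases le_total t s with h | h
  · exact main s t h
  · rw [abs_sub_comm, abs_sub_comm (spow q s), max_comm]
    exact main t s h

/-- The signed power for `q ≥ 1`. -/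
lemma spow_high {q : ℝ} (hq : 1 ≤ q) (s t : ℝ) :
    |spow q s - spow q t| ≤ q * |s - t| * max |s| |t| ^ (q - 1) ∧
      |s - t| ^ q ≤ 2 ^ q * |spow q s - spow q t| := by
  refine spow_reduce q (fun d e M => e ≤ q * d * M ^ (q - 1) ∧ d ^ q ≤ 2 ^ q * e)
    (fun s t ht hts => ?_) (fun s t hs ht => ?_) (by linarith) s t
  · obtain ⟨h1, h2⟩ := pow_gap_le hq ht hts
    refine ⟨h1, h2.trans (le_mul_of_one_le_left ?_ (Real.one_le_rpow one_le_two (by linarith)))⟩
    exact le_trans (Real.rpow_nonneg (sub_nonneg.2 hts) q) h2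
  · have hM : 0 ≤ max s t := le_max_of_le_left hs
    have e : ∀ x, 0 ≤ x → x ≤ max s t → x ^ q ≤ x * max s t ^ (q - 1) := fun x hx hxm => by
      calc x ^ q = x * x ^ (q - 1) := by
            rw [← Real.rpow_one_add' hx (by linarith)]; ring_nf
        _ ≤ _ := mul_le_mul_of_nonneg_left (Real.rpow_le_rpow hx hxm (by linarith)) hx
    refine ⟨?_, ?_⟩
    · have h1 := e s hs (le_max_left _ _)
      have h2 := e t ht (le_max_right _ _)
      have h0 : 0 ≤ (s + t) * max s t ^ (q - 1) := mul_nonneg (by linarith) (Real.rpow_nonneg hM _)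
      nlinarith
    · calc (s + t) ^ q ≤ (2 * max s t) ^ q := Real.rpow_le_rpow (by linarith)
            (by linarith [le_max_left s t, le_max_right s t]) (by linarith)
        _ = 2 ^ q * max s t ^ q := Real.mul_rpow two_pos.le hM
        _ ≤ _ := by
          refine mul_le_mul_of_nonneg_left ?_ (by positivity)
          rcases le_total s t with h | h
          · rw [max_eq_right h]; linarith [Real.rpow_nonneg hs q]
          · rw [max_eq_left h]; linarith [Real.rpow_nonneg ht q]

/-- The signed power for `q ≤ 1`. -/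
lemma spow_low {q : ℝ} (hq0 : 0 < q) (hq : q ≤ 1) (s t : ℝ) :
    |spow q s - spow q t| ≤ 2 * |s - t| ^ q ∧
      q * |s - t| ≤ |spow q s - spow q t| * max |s| |t| ^ (1 - q) := by
  refine spow_reduce q (fun d e M => e ≤ 2 * d ^ q ∧ q * d ≤ e * M ^ (1 - q))
    (fun s t ht hts => ?_) (fun s t hs ht => ?_) hq0 s t
  · obtain ⟨h1, h2⟩ := pow_gap_ge hq0 hq ht hts
    exact ⟨h2.trans (le_mul_of_one_le_left (Real.rpow_nonneg (sub_nonneg.2 hts) q) one_le_two), h1⟩
  · have hM : 0 ≤ max s t := le_max_of_le_left hs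
    have e : ∀ x, 0 ≤ x → x ≤ max s t → q * x ≤ x ^ q * max s t ^ (1 - q) := fun x hx hxm => by
      calc q * x ≤ x := mul_le_of_le_one_left hx hq
        _ = x ^ q * x ^ (1 - q) := by
            rw [← Real.rpow_add' hx (by norm_num)]; simp
        _ ≤ _ := mul_le_mul_of_nonneg_left (Real.rpow_le_rpow hx hxm (by linarith))
            (Real.rpow_nonneg hx q)
    refine ⟨?_, ?_⟩
    · have h1 := Real.rpow_le_rpow hs (show s ≤ s + t by linarith) hq0.le
      have h2 := Real.rpow_le_rpow ht (show t ≤ s + t by linarith) hq0.le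
      linarith
    · have := e s hs (le_max_left _ _)
      have := e t ht (le_max_right _ _)
      linarith

/-- A weighted Hölder inequality in homogeneous form. -/
lemma holder_sum {ι : Type*} (S : Finset ι) {p u v A B : ℝ} (hp : 0 < p) (hu : 0 ≤ u) (hv : 0 ≤ v)
    (huv : u + v = p) (hA : 0 < A) (hB : 0 < B) (a b : ι → ℝ) (ha : ∀ i, 0 ≤ a i)
    (hb : ∀ i, 0 ≤ b i) (hSa : ∑ i ∈ S, a i ^ p ≤ A ^ p) (hSb : ∑ i ∈ S, b i ^ p ≤ B ^ p) :
    ∑ i ∈ S, a i ^ u * b i ^ v ≤ A ^ u * B ^ v := by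
  have key : ∀ i ∈ S, a i ^ u * b i ^ v ≤
      A ^ u * B ^ v * (u / p * (a i ^ p / A ^ p) + v / p * (b i ^ p / B ^ p)) := by
    intro i _
    have hx : 0 ≤ a i / A := div_nonneg (ha i) hA.le
    have hy : 0 ≤ b i / B := div_nonneg (hb i) hB.le
    have h := Real.geom_mean_le_arith_mean2_weighted (div_nonneg hu hp.le) (div_nonneg hv hp.le)
      (Real.rpow_nonneg hx p) (Real.rpow_nonneg hy p) (by rw [← add_div, huv, div_self hp.ne'])
    rw [← Real.rpow_mul hx, ← Real.rpow_mul hy, mul_div_cancel₀ _ hp.ne',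
      mul_div_cancel₀ _ hp.ne', Real.div_rpow (ha i) hA.le, Real.div_rpow (hb i) hB.le,
      Real.div_rpow (ha i) hA.le, Real.div_rpow (hb i) hB.le, div_mul_div_comm,
      div_le_iff₀ (by positivity)] at h
    linarith
  refine (sum_le_sum key).trans ?_
  rw [← mul_sum, sum_add_distrib, ← mul_sum, ← mul_sum, ← sum_div, ← sum_div]
  refine mul_le_of_le_one_right (by positivity) ?_
  have h1 : (∑ i ∈ S, a i ^ p) / A ^ p ≤ 1 := (div_le_one (by positivity)).2 hSa
  have h2 : (∑ i ∈ S, b i ^ p) / B ^ p ≤ 1 := (div_le_one (by positivity)).2 hSb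
  calc u / p * ((∑ i ∈ S, a i ^ p) / A ^ p) + v / p * ((∑ i ∈ S, b i ^ p) / B ^ p)
      ≤ u / p * 1 + v / p * 1 := by gcongr
    _ = 1 := by rw [mul_one, mul_one, ← add_div, huv, div_self hp.ne']

end Vale.Agent.P249.Iso
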