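import Vale.Agent.P249.IsoJump

/-!
A potential which dominates every coordinate gradient and has `p`-th mass `o((log n) ^ p)`.
-/

namespace Vale.Agent.P249.Iso

open Real Finset Vale.Agent.P249
open scoped BigOperators

variable {p : ℝ} [Fact (1 ≤ ENNReal.ofReal p)]

/-- At one scale the averaged gradient has mass at most the `p`-th power of the spread. -/
lemma sum_avg_rpow_le (hp : 0 < p) {n m : ℕ} (X : Fin n → Lq p m) {ℓ : ℝ} (hℓ : 0 < ℓ) (x : Fin n) :
    ∑ k, (∑ z, wgt (fun a b => ‖X a - X b‖) ℓ x z * (|(X x) k - (X z) k| / ℓ)) ^ p ≤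
      spread (fun a b => ‖X a - X b‖) ℓ x ^ p := by
  set d : Fin n → Fin n → ℝ := fun a b => ‖X a - X b‖ with hd
  set a : Fin n → Lq p m := fun z => WithLp.toLp _ fun k => |(X x) k - (X z) k| / ℓ with ha
  set v : Lq p m := ∑ z, wgt d ℓ x z • a z with hv
  have hvk : ∀ k, v k = ∑ z, wgt d ℓ x z * (|(X x) k - (X z) k| / ℓ) := fun k => by
    simp [hv, ha, WithLp.ofLp_sum, Finset.sum_apply]
  have han : ∀ z, ‖a z‖ = d x z / ℓ := fun z => by
    have h1 : ∑ k, |(a z) k| ^ p = (d x z / ℓ) ^ p := by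
      rw [hd, Real.div_rpow (norm_nonneg _) hℓ.le, lq_norm_pow hp, sum_div]
      refine sum_congr rfl fun k _ => ?_
      simp only [ha]
      rw [abs_div, abs_abs, abs_of_pos hℓ, Real.div_rpow (abs_nonneg _) hℓ.le]
      rfl
    rw [lq_norm hp, h1, ← Real.rpow_mul (div_nonneg (norm_nonneg _) hℓ.le),
      mul_one_div_cancel hp.ne', Real.rpow_one]
  have hnorm : ‖v‖ ≤ spread d ℓ x := by
    refine (norm_sum_le _ _).trans (le_of_eq (sum_congr rfl fun z _ => ?_))
    rw [norm_smul, Real.norm_eq_abs, abs_of_nonneg (wgt_nonneg x z), han]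
  refine le_trans (le_of_eq ?_) (Real.rpow_le_rpow (norm_nonneg v) hnorm hp.le)
  rw [lq_norm_pow hp]
  refine sum_congr rfl fun k _ => ?_
  rw [hvk, abs_of_nonneg (sum_nonneg fun z _ => mul_nonneg (wgt_nonneg x z)
    (div_nonneg (abs_nonneg _) hℓ.le))]

/-- Choice of the parameters of the potential. -/
lemma exists_params {p C e κ K : ℝ} (hp : 1 < p) (hep : e < p) (he : 0 ≤ e) (hC : 0 ≤ C)
    (hκ : 0 < κ) (hK : 0 < K) :
    ∃ ε Y : ℝ, 0 < ε ∧ 1 ≤ Y ∧ ∀ L : ℝ, Y ≤ L →
      K * (2 * L * ((exp 2 * (ε * L + 1)) ^ (p - 1) + C * (L + 1) ^ e / (ε * L))) ≤ κ * L ^ p := by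
  set ε := (κ / (4 * K)) ^ (1 / (p - 1)) / (2 * exp 2) with hε
  have hε0 : 0 < ε := by positivity
  set Y := max (max 1 (1 / ε)) ((4 * K * C * 2 ^ e / (ε * κ)) ^ (1 / (p - e))) with hY
  refine ⟨ε, Y, hε0, le_max_of_le_left (le_max_left _ _), fun L hL => ?_⟩
  have hL1 : 1 ≤ L := le_trans (le_max_of_le_left (le_max_left _ _)) hL
  have hεL : 1 ≤ ε * L := by
    have := le_trans (le_max_of_le_left (le_max_right _ _)) hL
    rw [div_le_iff₀ hε0] at this
    linarith
  have hY3 : 4 * K * C * 2 ^ e / (ε * κ) ≤ L ^ (p - e) := by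
    have h := Real.rpow_le_rpow (by positivity) (le_trans (le_max_right _ _) hL)
      (show 0 ≤ p - e by linarith)
    rwa [← Real.rpow_mul (by positivity), one_div_mul_cancel (by linarith), Real.rpow_one] at h
  have h1 : (exp 2 * (ε * L + 1)) ^ (p - 1) * L ≤ κ / (4 * K) * L ^ p := by
    have h2 : exp 2 * (ε * L + 1) ≤ 2 * exp 2 * ε * L := by nlinarith [exp_pos (2 : ℝ)]
    calc (exp 2 * (ε * L + 1)) ^ (p - 1) * L ≤ (2 * exp 2 * ε * L) ^ (p - 1) * L :=
          mul_le_mul_of_nonneg_right (Real.rpow_le_rpow (by positivity) h2 (by linarith)) (by linarith)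
      _ = (2 * exp 2 * ε) ^ (p - 1) * L ^ p := by
          rw [Real.mul_rpow (by positivity) (by linarith), mul_assoc,
            ← Real.rpow_add_one (by linarith)]
          ring_nf
      _ = κ / (4 * K) * L ^ p := by
          rw [hε, mul_div_cancel₀ _ (by positivity), ← Real.rpow_mul (by positivity),
            one_div_mul_cancel (by linarith), Real.rpow_one]
  have h2 : C * (L + 1) ^ e / (ε * L) * L ≤ κ / (4 * K) * L ^ p := by
    have e1 : C * (L + 1) ^ e / (ε * L) * L = C * (L + 1) ^ e / ε := by field_simp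
    rw [e1]
    have h3 : (L + 1) ^ e ≤ 2 ^ e * L ^ e := by
      rw [← Real.mul_rpow (by norm_num) (by linarith)]
      exact Real.rpow_le_rpow (by linarith) (by linarith) he
    have h4 : L ^ p = L ^ (p - e) * L ^ e := by rw [← Real.rpow_add (by linarith)]; ring_nf
    rw [h4]
    calc C * (L + 1) ^ e / ε ≤ C * (2 ^ e * L ^ e) / ε := by gcongr
      _ = κ / (4 * K) * (4 * K * C * 2 ^ e / (ε * κ)) * L ^ e := by field_simp
      _ ≤ κ / (4 * K) * L ^ (p - e) * L ^ e := by gcongr
      _ = _ := by ring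
  calc K * (2 * L * ((exp 2 * (ε * L + 1)) ^ (p - 1) + C * (L + 1) ^ e / (ε * L)))
      = 2 * K * ((exp 2 * (ε * L + 1)) ^ (p - 1) * L + C * (L + 1) ^ e / (ε * L) * L) := by ring
    _ ≤ 2 * K * (κ / (4 * K) * L ^ p + κ / (4 * K) * L ^ p) := by gcongr
    _ = κ * L ^ p := by field_simp; ring

/-- The potential. -/
theorem exists_potential (hp : 1 < p) : ∀ κ : ℝ, 0 < κ → ∃ n₀ : ℕ, ∀ n : ℕ, n₀ ≤ n →
    ∀ (m : ℕ) (X : Fin n → Lq p m), Function.Injective X →
      ∃ F : Fin n → Fin m → ℝ, (∀ x k, 0 ≤ F x k) ∧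
        (∀ x w k, |(X x) k - (X w) k| ≤ ‖X x - X w‖ * (F x k + F w k)) ∧
        ∀ x, ∑ k, F x k ^ p ≤ κ * Real.log n ^ p := by
  classical
  intro κ hκ
  have hp0 : 0 < p := by linarith
  obtain ⟨C, e, hC, he0, hep, hjump⟩ := exists_jump (p := p) hp
  set Kc := (2 * exp 2) ^ p with hKc
  obtain ⟨ε, Y, hε, hY, hpar⟩ := exists_params hp hep he0 hC hκ (show 0 < Kc by positivity)
  refine ⟨max 2 ⌈exp Y⌉₊, fun n hn m X hX => ?_⟩
  have hn2 : 2 ≤ n := (le_max_left _ _).trans hn
  set L := Real.log n with hL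
  have hYL : Y ≤ L := by
    rw [hL, Real.le_log_iff_exp_le (by exact_mod_cast (show 0 < n by omega))]
    exact (Nat.le_ceil _).trans (by exact_mod_cast (le_max_right _ _).trans hn)
  have hL1 : 1 ≤ L := hY.trans hYL
  set G := ε * L with hG
  have hG0 : 0 < G := by positivity
  set G' := exp 2 * (G + 1) with hG'
  have hGG' : G ≤ G' := by
    rw [hG']
    have := mul_le_mul_of_nonneg_right (one_le_exp (show (0 : ℝ) ≤ 2 by norm_num))
      (show 0 ≤ G + 1 by linarith)
    linarith
  set d : Fin n → Fin n → ℝ := fun a b => ‖X a - X b‖ with hd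
  have hd0 : ∀ a, d a a = 0 := fun a => by simp [hd]
  have hdn : ∀ a b, 0 ≤ d a b := fun a b => norm_nonneg _
  have hsym : ∀ a b, d a b = d b a := fun a b => norm_sub_rev _ _
  have htri : ∀ a b c, d a c ≤ d a b + d b c := fun a b c =>
    norm_sub_le_norm_sub_add_norm_sub _ _ _
  -- the scales
  have hne : (univ.filter fun q : Fin n × Fin n => q.1 ≠ q.2).Nonempty :=
    ⟨(⟨0, by omega⟩, ⟨1, by omega⟩), by simp [Fin.ext_iff]⟩
  obtain ⟨q₁, hq₁, hmin⟩ := exists_min_image _ (fun q => d q.1 q.2) hne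
  obtain ⟨q₂, hq₂, hmax⟩ := exists_max_image _ (fun q => d q.1 q.2) hne
  simp only [mem_filter, mem_univ, true_and] at hq₁ hq₂ hmin hmax
  set dm := d q₁.1 q₁.2 with hdm
  have hdm0 : 0 < dm := norm_pos_iff.mpr (sub_ne_zero.mpr (hX.ne hq₁))
  obtain ⟨I, hI⟩ := pow_unbounded_of_one_lt (d q₂.1 q₂.2 / dm) one_lt_two
  set ℓ : ℕ → ℝ := fun i => dm * 2 ^ i with hℓ
  have hℓ0 : ∀ i, 0 < ℓ i := fun i => by simp only [hℓ]; positivity
  choose T hT0 hTmass hTineq using fun i => hjump n hn2 m X (ℓ i) (hℓ0 i)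
  set U : ℕ → Fin n → Fin m → ℝ := fun i x k =>
    ∑ z, wgt d (ℓ i) x z * (|(X x) k - (X z) k| / ℓ i) with hU
  have hU0 : ∀ i x k, 0 ≤ U i x k := fun i x k => sum_nonneg fun z _ =>
    mul_nonneg (wgt_nonneg x z) (div_nonneg (abs_nonneg _) (hℓ0 i).le)
  set term : ℕ → Fin n → Fin m → ℝ := fun i x k =>
    (if spread d (ℓ i) x ≤ G' then U i x k ^ p else 0) +
      (if G < spread d (ℓ i) x then T i x k else 0) with hterm
  have hterm0 : ∀ i x k, 0 ≤ term i x k := fun i x k => by
    simp only [hterm]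
    refine add_nonneg ?_ ?_ <;> split_ifs
    exacts [Real.rpow_nonneg (hU0 i x k) p, le_rfl, hT0 i x k, le_rfl]
  set Φ : Fin n → Fin m → ℝ := fun x k => ∑ i ∈ range (I + 2), term i x k with hΦ
  have hΦ0 : ∀ x k, 0 ≤ Φ x k := fun x k => sum_nonneg fun i _ => hterm0 i x k
  refine ⟨fun x k => 2 * exp 2 * Φ x k ^ (1 / p), fun x k => mul_nonneg (by positivity)
    (Real.rpow_nonneg (hΦ0 x k) _), fun x w k => ?_, fun x => ?_⟩
  · -- the inequality
    rcases eq_or_ne x w with rfl | hxw
    · simp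
    set dd := d x w with hdd
    have h1 : 1 ≤ dd / dm := by rw [le_div_iff₀ hdm0, one_mul]; exact hmin (x, w) hxw
    obtain ⟨i, hi, hi'⟩ := exists_nat_pow_near h1 one_lt_two
    have hiI : i + 1 < I + 2 := by
      have : i < I := (pow_lt_pow_iff_right₀ one_lt_two).mp
        (hi.trans_lt ((div_le_div_of_nonneg_right (hmax (x, w) hxw) hdm0.le).trans_lt hI))
      omega
    rw [le_div_iff₀ hdm0] at hi
    rw [div_lt_iff₀ hdm0] at hi'
    have hle : dd ≤ ℓ (i + 1) := by simp only [hℓ]; linarith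
    have hge : ℓ (i + 1) ≤ 2 * dd := by simp only [hℓ, pow_succ]; linarith
    set j := i + 1 with hj
    have hroot : ∀ u, term j u k ^ (1 / p) ≤ Φ u k ^ (1 / p) := fun u =>
      Real.rpow_le_rpow (hterm0 j u k)
        (single_le_sum (f := fun i => term i u k) (fun i _ => hterm0 i u k) (mem_range.2 hiI))
        (by positivity)
    have hR0 : ∀ u, 0 ≤ Φ u k ^ (1 / p) := fun u => Real.rpow_nonneg (hΦ0 u k) _
    change |(X x) k - (X w) k| ≤ dd * (2 * exp 2 * Φ x k ^ (1 / p) + 2 * exp 2 * Φ w k ^ (1 / p))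
    rw [← mul_add]
    have he2 : (1 : ℝ) ≤ exp 2 := one_le_exp (by norm_num)
    by_cases hcalm : spread d (ℓ j) x ≤ G' ∧ spread d (ℓ j) w ≤ G'
    · have hU1 : ∀ u, spread d (ℓ j) u ≤ G' → U j u k ≤ Φ u k ^ (1 / p) := by
        intro u hu
        refine le_trans ?_ (hroot u)
        calc U j u k = (U j u k ^ p) ^ (1 / p) := by
              rw [← Real.rpow_mul (hU0 j u k), mul_one_div_cancel hp0.ne', Real.rpow_one]
          _ ≤ _ := by
              refine Real.rpow_le_rpow (Real.rpow_nonneg (hU0 j u k) _) ?_ (by positivity)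
              simp only [hterm, if_pos hu]
              refine le_add_of_nonneg_right ?_
              split_ifs
              exacts [hT0 j u k, le_rfl]
      have key : |(X x) k - (X w) k| ≤ ℓ j * (U j x k + exp 2 * U j w k) := by
        have e1 : ℓ j * (U j x k + exp 2 * U j w k) = ∑ z, (wgt d (ℓ j) x z * |(X x) k - (X z) k| +
            exp 2 * wgt d (ℓ j) w z * |(X w) k - (X z) k|) := by
          simp only [hU, mul_add, mul_sum, ← sum_add_distrib]
          refine sum_congr rfl fun z _ => ?_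
          field_simp [(hℓ0 j).ne']
        rw [e1]
        calc |(X x) k - (X w) k| = ∑ z, wgt d (ℓ j) x z * |(X x) k - (X w) k| := by
              rw [← sum_mul, sum_wgt, one_mul]
          _ ≤ _ := sum_le_sum fun z _ => by
              have h2 := wgt_stable hsym htri (hℓ0 j) (show d w x ≤ ℓ j by rw [hsym]; exact hle) z
              have h3 := abs_sub_le ((X x) k) ((X z) k) ((X w) k)
              rw [abs_sub_comm ((X z) k) ((X w) k)] at h3
              have h4 := mul_le_mul_of_nonneg_left h3 (wgt_nonneg (d := d) (ℓ := ℓ j) x z)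
              have h5 := mul_le_mul_of_nonneg_right h2 (abs_nonneg ((X w) k - (X z) k))
              linarith
      refine key.trans ?_
      have h2 := hU1 x hcalm.1
      have h3 := hU1 w hcalm.2
      calc ℓ j * (U j x k + exp 2 * U j w k)
          ≤ 2 * dd * (exp 2 * Φ x k ^ (1 / p) + exp 2 * Φ w k ^ (1 / p)) := by
            refine mul_le_mul hge (add_le_add (h2.trans (le_mul_of_one_le_left (hR0 x) he2))
              (mul_le_mul_of_nonneg_left h3 (exp_pos _).le))
              (add_nonneg (hU0 _ _ _) (mul_nonneg (exp_pos _).le (hU0 _ _ _))) (by linarith [hdn x w])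
        _ = _ := by ring
    · have hbig : G < spread d (ℓ j) x ∧ G < spread d (ℓ j) w := by
        have hx := spread_stable hdn hsym htri (hℓ0 j) hle
        have hw := spread_stable hdn hsym htri (hℓ0 j) (show d w x ≤ ℓ j by rw [hsym]; exact hle)
        rw [not_and_or, not_le, not_le, hG'] at hcalm
        rcases hcalm with h | h
        · have : exp 2 * (G + 1) < exp 2 * (spread d (ℓ j) w + 1) := h.trans_le hw
          have := lt_of_mul_lt_mul_left this (exp_pos _).le
          exact ⟨lt_of_le_of_lt (by rw [← hG'] at *; exact hGG') h, by linarith⟩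
        · have : exp 2 * (G + 1) < exp 2 * (spread d (ℓ j) x + 1) := h.trans_le hx
          have := lt_of_mul_lt_mul_left this (exp_pos _).le
          exact ⟨by linarith, lt_of_le_of_lt (by rw [← hG'] at *; exact hGG') h⟩
      have hTu : ∀ u, G < spread d (ℓ j) u → T j u k ≤ term j u k := by
        intro u hu
        simp only [hterm, if_pos hu]
        refine le_add_of_nonneg_left ?_
        split_ifs
        exacts [Real.rpow_nonneg (hU0 j u k) p, le_rfl]
      have h := Real.rpow_le_rpow (Real.rpow_nonneg (abs_nonneg _) p) (hTineq j x w hle k)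
        (show 0 ≤ 1 / p by positivity)
      rw [← Real.rpow_mul (abs_nonneg _), mul_one_div_cancel hp0.ne', Real.rpow_one,
        Real.mul_rpow (by positivity) (add_nonneg (hT0 j x k) (hT0 j w k)),
        ← Real.rpow_mul (hℓ0 j).le, mul_one_div_cancel hp0.ne', Real.rpow_one] at h
      refine h.trans ?_
      have h6 : (T j x k + T j w k) ^ (1 / p) ≤ Φ x k ^ (1 / p) + Φ w k ^ (1 / p) := by
        refine (Real.rpow_le_rpow (add_nonneg (hT0 j x k) (hT0 j w k))
          (add_le_add (hTu x hbig.1) (hTu w hbig.2)) (by positivity)).trans ?_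
        refine (Real.rpow_add_le_add_rpow (hterm0 j x k) (hterm0 j w k) (by positivity)
          (by rw [div_le_one hp0]; linarith)).trans (add_le_add (hroot x) (hroot w))
      calc ℓ j * (T j x k + T j w k) ^ (1 / p) ≤ 2 * dd * (Φ x k ^ (1 / p) + Φ w k ^ (1 / p)) :=
            mul_le_mul hge h6 (Real.rpow_nonneg (add_nonneg (hT0 j x k) (hT0 j w k)) _)
              (by linarith [hdn x w])
        _ ≤ dd * (2 * exp 2 * (Φ x k ^ (1 / p) + Φ w k ^ (1 / p))) := by
            have h7 := mul_le_mul_of_nonneg_left he2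
              (mul_nonneg (show 0 ≤ 2 * dd by linarith [hdn x w]) (add_nonneg (hR0 x) (hR0 w)))
            linarith
  · -- the mass
    set B := C * (L + 1) ^ e with hB
    have hB0 : 0 ≤ B := by positivity
    have hper : ∀ i, ∑ k, term i x k ≤ spread d (ℓ i) x * (G' ^ (p - 1) + B / G) := by
      intro i
      have hM0 := spread_nonneg hdn (hℓ0 i) x
      simp only [hterm, sum_add_distrib]
      rw [mul_add]
      refine add_le_add ?_ ?_
      · split_ifs with h
        · refine (sum_avg_rpow_le hp0 X (hℓ0 i) x).trans ?_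
          calc spread d (ℓ i) x ^ p = spread d (ℓ i) x * spread d (ℓ i) x ^ (p - 1) := by
                rw [← Real.rpow_one_add' hM0 (by linarith)]; ring_nf
            _ ≤ _ := mul_le_mul_of_nonneg_left (Real.rpow_le_rpow hM0 h (by linarith)) hM0
        · simp only [sum_const_zero]; positivity
      · split_ifs with h
        · refine (hTmass i x).trans ?_
          rw [mul_div_assoc', le_div_iff₀ hG0]
          exact (mul_le_mul_of_nonneg_left h.le hB0).trans_eq (mul_comm _ _)
        · simp only [sum_const_zero]; positivity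
    have htel : ∑ i ∈ range (I + 2), spread d (ℓ i) x ≤ 2 * L := by
      have h1 : ∀ i, spread d (ℓ i) x ≤ 2 * (Real.log (part d (ℓ (i + 1)) x) -
          Real.log (part d (ℓ i) x)) := fun i => by
        have h := spread_le_log (d := d) (hℓ0 i) x
        rw [show ℓ (i + 1) = 2 * ℓ i by simp only [hℓ, pow_succ]; ring]
        linarith
      refine (sum_le_sum fun i _ => h1 i).trans ?_
      rw [← mul_sum, sum_range_sub (fun i => Real.log (part d (ℓ i) x))]
      linarith [(log_part_bounds hd0 hdn (hℓ0 (I + 2)) x).2, (log_part_bounds hd0 hdn (hℓ0 0) x).1]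
    have hKF : ∀ k, (2 * exp 2 * Φ x k ^ (1 / p)) ^ p = Kc * Φ x k := fun k => by
      rw [Real.mul_rpow (by positivity) (Real.rpow_nonneg (hΦ0 x k) _), ← Real.rpow_mul (hΦ0 x k),
        one_div_mul_cancel hp0.ne', Real.rpow_one]
    simp only [hKF]
    rw [← mul_sum]
    refine le_trans (mul_le_mul_of_nonneg_left ?_ (by positivity)) (hpar L hYL)
    simp only [hΦ]
    rw [sum_comm]
    refine (sum_le_sum fun i _ => hper i).trans ?_
    rw [← sum_mul]
    exact mul_le_mul_of_nonneg_right htel (by positivity)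

end Vale.Agent.P249.Iso
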