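import Vale.Agent.P249.IsoKernel
import Vale.Agent.P249.IsoMazur

/-!
Exponential averages at one scale, and the scale-to-scale growth they consume.
-/

namespace Vale.Agent.P249.Iso

open Real Finset
open scoped BigOperators

variable {n : ℕ} (d : Fin n → Fin n → ℝ)

/-- The normalising sum. -/
noncomputable def part (ℓ : ℝ) (x : Fin n) : ℝ := ∑ z, exp (-(d x z / ℓ))

/-- The exponential weights. -/
noncomputable def wgt (ℓ : ℝ) (x z : Fin n) : ℝ := exp (-(d x z / ℓ)) / part d ℓ x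

/-- The mean distance in units of the scale. -/
noncomputable def spread (ℓ : ℝ) (x : Fin n) : ℝ := ∑ z, wgt d ℓ x z * (d x z / ℓ)

variable {d}

lemma part_pos (x : Fin n) {ℓ : ℝ} : 0 < part d ℓ x :=
  sum_pos (fun _ _ => exp_pos _) ⟨x, mem_univ x⟩

lemma wgt_nonneg {ℓ : ℝ} (x z : Fin n) : 0 ≤ wgt d ℓ x z :=
  div_nonneg (exp_pos _).le (part_pos x).le

lemma sum_wgt {ℓ : ℝ} (x : Fin n) : ∑ z, wgt d ℓ x z = 1 := by
  simp only [wgt, ← sum_div]; exact div_self (part_pos x).ne'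

lemma one_le_part (hd0 : ∀ x, d x x = 0) {ℓ : ℝ} (x : Fin n) : 1 ≤ part d ℓ x := by
  calc (1 : ℝ) = exp (-(d x x / ℓ)) := by simp [hd0]
    _ ≤ _ := single_le_sum (f := fun z => exp (-(d x z / ℓ))) (fun z _ => (exp_pos _).le) (mem_univ x)

lemma wgt_le_exp (hd0 : ∀ x, d x x = 0) {ℓ : ℝ} (x z : Fin n) :
    wgt d ℓ x z ≤ exp (-(d x z / ℓ)) := by
  rw [wgt, div_le_iff₀ (part_pos x)]
  exact le_mul_of_one_le_right (exp_pos _).le (one_le_part hd0 x)

lemma spread_nonneg (hdn : ∀ x y, 0 ≤ d x y) {ℓ : ℝ} (hℓ : 0 < ℓ) (x : Fin n) :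
    0 ≤ spread d ℓ x :=
  sum_nonneg fun z _ => mul_nonneg (wgt_nonneg x z) (div_nonneg (hdn x z) hℓ.le)

lemma wgt_stable (hsym : ∀ x y, d x y = d y x) (htri : ∀ x y z, d x z ≤ d x y + d y z) {ℓ : ℝ}
    (hℓ : 0 < ℓ) {x y : Fin n} (hxy : d x y ≤ ℓ) (z : Fin n) :
    wgt d ℓ y z ≤ exp 2 * wgt d ℓ x z := by
  have h1 : exp (-(d y z / ℓ)) ≤ exp 1 * exp (-(d x z / ℓ)) := by
    rw [← exp_add]
    refine exp_le_exp.2 ?_
    rw [show (1 : ℝ) + -(d x z / ℓ) = (ℓ - d x z) / ℓ by field_simp; ring, ← neg_div]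
    gcongr
    linarith [htri x y z]
  have h2 : part d ℓ x ≤ exp 1 * part d ℓ y := by
    rw [part, part, mul_sum]
    refine sum_le_sum fun w _ => ?_
    rw [← exp_add]
    refine exp_le_exp.2 ?_
    rw [show (1 : ℝ) + -(d y w / ℓ) = (ℓ - d y w) / ℓ by field_simp; ring, ← neg_div]
    gcongr
    linarith [htri y x w, hsym x y]
  rw [wgt, wgt, show exp (2 : ℝ) = exp 1 * exp 1 by rw [← exp_add]; norm_num, ← mul_div_assoc,
    div_le_div_iff₀ (part_pos y) (part_pos x)]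
  calc exp (-(d y z / ℓ)) * part d ℓ x
      ≤ exp 1 * exp (-(d x z / ℓ)) * (exp 1 * part d ℓ y) :=
        mul_le_mul h1 h2 (part_pos x).le (by positivity)
    _ = _ := by ring

lemma spread_stable (hdn : ∀ x y, 0 ≤ d x y) (hsym : ∀ x y, d x y = d y x)
    (htri : ∀ x y z, d x z ≤ d x y + d y z) {ℓ : ℝ} (hℓ : 0 < ℓ) {x y : Fin n} (hxy : d x y ≤ ℓ) :
    spread d ℓ y ≤ exp 2 * (spread d ℓ x + 1) := by
  calc spread d ℓ y ≤ ∑ z, exp 2 * wgt d ℓ x z * (1 + d x z / ℓ) := by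
        refine sum_le_sum fun z _ => mul_le_mul (wgt_stable hsym htri hℓ hxy z) ?_
          (div_nonneg (hdn y z) hℓ.le) (mul_nonneg (exp_pos _).le (wgt_nonneg x z))
        rw [show (1 : ℝ) + d x z / ℓ = (ℓ + d x z) / ℓ by field_simp]
        gcongr
        linarith [htri y x z, hsym x y]
    _ = _ := by
        simp only [mul_assoc, ← mul_sum, spread, mul_add, sum_add_distrib, mul_one, sum_wgt]
        ring

/-- Doubling the scale pays for the spread. -/
lemma spread_le_log {ℓ : ℝ} (hℓ : 0 < ℓ) (x : Fin n) :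
    spread d ℓ x / 2 ≤ Real.log (part d (2 * ℓ) x) - Real.log (part d ℓ x) := by
  rw [← Real.log_div (part_pos x).ne' (part_pos x).ne',
    Real.le_log_iff_exp_le (div_pos (part_pos x) (part_pos x))]
  have h := convexOn_exp.map_sum_le (t := (univ : Finset (Fin n))) (w := fun z => wgt d ℓ x z)
    (p := fun z => d x z / (2 * ℓ)) (fun z _ => wgt_nonneg x z) (sum_wgt x)
    (fun z _ => Set.mem_univ _)
  simp only [smul_eq_mul] at h
  have e1 : spread d ℓ x / 2 = ∑ z, wgt d ℓ x z * (d x z / (2 * ℓ)) := by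
    rw [spread, sum_div]
    exact sum_congr rfl fun z _ => by ring
  rw [e1]
  refine h.trans (le_of_eq ?_)
  unfold part
  rw [sum_div]
  refine sum_congr rfl fun z _ => ?_
  rw [wgt, div_mul_eq_mul_div, ← exp_add]
  unfold part
  congr 2
  field_simp
  ring

lemma log_part_bounds (hd0 : ∀ x, d x x = 0) (hdn : ∀ x y, 0 ≤ d x y) {ℓ : ℝ} (hℓ : 0 < ℓ)
    (x : Fin n) : 0 ≤ Real.log (part d ℓ x) ∧ Real.log (part d ℓ x) ≤ Real.log n := by
  refine ⟨Real.log_nonneg (one_le_part hd0 x), Real.log_le_log (part_pos x) ?_⟩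
  calc part d ℓ x ≤ ∑ _z : Fin n, (1 : ℝ) := sum_le_sum fun z _ => by
        rw [Real.exp_le_one_iff]; linarith [div_nonneg (hdn x z) hℓ.le]
    _ = n := by simp

/-- Powers lose to the exponential. -/
lemma rpow_le_exp_half {q r : ℝ} (hq : 0 < q) (hr : 0 ≤ r) :
    r ^ q ≤ (2 * q) ^ q * exp (r / 2) := by
  have h : r ≤ 2 * q * exp (r / (2 * q)) := by
    have h1 := add_one_le_exp (r / (2 * q))
    have h2 := mul_le_mul_of_nonneg_left h1 (show 0 ≤ 2 * q by linarith)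
    rw [mul_add, mul_div_cancel₀ _ (show 2 * q ≠ 0 by linarith)] at h2
    linarith
  calc r ^ q ≤ (2 * q * exp (r / (2 * q))) ^ q := Real.rpow_le_rpow hr h hq.le
    _ = _ := by
      rw [Real.mul_rpow (by linarith) (exp_pos _).le, ← Real.exp_mul]
      congr 2
      field_simp

end Vale.Agent.P249.Iso
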