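import Vale.Agent.P249.IsoPotential

/-!
Each coordinate split into a flat part and a sparse part, over windows of thresholds.
-/

namespace Vale.Agent.P249.Iso

open Real Finset Vale.Agent.P249
open scoped BigOperators

lemma rpow_add_eps {p η : ℝ} (hp : 0 < p) (hη : 0 < η) :
    ∃ C : ℝ, 1 ≤ C ∧ ∀ x y : ℝ, 0 ≤ x → 0 ≤ y → (x + y) ^ p ≤ (1 + η) * x ^ p + C * y ^ p := by
  set c := (1 + η) ^ (1 / p) - 1 with hc
  have hc0 : 0 < c := by
    rw [hc, sub_pos]; exact Real.one_lt_rpow (by linarith) (by positivity)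
  have hc1 : (1 + c) ^ p = 1 + η := by
    rw [hc, add_sub_cancel, ← Real.rpow_mul (by linarith), one_div_mul_cancel hp.ne', Real.rpow_one]
  refine ⟨(1 / c + 1) ^ p, Real.one_le_rpow (by linarith [one_div_pos.2 hc0]) hp.le,
    fun x y hx hy => ?_⟩
  rcases le_total y (c * x) with h | h
  · refine le_add_of_le_of_nonneg ?_ (by positivity)
    rw [← hc1, ← Real.mul_rpow (by linarith) hx]
    exact Real.rpow_le_rpow (by linarith) (by linarith) hp.le
  · refine le_add_of_nonneg_of_le (by positivity) ?_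
    rw [← Real.mul_rpow (by positivity) hy]
    refine Real.rpow_le_rpow (by linarith) ?_ hp.le
    rw [add_mul, one_mul, div_mul_eq_mul_div, one_mul]
    linarith [(le_div_iff₀ hc0).2 (show x * c ≤ y by linarith)]

/-- Two parts add up almost exactly when one is small. -/
lemma split_err {p η : ℝ} (hp : 0 < p) (hη : 0 < η) (hη1 : η ≤ 1) :
    ∃ C : ℝ, 1 ≤ C ∧ ∀ a b : ℝ,
      |(|a| ^ p + |b| ^ p) - |a + b| ^ p| ≤ η * |a + b| ^ p + C * |a| ^ p := by
  obtain ⟨C, hC, h⟩ := rpow_add_eps hp (half_pos hη)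
  refine ⟨2 * C + 1, by linarith, fun a b => ?_⟩
  have hA := Real.rpow_nonneg (abs_nonneg a) p
  have hB := Real.rpow_nonneg (abs_nonneg b) p
  have hD := Real.rpow_nonneg (abs_nonneg (a + b)) p
  have h1 : |b| ^ p ≤ (1 + η / 2) * |a + b| ^ p + C * |a| ^ p :=
    (Real.rpow_le_rpow (abs_nonneg b) (by
      calc |b| = |a + b - a| := by ring_nf
        _ ≤ |a + b| + |a| := abs_sub _ _) hp.le).trans (h _ _ (abs_nonneg _) (abs_nonneg _))
  have h2 : |a + b| ^ p ≤ (1 + η / 2) * |b| ^ p + C * |a| ^ p :=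
    (Real.rpow_le_rpow (abs_nonneg _) ((abs_add_le a b).trans_eq (add_comm _ _)) hp.le).trans
      (h _ _ (abs_nonneg _) (abs_nonneg _))
  have h3 := mul_le_mul_of_nonneg_left h1 (show 0 ≤ η / 2 by linarith)
  have h4 : η / 2 * (C * |a| ^ p) ≤ C * |a| ^ p := mul_le_of_le_one_left (by positivity) (by linarith)
  have h5 : η / 2 * (η / 2 * |a + b| ^ p) ≤ η / 2 * |a + b| ^ p :=
    mul_le_of_le_one_left (by positivity) (by linarith)
  rw [abs_le]
  constructor <;> nlinarith

lemma sum_rpow_le {ι : Type*} (S : Finset ι) {p : ℝ} (hp : 1 ≤ p) (f : ι → ℝ) (hf : ∀ i, 0 ≤ f i) :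
    ∑ i ∈ S, f i ^ p ≤ (∑ i ∈ S, f i) ^ p := by
  classical
  induction S using Finset.induction_on with
  | empty => simp [Real.zero_rpow (show p ≠ 0 by linarith)]
  | insert a S ha ih =>
    rw [sum_insert ha, sum_insert ha]
    exact (add_le_add le_rfl ih).trans
      (Real.add_rpow_le_rpow_add (hf a) (sum_nonneg fun i _ => hf i) hp)

/-- The thresholds below a level add up to at most twice the level. -/
lemma sum_thresholds_le {T f : ℝ} (hT : 0 ≤ T) (hf : 0 ≤ f) (M : ℕ) :
    ∑ i ∈ range M, (if T * exp (-(i : ℝ)) < f then T * exp (-(i : ℝ)) else 0) ≤ 2 * f := by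
  classical
  rw [← sum_filter]
  set S := (range M).filter fun i : ℕ => T * exp (-(i : ℝ)) < f with hS
  rcases S.eq_empty_or_nonempty with h | h
  · rw [h, sum_empty]; linarith
  set i₀ := S.min' h with hi₀
  have hi₀S : i₀ ∈ S := S.min'_mem h
  have hsub : S ⊆ Ico i₀ M := fun i hi =>
    mem_Ico.2 ⟨S.min'_le i hi, mem_range.1 (mem_filter.1 hi).1⟩
  have e : ∀ i : ℕ, exp (-(i : ℝ)) = exp (-1) ^ i := fun i => by
    rw [← Real.exp_nat_mul]; ring_nf
  have hq1 : exp (-1 : ℝ) ≤ 1 / 2 := by
    rw [exp_neg, inv_le_comm₀ (exp_pos _) (by norm_num)]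
    linarith [Real.exp_one_gt_d9]
  refine (sum_le_sum_of_subset_of_nonneg hsub fun i _ _ => by positivity).trans ?_
  rw [← mul_sum]
  simp only [e]
  have hgeo := geom_sum_Ico_le_of_lt_one (m := i₀) (n := M) (exp_pos (-1 : ℝ)).le
    (by linarith : exp (-1 : ℝ) < 1)
  refine (mul_le_mul_of_nonneg_left hgeo hT).trans ?_
  have h2 := (mem_filter.1 hi₀S).2
  rw [e] at h2
  rw [mul_div_assoc', div_le_iff₀ (by linarith)]
  have h3 : f * exp (-1) ≤ f * (1 / 2) := mul_le_mul_of_nonneg_left hq1 hf
  linarith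

variable {p : ℝ} [Fact (1 ≤ ENNReal.ofReal p)]

/-- The split. -/
theorem exists_split (hp : 1 ≤ p) {η : ℝ} (hη : 0 < η) (hη1 : η ≤ 1) :
    ∃ C : ℝ, 0 ≤ C ∧ ∀ N J : ℕ, 1 ≤ J → ∀ (n m : ℕ) (X : Fin n → Lq p m) (F : Fin n → Fin m → ℝ),
      (∀ x k, 0 ≤ F x k) →
      (∀ x w k, |(X x) k - (X w) k| ≤ ‖X x - X w‖ * (F x k + F w k)) →
      ∀ T : ℝ, 0 < T → ∃ Y : Fin N → Fin n → Fin m → ℝ,
        (∀ j x w k, |Y j x k - Y j w k| ≤ 2 * T * ‖X x - X w‖) ∧
        (∀ j x k, Y j x k ≠ (X x) k → T * exp (-((N * J : ℕ) : ℝ)) < F x k) ∧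
        ∀ x w, |(∑ j, ∑ k, (|Y j x k - Y j w k| ^ p +
              |((X x) k - Y j x k) - ((X w) k - Y j w k)| ^ p)) - N * ‖X x - X w‖ ^ p| ≤
            (η * N + C) * ‖X x - X w‖ ^ p +
              C * (‖X x - X w‖ / J) ^ p * (∑ k, F x k ^ p + ∑ k, F w k ^ p) := by
  classical
  have hp0 : 0 < p := by linarith
  obtain ⟨C₀, hC₀, herr⟩ := split_err hp0 hη hη1
  refine ⟨C₀ * 8 ^ p, by positivity, fun N J hJ n m X F hF0 hF T hT => ?_⟩
  have hJ0 : (0 : ℝ) < J := by exact_mod_cast hJ
  set t : ℕ → ℝ := fun i => T * exp (-(i : ℝ)) with ht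
  have ht0 : ∀ i, 0 < t i := fun i => by simp only [ht]; positivity
  have htanti : ∀ {i i' : ℕ}, i ≤ i' → t i' ≤ t i := fun h => by
    simp only [ht]; gcongr
  have htT : ∀ i, t i ≤ T := fun i => mul_le_of_le_one_right hT.le
    (Real.exp_le_one_iff.2 (by simp))
  -- the extension at one threshold
  have hext : ∀ (i : ℕ) (k : Fin m), ∃ g : Fin n → ℝ,
      (∀ x w, |g x - g w| ≤ 2 * t i * ‖X x - X w‖) ∧ ∀ x, F x k ≤ t i → g x = (X x) k := by
    intro i k
    set G := univ.filter fun z => F z k ≤ t i with hG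
    by_cases hne : G.Nonempty
    · refine ⟨fun x => G.inf' hne fun z => (X z) k + 2 * t i * ‖X x - X z‖, fun x w => ?_, fun x hx => ?_⟩
      · have h1 : ∀ a b : Fin n, (G.inf' hne fun z => (X z) k + 2 * t i * ‖X a - X z‖) ≤
            (G.inf' hne fun z => (X z) k + 2 * t i * ‖X b - X z‖) + 2 * t i * ‖X a - X b‖ := by
          intro a b
          obtain ⟨z, hz, he⟩ := exists_mem_eq_inf' hne fun z => (X z) k + 2 * t i * ‖X b - X z‖
          rw [he]
          refine (inf'_le _ hz).trans ?_
          have := mul_le_mul_of_nonneg_left (norm_sub_le_norm_sub_add_norm_sub (X a) (X b) (X z))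
            (show 0 ≤ 2 * t i by linarith [ht0 i])
          linarith
        rw [abs_le]
        constructor
        · have := h1 w x; rw [norm_sub_rev (X w) (X x)] at this; linarith
        · linarith [h1 x w]
      · have hxG : x ∈ G := by simp [hG, hx]
        refine le_antisymm ((inf'_le _ hxG).trans (by simp)) (le_inf' _ _ fun z hz => ?_)
        have hz' : F z k ≤ t i := (mem_filter.1 hz).2
        have h := (abs_le.1 (hF x z k)).2
        have h' := mul_le_mul_of_nonneg_left (add_le_add hx hz') (norm_nonneg (X x - X z))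
        linarith
    · refine ⟨fun _ => 0, fun x w => by simp; positivity, fun x hx => ?_⟩
      exact absurd ⟨x, by simp [hG, hx]⟩ hne
  choose g hglip hgeq using hext
  set idx : Fin N → Fin J → ℕ := fun j l => (j : ℕ) * J + l with hidx
  have hidx_lt : ∀ j l, idx j l < N * J := fun j l => by
    have h1 : ((j : ℕ) + 1) * J ≤ N * J := Nat.mul_le_mul_right J j.2
    rw [add_mul, one_mul] at h1
    simp only [hidx]; omega
  refine ⟨fun j x k => (∑ l, g (idx j l) k x) / J, fun j x w k => ?_, fun j x k hne => ?_, fun x w => ?_⟩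
  · rw [← sub_div, ← sum_sub_distrib, abs_div, abs_of_pos hJ0, div_le_iff₀ hJ0]
    refine (abs_sum_le_sum_abs _ _).trans ((sum_le_sum fun l _ => (hglip (idx j l) k x w).trans
      (mul_le_mul_of_nonneg_right (show 2 * t (idx j l) ≤ 2 * T by linarith [htT (idx j l)]) (norm_nonneg _))).trans (le_of_eq ?_))
    simp only [sum_const, card_univ, Fintype.card_fin, nsmul_eq_mul]
    ring
  · by_contra hle
    push Not at hle
    refine hne ?_
    have h : ∀ l, g (idx j l) k x = (X x) k := fun l => hgeq _ _ _ (hle.trans (by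
      simp only [ht]
      refine mul_le_mul_of_nonneg_left (exp_le_exp.2 (neg_le_neg ?_)) hT.le
      exact_mod_cast (hidx_lt j l).le))
    simp only [h, sum_const, card_univ, Fintype.card_fin, nsmul_eq_mul]
    field_simp
  -- the error in one coordinate
  set d := ‖X x - X w‖ with hd
  have hd0 : 0 ≤ d := norm_nonneg _
  have hcoord : ∀ k, ∑ j, |(|(∑ l, g (idx j l) k x) / J - (∑ l, g (idx j l) k w) / J| ^ p +
        |((X x) k - (∑ l, g (idx j l) k x) / J) - ((X w) k - (∑ l, g (idx j l) k w) / J)| ^ p) -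
          |(X x) k - (X w) k| ^ p| ≤
      (η * N + C₀ * 8 ^ p) * |(X x) k - (X w) k| ^ p +
        C₀ * 8 ^ p * (d / J) ^ p * (F x k ^ p + F w k ^ p) := by
    intro k
    set f := max (F x k) (F w k) with hf
    have hf0 : 0 ≤ f := le_max_of_le_left (hF0 x k)
    set Δ := (X x) k - (X w) k with hΔ
    set A : Fin N → ℝ := fun j => (∑ l, g (idx j l) k x) / J - (∑ l, g (idx j l) k w) / J with hA
    set S : Fin N → ℝ := fun j => ∑ l, if t (idx j l) < f then t (idx j l) else 0 with hS
    have hS0 : ∀ j, 0 ≤ S j := fun j => sum_nonneg fun l _ => by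
      split_ifs
      exacts [(ht0 _).le, le_rfl]
    set str : Fin N → Prop := fun j => (∃ l, t (idx j l) < f) ∧ ∃ l, f ≤ t (idx j l) with hstr
    have hgood : ∀ j l, f ≤ t (idx j l) → g (idx j l) k x - g (idx j l) k w = Δ := fun j l h => by
      rw [hgeq _ _ _ ((le_max_left _ _).trans h), hgeq _ _ _ ((le_max_right _ _).trans h)]
    have hdiff : ∀ j, A j = (∑ l, (g (idx j l) k x - g (idx j l) k w)) / J := fun j => by
      simp only [hA]; rw [sum_sub_distrib, sub_div]
    have hAle : ∀ j, (∃ l, t (idx j l) < f) →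
        |A j| ≤ (if str j then |Δ| else 0) + 2 * d / J * S j := by
      intro j hbad
      rw [hdiff, abs_div, abs_of_pos hJ0, div_le_iff₀ hJ0]
      refine (abs_sum_le_sum_abs _ _).trans ?_
      have h1 : ∀ l, |g (idx j l) k x - g (idx j l) k w| ≤
          (if str j then |Δ| else 0) + 2 * d * (if t (idx j l) < f then t (idx j l) else 0) := by
        intro l
        split_ifs with hs hl hl
        · refine le_add_of_nonneg_of_le (abs_nonneg _) ((hglip _ k x w).trans (le_of_eq ?_)); ring
        · rw [hgood j l (not_lt.1 hl), mul_zero, add_zero]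
        · rw [zero_add]; exact (hglip _ k x w).trans (le_of_eq (by ring))
        · exact absurd ⟨hbad, l, not_lt.1 hl⟩ hs
      refine (sum_le_sum fun l _ => h1 l).trans (le_of_eq ?_)
      rw [sum_add_distrib, sum_const, card_univ, Fintype.card_fin, nsmul_eq_mul, ← mul_sum]
      simp only [hS]
      field_simp
    have hterm : ∀ j, |(|A j| ^ p + |Δ - A j| ^ p) - |Δ| ^ p| ≤
        η * |Δ| ^ p + C₀ * 2 ^ p * ((if str j then |Δ| ^ p else 0) + (2 * d / J) ^ p * S j ^ p) := by
      intro j
      by_cases hbad : ∃ l, t (idx j l) < f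
      · have h := herr (A j) (Δ - A j)
        rw [add_sub_cancel] at h
        refine h.trans (add_le_add le_rfl ?_)
        rw [mul_assoc C₀]
        refine mul_le_mul_of_nonneg_left ?_ (by linarith)
        have hif : (if str j then |Δ| ^ p else 0) = (if str j then |Δ| else 0) ^ p := by
          split_ifs
          exacts [rfl, (Real.zero_rpow hp0.ne').symm]
        rw [hif, ← Real.mul_rpow (by positivity) (hS0 j)]
        refine (Real.rpow_le_rpow (abs_nonneg _) (hAle j hbad) hp0.le).trans ?_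
        exact add_rpow_le hp0.le (by split_ifs <;> simp) (mul_nonneg (by positivity) (hS0 j))
      · push Not at hbad
        have e : A j = Δ := by
          rw [hdiff]
          simp only [hgood j _ (hbad _), sum_const, card_univ, Fintype.card_fin, nsmul_eq_mul]
          field_simp
        rw [e, sub_self, abs_zero, Real.zero_rpow hp0.ne', add_zero, sub_self, abs_zero]
        have h0 : 0 ≤ (if str j then |Δ| ^ p else 0) := by split_ifs <;> positivity
        have := mul_nonneg (show 0 ≤ (2 * d / J) ^ p by positivity) (Real.rpow_nonneg (hS0 j) p)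
        have := mul_nonneg (show 0 ≤ C₀ * 2 ^ p by positivity) (add_nonneg h0 this)
        have := mul_nonneg hη.le (Real.rpow_nonneg (abs_nonneg Δ) p)
        linarith
    have hone : (univ.filter str).card ≤ 1 := by
      refine card_le_one.2 fun a ha b hb => ?_
      simp only [mem_filter, mem_univ, true_and] at ha hb
      have key : ∀ a b : Fin N, str a → str b → a ≤ b := by
        intro a b ⟨_, l', hl'⟩ ⟨⟨l, hl⟩, _⟩
        by_contra hba
        push Not at hba
        have h1 : ((b : ℕ) + 1) * J ≤ (a : ℕ) * J := Nat.mul_le_mul_right J hba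
        have h2 : idx b l ≤ idx a l' := by
          rw [add_mul, one_mul] at h1
          simp only [hidx]
          have := l.2
          omega
        linarith [htanti h2]
      exact le_antisymm (key a b ha hb) (key b a hb ha)
    have hstrsum : ∑ j, (if str j then |Δ| ^ p else 0) ≤ |Δ| ^ p := by
      rw [← sum_filter, sum_const, nsmul_eq_mul]
      exact mul_le_of_le_one_left (by positivity) (by exact_mod_cast hone)
    have hSsum : ∑ j, S j ^ p ≤ 2 ^ p * (F x k ^ p + F w k ^ p) := by
      refine (sum_rpow_le univ hp S hS0).trans ?_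
      have h1 : ∑ j, S j ≤ 2 * f := by
        refine le_trans (le_of_eq ?_) (sum_thresholds_le hT.le hf0 (N * J))
        rw [Finset.sum_range (fun i => if T * exp (-(i : ℝ)) < f then T * exp (-(i : ℝ)) else 0),
          ← finProdFinEquiv.sum_comp, Fintype.sum_prod_type]
        refine sum_congr rfl fun j _ => sum_congr rfl fun l _ => ?_
        have e : ((finProdFinEquiv (j, l) : Fin (N * J)) : ℕ) = idx j l := by
          simp only [finProdFinEquiv_apply_val, hidx]; ring
        rw [e]
      refine (Real.rpow_le_rpow (sum_nonneg fun j _ => hS0 j) h1 hp0.le).trans ?_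
      rw [Real.mul_rpow two_pos.le hf0]
      refine mul_le_mul_of_nonneg_left ?_ (by positivity)
      rcases le_total (F x k) (F w k) with h | h
      · rw [hf, max_eq_right h]; linarith [Real.rpow_nonneg (hF0 x k) p]
      · rw [hf, max_eq_left h]; linarith [Real.rpow_nonneg (hF0 w k) p]
    refine le_trans (le_of_eq (sum_congr rfl fun j _ => ?_)) ((sum_le_sum fun j _ => hterm j).trans ?_)
    · simp only [hA, hΔ]; ring_nf
    rw [sum_add_distrib, sum_const, card_univ, Fintype.card_fin, nsmul_eq_mul, ← mul_sum,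
      sum_add_distrib, ← mul_sum]
    have hsum2 := mul_le_mul_of_nonneg_left hSsum (show 0 ≤ (2 * d / J) ^ p by positivity)
    have h28 : (2 : ℝ) ^ p ≤ 8 ^ p := Real.rpow_le_rpow two_pos.le (by norm_num) hp0.le
    have e8 : (2 : ℝ) ^ p * ((2 * d / J) ^ p * (2 ^ p * (F x k ^ p + F w k ^ p))) =
        8 ^ p * ((d / J) ^ p * (F x k ^ p + F w k ^ p)) := by
      rw [mul_div_assoc, Real.mul_rpow two_pos.le (by positivity),
        show (8 : ℝ) ^ p = 2 ^ p * 2 ^ p * 2 ^ p by
          rw [← Real.mul_rpow two_pos.le two_pos.le, ← Real.mul_rpow (by norm_num) two_pos.le]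
          norm_num]
      ring
    have hCC := mul_le_mul_of_nonneg_left (add_le_add hstrsum hsum2)
      (show 0 ≤ C₀ * 2 ^ p by positivity)
    have h9 := mul_le_mul_of_nonneg_right
      (mul_le_mul_of_nonneg_left h28 (show 0 ≤ C₀ by linarith)) (Real.rpow_nonneg (abs_nonneg Δ) p)
    have e9 : C₀ * ((2 : ℝ) ^ p * ((2 * d / J) ^ p * (2 ^ p * (F x k ^ p + F w k ^ p)))) =
        C₀ * (8 ^ p * ((d / J) ^ p * (F x k ^ p + F w k ^ p))) := by rw [e8]
    linarith
  have hdp : d ^ p = ∑ k, |(X x) k - (X w) k| ^ p := by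
    rw [hd, lq_norm_pow hp0]; rfl
  rw [sum_comm, show (N : ℝ) * d ^ p = ∑ k, ∑ _j : Fin N, |(X x) k - (X w) k| ^ p by
    rw [hdp, mul_sum]; simp, ← sum_sub_distrib]
  simp only [← sum_sub_distrib]
  refine (abs_sum_le_sum_abs _ _).trans ((sum_le_sum fun k _ => (abs_sum_le_sum_abs _ _).trans
    (hcoord k)).trans (le_of_eq ?_))
  rw [sum_add_distrib, ← mul_sum, ← mul_sum, hdp, sum_add_distrib]

end Vale.Agent.P249.Iso
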