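import Vale.Agent.P249.Smoothing

namespace Vale.Agent.P249

open Finset Real

variable {m : ℕ}

/-- sign as an integer -/
def sgn (b : Bool) : ℤ := if b then 1 else -1

/-- the sign vector of `e` -/
def sv (e : Fin m → Bool) : Fin m → ℤ := fun i => sgn (e i)

lemma sgn_sq (b : Bool) : (sgn b : ℝ) ^ 2 = 1 := by cases b <;> simp [sgn]

lemma size1_sv (e : Fin m → Bool) : size1 (sv e) = m := by
  have : ∀ i, (sv e i).natAbs = 1 := fun i => by simp only [sv, sgn]; split_ifs <;> rfl
  simp [size1, this]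

lemma sum_exp_dot (c : Fin m → ℝ) :
    ∑ e : Fin m → Bool, exp (∑ i, (sgn (e i) : ℝ) * c i) ≤ 2 ^ m * exp ((∑ i, c i ^ 2) / 2) := by
  simp only [Real.exp_sum]
  rw [← Fintype.prod_sum (fun i b => exp ((sgn b : ℝ) * c i))]
  calc ∏ i, ∑ b : Bool, exp ((sgn b : ℝ) * c i) = ∏ i, (2 * cosh (c i)) := by
        refine Finset.prod_congr rfl fun i _ => ?_
        simp [sgn, cosh_eq]; ring
    _ ≤ ∏ i, (2 * exp (c i ^ 2 / 2)) := by
        gcongr with i
        exact cosh_le_exp_half_sq _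
    _ = _ := by
        rw [Finset.prod_mul_distrib, ← Real.exp_sum, Finset.prod_const, ← Finset.sum_div]; simp

/-- constant in Khintchine's inequality -/
noncomputable def kc (p : ℝ) : ℝ := 1 + 4 * (⌈p⌉₊.factorial : ℝ)

lemma kc_pos (p : ℝ) : 0 < kc p := by unfold kc; positivity

lemma rpow_le_exp {p t : ℝ} (hp : 0 ≤ p) :
    |t| ^ p ≤ 1 + (⌈p⌉₊.factorial : ℝ) * (exp t + exp (-t)) := by
  have h0 : 0 ≤ (⌈p⌉₊.factorial : ℝ) * (exp t + exp (-t)) := by positivity
  rcases le_total |t| 1 with h | h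
  · have := rpow_le_one (abs_nonneg t) h hp
    linarith
  · have h1 : |t| ^ p ≤ |t| ^ (⌈p⌉₊ : ℕ) := by
      rw [← rpow_natCast]; exact rpow_le_rpow_of_exponent_le h (Nat.le_ceil p)
    have h2 := pow_div_factorial_le_exp |t| (abs_nonneg t) ⌈p⌉₊
    rw [div_le_iff₀ (by positivity)] at h2
    have h3 : exp |t| ≤ exp t + exp (-t) := by
      rcases abs_choice t with h | h <;> rw [h] <;> linarith [exp_pos t, exp_pos (-t)]
    nlinarith [mul_le_mul_of_nonneg_left h3 (Nat.cast_nonneg' ⌈p⌉₊.factorial : (0 : ℝ) ≤ _)]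

lemma khintchine {p : ℝ} (hp : 1 ≤ p) (a : Fin m → ℝ) :
    ∑ e : Fin m → Bool, |∑ i, (sgn (e i) : ℝ) * a i| ^ p
      ≤ 2 ^ m * kc p * Real.sqrt (∑ i, a i ^ 2) ^ p := by
  set A := Real.sqrt (∑ i, a i ^ 2) with hA
  rcases (Real.sqrt_nonneg (∑ i, a i ^ 2)).eq_or_lt with h | h
  · rw [← hA] at h
    have hz : ∀ i, a i = 0 := fun i => by
      have h0 := (Real.sqrt_eq_zero (Finset.sum_nonneg fun i _ => sq_nonneg (a i))).mp h.symm
      have := (Finset.sum_eq_zero_iff_of_nonneg fun i _ => sq_nonneg (a i)).mp h0 i (mem_univ i)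
      simpa using this
    simp [hz, ← h, Real.zero_rpow (show p ≠ 0 by linarith)]
  rw [← hA] at h
  have hA2 : ∑ i, (a i / A) ^ 2 = 1 := by
    rw [Finset.sum_congr rfl fun i _ => div_pow (a i) A 2, ← Finset.sum_div,
      hA, Real.sq_sqrt (Finset.sum_nonneg fun i _ => sq_nonneg _), div_self]
    intro h0; rw [hA, h0] at h; simp at h
  have hhalf : exp (1 / 2 : ℝ) ≤ 2 := by
    have h1 : exp (1 / 2 : ℝ) ^ 2 = exp 1 := by rw [← Real.exp_nat_mul]; norm_num
    nlinarith [exp_one_lt_d9, exp_pos (1 / 2 : ℝ)]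
  have h1 : ∀ e : Fin m → Bool, |∑ i, (sgn (e i) : ℝ) * a i| ^ p ≤ A ^ p * (1 + (⌈p⌉₊.factorial : ℝ) *
      (exp (∑ i, (sgn (e i) : ℝ) * (a i / A)) + exp (∑ i, (sgn (e i) : ℝ) * (-(a i / A))))) := by
    intro e
    have e1 : ∑ i, (sgn (e i) : ℝ) * a i = A * ∑ i, (sgn (e i) : ℝ) * (a i / A) := by
      rw [Finset.mul_sum]; exact Finset.sum_congr rfl fun i _ => by field_simp
    rw [e1, abs_mul, abs_of_pos h, mul_rpow h.le (abs_nonneg _)]
    gcongr
    refine (rpow_le_exp (by linarith)).trans (le_of_eq ?_)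
    simp only [mul_neg, Finset.sum_neg_distrib]
  refine (Finset.sum_le_sum fun e _ => h1 e).trans ?_
  rw [← Finset.mul_sum, Finset.sum_add_distrib, ← Finset.mul_sum, Finset.sum_add_distrib]
  have s1 := sum_exp_dot (fun i => a i / A)
  have s2 := sum_exp_dot (fun i => -(a i / A))
  simp only [neg_sq] at s2
  rw [hA2] at s1 s2
  have hc : (∑ _e : Fin m → Bool, (1 : ℝ)) = 2 ^ m := by simp
  rw [hc, kc]
  have hf : (0 : ℝ) ≤ ⌈p⌉₊.factorial := Nat.cast_nonneg' _
  have h2m : (0 : ℝ) < 2 ^ m := by positivity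
  have := mul_le_mul_of_nonneg_left (show (∑ e : Fin m → Bool, exp (∑ i, (sgn (e i) : ℝ) * (a i / A)))
      + ∑ e : Fin m → Bool, exp (∑ i, (sgn (e i) : ℝ) * (-(a i / A))) ≤ 2 ^ m * 4 by
      nlinarith) hf
  nlinarith [mul_le_mul_of_nonneg_left this (show 0 ≤ A ^ p by positivity)]

/-- the Euclidean vector `v` inside `ℓ_p^(2^m)` -/
noncomputable def emb (p : ℝ) (v : Fin m → ℤ) (e : Fin m → Bool) : ℝ :=
  (∑ i, (sgn (e i) : ℝ) * v i) / ((2 : ℝ) ^ m) ^ (1 / p)

lemma emb_sub (p : ℝ) (v w : Fin m → ℤ) (e : Fin m → Bool) :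
    emb p v e - emb p w e = emb p (v - w) e := by
  simp [emb, ← sub_div, ← Finset.sum_sub_distrib, mul_sub]

lemma sum_sgn_sq (v : Fin m → ℝ) :
    ∑ e : Fin m → Bool, (∑ i, (sgn (e i) : ℝ) * v i) ^ 2 = 2 ^ m * ∑ i, v i ^ 2 := by
  induction m with
  | zero => simp
  | succ m ih =>
    rw [← (Fin.consEquiv fun _ : Fin (m + 1) => Bool).sum_comp, Fintype.sum_prod_type]
    simp only [Fin.consEquiv, Equiv.coe_fn_mk, Fin.sum_univ_succ, Fin.cons_zero, Fin.cons_succ,
      Fintype.sum_bool, sgn, ↓reduceIte, Bool.false_eq_true]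
    push_cast
    have h := ih (fun i => v i.succ)
    simp only [sgn] at h
    push_cast at h
    simp only [add_sq, Finset.sum_add_distrib, Finset.sum_const, Finset.card_univ,
      Fintype.card_pi, Fintype.card_bool, Finset.prod_const, Fintype.card_fin, nsmul_eq_mul,
      ← Finset.mul_sum, h]
    push_cast
    ring

lemma emb_norm {p : ℝ} (hp : 2 ≤ p) (v : Fin m → ℤ) :
    len v ≤ (∑ e, |emb p v e| ^ p) ^ (1 / p) ∧
      (∑ e, |emb p v e| ^ p) ^ (1 / p) ≤ kc p ^ (1 / p) * len v := by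
  have hp0 : 0 < p := by linarith
  have h2 : (0 : ℝ) < 2 ^ m := by positivity
  have hsum : ∑ e, |emb p v e| ^ p =
      (∑ e : Fin m → Bool, |∑ i, (sgn (e i) : ℝ) * v i| ^ p) / 2 ^ m := by
    rw [Finset.sum_div]
    refine Finset.sum_congr rfl fun e _ => ?_
    rw [emb, abs_div, abs_of_pos (rpow_pos_of_pos h2 _), div_rpow (abs_nonneg _) (by positivity),
      ← rpow_mul h2.le, one_div_mul_cancel hp0.ne', rpow_one]
  rw [hsum]
  constructor
  · -- power mean
    have hpm := Real.rpow_arith_mean_le_arith_mean_rpow (Finset.univ : Finset (Fin m → Bool))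
      (fun _ => 1 / (2 : ℝ) ^ m) (fun e => (∑ i, (sgn (e i) : ℝ) * v i) ^ 2)
      (fun e _ => by positivity) (by simp) (fun e _ => sq_nonneg _)
      (p := p / 2) (by linarith)
    rw [← Finset.mul_sum, ← Finset.mul_sum, sum_sgn_sq] at hpm
    have e1 : ∀ t : ℝ, (t ^ 2) ^ (p / 2) = |t| ^ p := fun t => by
      rw [← sq_abs, ← rpow_natCast, ← rpow_mul (abs_nonneg t)]; congr 1; push_cast; ring
    rw [Finset.sum_congr rfl fun e _ => e1 _] at hpm
    have e2 : (1 / (2 : ℝ) ^ m * (2 ^ m * ∑ i, (v i : ℝ) ^ 2)) ^ (p / 2) = len v ^ p := by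
      rw [one_div, inv_mul_cancel_left₀ h2.ne', len, Real.sqrt_eq_rpow,
        ← rpow_mul (Finset.sum_nonneg fun i _ => sq_nonneg _)]
      congr 1; ring
    rw [e2, one_div, inv_mul_eq_div] at hpm
    have := rpow_le_rpow (rpow_nonneg (len_nonneg v) p) hpm (show 0 ≤ 1 / p by positivity)
    rwa [← rpow_mul (len_nonneg v), mul_one_div_cancel hp0.ne', rpow_one] at this
  · have hk := khintchine (by linarith : 1 ≤ p) (fun i => (v i : ℝ))
    have h := rpow_le_rpow (by positivity) ((div_le_iff₀ h2).mpr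
      (hk.trans (le_of_eq (show _ = kc p * len v ^ p * 2 ^ m by unfold len; ring))))
      (show 0 ≤ 1 / p by positivity)
    refine h.trans (le_of_eq ?_)
    rw [mul_rpow (kc_pos p).le (by positivity [len_nonneg v]), ← rpow_mul (len_nonneg v),
      mul_one_div_cancel hp0.ne', rpow_one]

/-- one coordinate: random diagonal increments of a smoothed Lipschitz function are small -/
lemma coord_bound {p : ℝ} (hp : 1 ≤ p) {s : ℕ} (hs : 8 * m ^ 2 ≤ s) (hs1 : 1 ≤ s)
    (f : (Fin m → ℤ) → ℝ) (K : ℝ) (hK : 0 ≤ K)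
    (hf : ∀ x w, |f (x + w) - f x| ≤ K * len w) (y : Fin m → ℤ) :
    ∑ e : Fin m → Bool, |avg s f (y + sv e) - avg s f (y - sv e)| ^ p
      ≤ 2 ^ m * ((24 : ℝ) ^ p * K ^ p * (kc p + 1)) := by
  set a := grad s f y with ha
  have hg := grad_bound hs hs1 f K hK hf y
  have hs0 : (0 : ℝ) < s := by exact_mod_cast hs1
  have hpt : ∀ e : Fin m → Bool, |avg s f (y + sv e) - avg s f (y - sv e)|
      ≤ 2 * |∑ i, (sgn (e i) : ℝ) * a i| + K := by
    intro e
    have h1 := avg_linear hs1 f K hK hf y (sv e)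
    have h2 := avg_linear hs1 f K hK hf y (-sv e)
    rw [← sub_eq_add_neg] at h2
    have hsz : size1 (-sv e) = m := by
      rw [show size1 (-sv e) = size1 (sv e) by simp [size1], size1_sv]
    rw [size1_sv] at h1
    rw [hsz] at h2
    have herr : 2 * K * (m : ℝ) ^ 2 / s ≤ K / 2 := by
      rw [div_le_iff₀ hs0]
      have : 8 * (m : ℝ) ^ 2 ≤ s := by exact_mod_cast hs
      nlinarith [mul_le_mul_of_nonneg_left this hK]
    simp only [Pi.neg_apply, Int.cast_neg, neg_mul, Finset.sum_neg_distrib, sv] at h1 h2 ⊢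
    rw [abs_le] at h1 h2 ⊢
    constructor <;> linarith [abs_le.mp (le_refl |∑ i, (sgn (e i) : ℝ) * a i|)]
  have hsplit : ∀ e : Fin m → Bool, |avg s f (y + sv e) - avg s f (y - sv e)| ^ p
      ≤ (4 : ℝ) ^ p * |∑ i, (sgn (e i) : ℝ) * a i| ^ p + (2 : ℝ) ^ p * K ^ p := by
    intro e
    refine (rpow_le_rpow (abs_nonneg _) (hpt e) (by linarith)).trans ?_
    set t := |∑ i, (sgn (e i) : ℝ) * a i|
    have ht : 0 ≤ t := abs_nonneg _
    rcases le_total K (2 * t) with h | h
    · calc (2 * t + K) ^ p ≤ (4 * t) ^ p := rpow_le_rpow (by positivity) (by linarith) (by linarith)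
        _ = 4 ^ p * t ^ p := mul_rpow (by norm_num) ht
        _ ≤ _ := le_add_of_nonneg_right (by positivity)
    · calc (2 * t + K) ^ p ≤ (2 * K) ^ p := rpow_le_rpow (by positivity) (by linarith) (by linarith)
        _ = 2 ^ p * K ^ p := mul_rpow (by norm_num) hK
        _ ≤ _ := le_add_of_nonneg_left (by positivity)
  refine (Finset.sum_le_sum fun e _ => hsplit e).trans ?_
  rw [Finset.sum_add_distrib, ← Finset.mul_sum]
  have hk := khintchine hp a
  have hA : Real.sqrt (∑ i, a i ^ 2) ^ p ≤ 6 ^ p * K ^ p := by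
    rw [← mul_rpow (by norm_num) hK]; exact rpow_le_rpow (Real.sqrt_nonneg _) hg (by linarith)
  have h24 : (24 : ℝ) ^ p = 4 ^ p * 6 ^ p := by
    rw [← mul_rpow (by norm_num) (by norm_num)]; norm_num
  have h2 : (2 : ℝ) ^ p ≤ 24 ^ p := rpow_le_rpow (by norm_num) (by norm_num) (by linarith)
  simp only [Finset.sum_const, Finset.card_univ, Fintype.card_pi, Fintype.card_bool,
    Finset.prod_const, Fintype.card_fin, nsmul_eq_mul]
  push_cast
  have hk' : ∑ e : Fin m → Bool, |∑ i, (sgn (e i) : ℝ) * a i| ^ p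
      ≤ 2 ^ m * kc p * (6 ^ p * K ^ p) :=
    hk.trans (mul_le_mul_of_nonneg_left hA (by have := kc_pos p; positivity))
  have h4 := mul_le_mul_of_nonneg_left hk' (show (0 : ℝ) ≤ 4 ^ p by positivity)
  have h5 := mul_le_mul_of_nonneg_left
    (mul_le_mul_of_nonneg_right h2 (show (0 : ℝ) ≤ K ^ p by positivity))
    (show (0 : ℝ) ≤ 2 ^ m by positivity)
  rw [h24] at h5 ⊢
  linarith

/-- integer cube -/
noncomputable def sbox (m L : ℕ) : Finset (Fin m → ℤ) :=
  Fintype.piFinset fun _ => Finset.Icc (-(L : ℤ)) L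

lemma mem_sbox {L : ℕ} {u : Fin m → ℤ} : u ∈ sbox m L ↔ ∀ i, |u i| ≤ L := by
  simp [sbox, Fintype.mem_piFinset, abs_le]

lemma card_sbox (m L : ℕ) : (sbox m L).card = (2 * L + 1) ^ m := by
  have : (Finset.Icc (-(L : ℤ)) L).card = 2 * L + 1 := by rw [Int.card_Icc]; omega
  simp [sbox, Fintype.card_piFinset, this]

/-- McShane extension -/
lemma mcshane {L : ℕ} (f : (Fin m → ℤ) → ℝ) (K : ℝ) (hK : 0 ≤ K)
    (hf : ∀ x ∈ sbox m L, ∀ y ∈ sbox m L, |f x - f y| ≤ K * len (x - y)) :
    ∃ g : (Fin m → ℤ) → ℝ, (∀ x ∈ sbox m L, g x = f x) ∧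
      ∀ x w, |g (x + w) - g x| ≤ K * len w := by
  have hne : (sbox m L).Nonempty := ⟨0, mem_sbox.mpr (by simp)⟩
  refine ⟨fun x => (sbox m L).sup' hne fun y => f y - K * len (x - y), fun x hx => ?_, fun x w => ?_⟩
  · refine le_antisymm (Finset.sup'_le _ _ fun y hy => ?_) ?_
    · have := (abs_le.mp (hf x hx y hy)).1; linarith
    · refine (le_of_eq ?_).trans (Finset.le_sup' (fun y => f y - K * len (x - y)) hx)
      simp [len]
  · have key : ∀ a b : Fin m → ℤ, ((sbox m L).sup' hne fun y => f y - K * len (a - y))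
        ≤ ((sbox m L).sup' hne fun y => f y - K * len (b - y)) + K * len (b - a) := by
      intro a b
      refine Finset.sup'_le _ _ fun y hy => ?_
      have h1 := Finset.le_sup' (fun y => f y - K * len (b - y)) hy
      have h2 := len_add (b - a) (a - y)
      rw [sub_add_sub_cancel] at h2
      nlinarith
    rw [abs_le]
    constructor
    · have := key x (x + w); rw [add_sub_cancel_left] at this; linarith
    · have := key (x + w) x; rw [sub_add_cancel_left, len_neg] at this; linarith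

/-- Core lower bound on the grid. -/
lemma grid_lower {p : ℝ} (hp : 2 ≤ p) (K : ℕ) (hK : 1 ≤ K) (hm : 1 ≤ m) (d L : ℕ)
    (hL : 300 * K * m ^ 3 ≤ L) (F : (Fin m → ℤ) → Fin d → ℝ)
    (hlow : ∀ x ∈ sbox m L, ∀ y ∈ sbox m L, len (x - y) ^ p ≤ ∑ k, |F x k - F y k| ^ p)
    (hup : ∀ x ∈ sbox m L, ∀ y ∈ sbox m L,
      ∑ k, |F x k - F y k| ^ p ≤ ((K : ℝ) * len (x - y)) ^ p) :
    (1 / 3 : ℝ) ^ p / (3 * 24 ^ p * (K : ℝ) ^ p * (kc p + 1)) * Real.sqrt m ^ p ≤ d := by
  classical
  have hp0 : 0 < p := by linarith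
  set s := 8 * m ^ 2 with hs
  set R := 6 * K * s with hR
  set L' := 2 * R * m with hL'
  have hs1 : 1 ≤ s := by rw [hs]; nlinarith
  have hR1 : 1 ≤ R := by rw [hR]; nlinarith
  have hLL : L' + 2 * R + s ≤ L := by
    have h1 : L' = 96 * K * m ^ 3 := by rw [hL', hR, hs]; ring
    have h2 : 2 * R = 96 * K * m ^ 2 := by rw [hR, hs]; ring
    have h3 : m ^ 2 ≤ m ^ 3 := Nat.pow_le_pow_right hm (by norm_num)
    nlinarith
  have hK0 : (0 : ℝ) ≤ K := Nat.cast_nonneg' K
  have hcoord : ∀ k : Fin d, ∀ x ∈ sbox m L, ∀ y ∈ sbox m L,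
      |F x k - F y k| ≤ (K : ℝ) * len (x - y) := by
    intro k x hx y hy
    refine (rpow_le_rpow_iff (abs_nonneg _) (by positivity [len_nonneg (x - y)]) hp0).mp ?_
    exact (Finset.single_le_sum (f := fun k => |F x k - F y k| ^ p)
      (fun k _ => by positivity) (Finset.mem_univ k)).trans (hup x hx y hy)
  choose G hGeq hGlip using fun k => mcshane (fun x => F x k) (K : ℝ) hK0 (hcoord k)
  set q := Real.sqrt (m : ℝ) with hq
  have hq0 : 0 < q := Real.sqrt_pos.mpr (by exact_mod_cast hm)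
  -- smoothing error
  have hsmall : ∀ x ∈ sbox m (L' + 2 * R),
      ∑ k, |avg s (G k) x - F x k| ^ p ≤ ((K : ℝ) * s * q) ^ p := by
    intro x hx
    have hxL : x ∈ sbox m L := mem_sbox.mpr fun i => (mem_sbox.mp hx i).trans (by
      exact_mod_cast Nat.le_of_add_right_le hLL)
    have hz : ∀ z ∈ cube m s, x + z ∈ sbox m L := by
      intro z hz
      simp only [cube, Fintype.mem_piFinset, Finset.mem_Ico] at hz
      refine mem_sbox.mpr fun i => ?_
      have h1 := mem_sbox.mp hx i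
      have h2 := hz i
      have h3 : ((L' + 2 * R : ℕ) : ℤ) + s ≤ L := by exact_mod_cast hLL
      rw [abs_le] at h1 ⊢
      simp only [Pi.add_apply]
      constructor <;> linarith
    have hsm : (0 : ℝ) < (s : ℝ) ^ m := by
      have : (0 : ℝ) < s := by exact_mod_cast hs1
      positivity
    have hk : ∀ k, |avg s (G k) x - F x k| ^ p ≤
        ∑ z ∈ cube m s, 1 / (s : ℝ) ^ m * |F (x + z) k - F x k| ^ p := by
      intro k
      have hpm := Real.rpow_arith_mean_le_arith_mean_rpow (cube m s)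
        (fun _ => 1 / (s : ℝ) ^ m) (fun z => |F (x + z) k - F x k|)
        (fun _ _ => by positivity) (by simp [card_cube, hsm.ne']) (fun _ _ => abs_nonneg _)
        (p := p) (by linarith)
      refine le_trans (rpow_le_rpow (abs_nonneg _) ?_ hp0.le) hpm
      rw [← Finset.mul_sum]
      have : avg s (G k) x - F x k = (1 / (s : ℝ) ^ m) * ∑ z ∈ cube m s, (F (x + z) k - F x k) := by
        rw [avg, Finset.sum_sub_distrib, Finset.sum_congr rfl fun z hz' => hGeq k _ (hz z hz')]
        simp [card_cube]; field_simp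
      rw [this, abs_mul, abs_of_pos (by positivity : (0 : ℝ) < 1 / (s : ℝ) ^ m)]
      exact mul_le_mul_of_nonneg_left (Finset.abs_sum_le_sum_abs _ _) (by positivity)
    refine (Finset.sum_le_sum fun k _ => hk k).trans ?_
    rw [Finset.sum_comm]
    calc ∑ z ∈ cube m s, ∑ k, 1 / (s : ℝ) ^ m * |F (x + z) k - F x k| ^ p
        ≤ ∑ z ∈ cube m s, 1 / (s : ℝ) ^ m * ((K : ℝ) * s * q) ^ p := by
          refine Finset.sum_le_sum fun z hz' => ?_
          rw [← Finset.mul_sum]
          refine mul_le_mul_of_nonneg_left ((hup _ (hz z hz') _ hxL).trans ?_) (by positivity)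
          refine rpow_le_rpow (by positivity [len_nonneg (x + z - x)]) ?_ hp0.le
          rw [mul_assoc]
          refine mul_le_mul_of_nonneg_left ?_ hK0
          rw [add_sub_cancel_left]
          simp only [cube, Fintype.mem_piFinset, Finset.mem_Ico] at hz'
          refine Real.sqrt_le_iff.mpr ⟨by positivity, ?_⟩
          rw [mul_pow, hq, Real.sq_sqrt (Nat.cast_nonneg' m)]
          calc ∑ i, (z i : ℝ) ^ 2 ≤ ∑ _i : Fin m, (s : ℝ) ^ 2 := Finset.sum_le_sum fun i _ => by
                have h2 := hz' i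
                have a : (0 : ℝ) ≤ z i := by exact_mod_cast h2.1
                have b : (z i : ℝ) ≤ s := by exact_mod_cast h2.2.le
                gcongr
            _ = _ := by simp; ring
      _ = _ := by simp [card_cube]; field_simp
  -- a long diagonal
  set B := sbox m L'
  set B' := sbox m (L' + 2 * R) with hB'
  have hlower : ∀ x ∈ B, ∀ e : Fin m → Bool,
      (2 * (R : ℝ) * q) ^ p ≤ (3 : ℝ) ^ p *
        (∑ k, |avg s (G k) (x + (2 * (R : ℤ)) • sv e) - avg s (G k) x| ^ p + 2 * ((K : ℝ) * s * q) ^ p) := by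
    intro x hx e
    set z := x + (2 * (R : ℤ)) • sv e with hz
    have hx' : x ∈ B' := mem_sbox.mpr fun i => (mem_sbox.mp hx i).trans (by push_cast; omega)
    have hz' : z ∈ B' := by
      refine mem_sbox.mpr fun i => ?_
      have h1 := mem_sbox.mp hx i
      rw [abs_le] at h1 ⊢
      simp only [hz, Pi.add_apply, Pi.smul_apply, smul_eq_mul, sv, sgn]
      push_cast
      split_ifs <;> constructor <;> omega
    have hsub : B' ⊆ sbox m L := fun u hu => mem_sbox.mpr fun i =>
      (mem_sbox.mp hu i).trans (by exact_mod_cast Nat.le_of_add_right_le hLL)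
    have hl := hlow z (hsub hz') x (hsub hx')
    have hlen : len (z - x) = 2 * (R : ℝ) * q := by
      rw [hz, add_sub_cancel_left, len, hq]
      rw [Real.sqrt_eq_iff_eq_sq (Finset.sum_nonneg fun i _ => sq_nonneg _) (by positivity),
        mul_pow, Real.sq_sqrt (Nat.cast_nonneg' m)]
      simp only [Pi.smul_apply, smul_eq_mul, Int.cast_mul, mul_pow, sv, sgn_sq]
      simp; ring
    rw [hlen] at hl
    refine hl.trans ?_
    have h3 : ∀ k, |F z k - F x k| ^ p ≤ (3 : ℝ) ^ p *
        (|avg s (G k) z - avg s (G k) x| ^ p + |avg s (G k) z - F z k| ^ p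
          + |avg s (G k) x - F x k| ^ p) := by
      intro k
      set a := |avg s (G k) z - avg s (G k) x|
      set b := |avg s (G k) z - F z k|
      set c := |avg s (G k) x - F x k|
      have hab : |F z k - F x k| ≤ a + b + c := by
        have h1 := abs_sub_le (F z k) (avg s (G k) z) (F x k)
        have h2 := abs_sub_le (avg s (G k) z) (avg s (G k) x) (F x k)
        rw [abs_sub_comm (F z k) (avg s (G k) z)] at h1
        linarith
      refine (rpow_le_rpow (abs_nonneg _) hab hp0.le).trans ?_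
      have ha : 0 ≤ a := abs_nonneg _
      have hb : 0 ≤ b := abs_nonneg _
      have hc : 0 ≤ c := abs_nonneg _
      have hmax : max a (max b c) ^ p ≤ a ^ p + b ^ p + c ^ p := by
        have := rpow_nonneg ha p; have := rpow_nonneg hb p; have := rpow_nonneg hc p
        rcases max_choice a (max b c) with h | h
        · rw [h]; linarith
        · rw [h]; rcases max_choice b c with h' | h' <;> rw [h'] <;> linarith
      calc (a + b + c) ^ p ≤ (3 * max a (max b c)) ^ p := by
            refine rpow_le_rpow (by positivity) ?_ hp0.le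
            linarith [le_max_left a (max b c), (le_max_left b c).trans (le_max_right a (max b c)),
              (le_max_right b c).trans (le_max_right a (max b c))]
        _ = 3 ^ p * max a (max b c) ^ p := mul_rpow (by norm_num) (le_max_of_le_left ha)
        _ ≤ _ := by gcongr
    refine (Finset.sum_le_sum fun k _ => h3 k).trans ?_
    rw [← Finset.mul_sum, Finset.sum_add_distrib, Finset.sum_add_distrib]
    refine mul_le_mul_of_nonneg_left ?_ (by positivity)
    linarith [hsmall x hx', hsmall z hz']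
  have hRpos : (0 : ℝ) < R := by exact_mod_cast hR1
  have hsR : 6 * (K : ℝ) * s = R := by rw [hR]; push_cast; ring
  have hlower' : ∀ x ∈ B, ∀ e : Fin m → Bool,
      (1 / 3 : ℝ) ^ p * ((R : ℝ) * q) ^ p ≤
        ∑ k, |avg s (G k) (x + (2 * (R : ℤ)) • sv e) - avg s (G k) x| ^ p := by
    intro x hx e
    have h := hlower x hx e
    have e2 : (2 * (R : ℝ) * q) ^ p = 3 ^ p * (2 / 3) ^ p * ((R : ℝ) * q) ^ p := by
      rw [← mul_rpow (by norm_num) (by norm_num), ← mul_rpow (by norm_num) (by positivity)]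
      congr 1; ring
    rw [e2] at h
    have h3pos : (0 : ℝ) < 3 ^ p := by positivity
    rw [mul_assoc] at h
    have h' := le_of_mul_le_mul_left h h3pos
    have e3 : ((K : ℝ) * s * q) ^ p = (1 / 6 : ℝ) ^ p * ((R : ℝ) * q) ^ p := by
      rw [← mul_rpow (by norm_num) (by positivity), ← hsR]; congr 1; ring
    rw [e3] at h'
    have e4 : (2 / 3 : ℝ) ^ p = 2 ^ p * (1 / 3) ^ p := by
      rw [← mul_rpow (by norm_num) (by norm_num)]; norm_num
    have e5 : (1 / 6 : ℝ) ^ p ≤ (1 / 3) ^ p := by gcongr; norm_num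
    have e6 : (4 : ℝ) ≤ 2 ^ p := by
      calc (4 : ℝ) = 2 ^ (2 : ℝ) := by norm_num
        _ ≤ _ := rpow_le_rpow_of_exponent_le (by norm_num) hp
    have hRq : 0 ≤ ((R : ℝ) * q) ^ p := by positivity
    rw [e4] at h'
    have h13 : (0 : ℝ) ≤ (1 / 3) ^ p := by positivity
    nlinarith [mul_le_mul_of_nonneg_right e5 hRq,
      mul_le_mul_of_nonneg_right e6 (mul_nonneg h13 hRq)]
  -- telescoping
  have htel : ∀ (k : Fin d) (x : Fin m → ℤ) (e : Fin m → Bool),
      |avg s (G k) (x + (2 * (R : ℤ)) • sv e) - avg s (G k) x| ^ p ≤ (R : ℝ) ^ (p - 1) *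
        ∑ j ∈ Finset.range R, |avg s (G k) (x + (2 * (j : ℤ) + 1) • sv e + sv e) -
          avg s (G k) (x + (2 * (j : ℤ) + 1) • sv e - sv e)| ^ p := by
    intro k x e
    have h := Finset.sum_range_sub (fun j : ℕ => avg s (G k) (x + (2 * (j : ℤ)) • sv e)) R
    simp only [Nat.cast_zero, mul_zero, zero_smul, add_zero] at h
    rw [← h]
    refine (rpow_le_rpow (abs_nonneg _) (Finset.abs_sum_le_sum_abs _ _) hp0.le).trans ?_
    have hh := Real.rpow_sum_le_const_mul_sum_rpow (s := Finset.range R)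
      (f := fun j : ℕ => avg s (G k) (x + (2 * ((j + 1 : ℕ) : ℤ)) • sv e) -
        avg s (G k) (x + (2 * (j : ℤ)) • sv e)) (by linarith : (1 : ℝ) ≤ p)
    rw [Finset.card_range] at hh
    refine hh.trans (le_of_eq ?_)
    congr 1
    refine Finset.sum_congr rfl fun j _ => ?_
    congr 3 <;> (congr 1; funext i; simp; ring)
  -- double counting
  have hbig : ((B.card : ℝ) * 2 ^ m) * ((1 / 3 : ℝ) ^ p * ((R : ℝ) * q) ^ p) ≤
      (d : ℝ) * ((R : ℝ) ^ (p - 1) * ((R : ℝ) * ((B'.card : ℝ) *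
        (2 ^ m * ((24 : ℝ) ^ p * (K : ℝ) ^ p * (kc p + 1)))))) := by
    calc ((B.card : ℝ) * 2 ^ m) * ((1 / 3 : ℝ) ^ p * ((R : ℝ) * q) ^ p)
        = ∑ x ∈ B, ∑ _e : Fin m → Bool, (1 / 3 : ℝ) ^ p * ((R : ℝ) * q) ^ p := by simp; ring
      _ ≤ ∑ x ∈ B, ∑ e : Fin m → Bool, ∑ k, (R : ℝ) ^ (p - 1) *
            ∑ j ∈ Finset.range R, |avg s (G k) (x + (2 * (j : ℤ) + 1) • sv e + sv e) -
              avg s (G k) (x + (2 * (j : ℤ) + 1) • sv e - sv e)| ^ p :=
          Finset.sum_le_sum fun x hx => Finset.sum_le_sum fun e _ =>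
            (hlower' x hx e).trans (Finset.sum_le_sum fun k _ => htel k x e)
      _ = ∑ k, (R : ℝ) ^ (p - 1) * ∑ j ∈ Finset.range R, ∑ e : Fin m → Bool, ∑ x ∈ B,
            |avg s (G k) (x + (2 * (j : ℤ) + 1) • sv e + sv e) -
              avg s (G k) (x + (2 * (j : ℤ) + 1) • sv e - sv e)| ^ p := by
          simp only [← Finset.mul_sum]
          congr 1
          rw [Finset.sum_comm]
          conv_lhs => arg 2; ext e; rw [Finset.sum_comm]
          rw [Finset.sum_comm]
          refine Finset.sum_congr rfl fun k _ => ?_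
          rw [Finset.sum_comm (s := Finset.range R)]
          refine Finset.sum_congr rfl fun e _ => ?_
          rw [Finset.sum_comm]
      _ ≤ ∑ _k : Fin d, (R : ℝ) ^ (p - 1) * ∑ _j ∈ Finset.range R, (B'.card : ℝ) *
            (2 ^ m * ((24 : ℝ) ^ p * (K : ℝ) ^ p * (kc p + 1))) := by
          refine Finset.sum_le_sum fun k _ => mul_le_mul_of_nonneg_left
            (Finset.sum_le_sum fun j hj => ?_) (by positivity)
          rw [Finset.mem_range] at hj
          calc ∑ e : Fin m → Bool, ∑ x ∈ B, |avg s (G k) (x + (2 * (j : ℤ) + 1) • sv e + sv e) -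
                avg s (G k) (x + (2 * (j : ℤ) + 1) • sv e - sv e)| ^ p
              ≤ ∑ e : Fin m → Bool, ∑ y ∈ B', |avg s (G k) (y + sv e) - avg s (G k) (y - sv e)| ^ p := by
                refine Finset.sum_le_sum fun e _ => ?_
                refine (le_of_eq (Finset.sum_map B (addRightEmbedding ((2 * (j : ℤ) + 1) • sv e))
                  (fun y => |avg s (G k) (y + sv e) - avg s (G k) (y - sv e)| ^ p)).symm).trans ?_
                refine Finset.sum_le_sum_of_subset_of_nonneg ?_ (fun _ _ _ => by positivity)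
                intro y hy
                obtain ⟨x, hx, rfl⟩ := Finset.mem_map.mp hy
                refine mem_sbox.mpr fun i => ?_
                have h1 := mem_sbox.mp hx i
                rw [abs_le] at h1 ⊢
                simp only [addRightEmbedding_apply, Pi.add_apply, Pi.smul_apply, smul_eq_mul, sv, sgn]
                push_cast
                split_ifs <;> constructor <;> omega
            _ = ∑ y ∈ B', ∑ e : Fin m → Bool, |avg s (G k) (y + sv e) - avg s (G k) (y - sv e)| ^ p :=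
                Finset.sum_comm
            _ ≤ _ := by
                refine (Finset.sum_le_sum fun y _ => coord_bound (by linarith) le_rfl hs1 (G k)
                  (K : ℝ) hK0 (hGlip k) y).trans (le_of_eq ?_)
                simp
      _ = _ := by simp
  have hBB : (B'.card : ℝ) ≤ 3 * (B.card : ℝ) := by
    simp only [B, hB', card_sbox]
    push_cast
    have hden : (0 : ℝ) < 2 * (L' : ℝ) + 1 := by positivity
    have he : (2 * ((L' : ℝ) + 2 * R) + 1) = (2 * (L' : ℝ) + 1) * (1 + 4 * R / (2 * (L' : ℝ) + 1)) := by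
      field_simp; ring
    have h1 : 4 * (R : ℝ) / (2 * (L' : ℝ) + 1) ≤ 1 / m := by
      rw [div_le_div_iff₀ hden (by exact_mod_cast hm), hL']; push_cast; linarith
    rw [he, mul_pow, mul_comm (3 : ℝ)]
    refine mul_le_mul_of_nonneg_left ?_ (by positivity)
    calc (1 + 4 * (R : ℝ) / (2 * (L' : ℝ) + 1)) ^ m ≤ (1 + 1 / (m : ℝ)) ^ m := by gcongr
      _ ≤ exp (1 / (m : ℝ)) ^ m := by gcongr; linarith [add_one_le_exp (1 / (m : ℝ))]
      _ ≤ 3 := by
          rw [← exp_nat_mul, mul_one_div_cancel (by positivity)]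
          linarith [exp_one_lt_d9]
  set U := (24 : ℝ) ^ p * (K : ℝ) ^ p * (kc p + 1) with hU
  have hUpos : 0 < U := by
    have := kc_pos p
    have : (0 : ℝ) < K := by exact_mod_cast hK
    positivity
  have hBpos : (0 : ℝ) < B.card := by
    simp only [B, card_sbox]; positivity
  have hRp : (R : ℝ) ^ (p - 1) * R = (R : ℝ) ^ p := by
    rw [← rpow_add_one hRpos.ne', sub_add_cancel]
  rw [mul_rpow hRpos.le hq0.le] at hbig
  have hc : 0 < (R : ℝ) ^ p * (B.card : ℝ) * 2 ^ m := by positivity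
  have hfin : (1 / 3 : ℝ) ^ p * q ^ p ≤ 3 * U * d := by
    refine le_of_mul_le_mul_left (a := (R : ℝ) ^ p * (B.card : ℝ) * 2 ^ m) ?_ hc
    have h2 : (d : ℝ) * ((R : ℝ) ^ (p - 1) * ((R : ℝ) * ((B'.card : ℝ) * (2 ^ m * U))))
        ≤ (d : ℝ) * ((R : ℝ) ^ p * ((3 * (B.card : ℝ)) * (2 ^ m * U))) := by
      rw [← mul_assoc ((R : ℝ) ^ (p - 1)), hRp]; gcongr
    linarith
  rw [show (3 : ℝ) * 24 ^ p * (K : ℝ) ^ p * (kc p + 1) = 3 * U by rw [hU]; ring,
    div_mul_eq_mul_div, div_le_iff₀ (by positivity)]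
  linarith

end Vale.Agent.P249
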