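import Vale.Agent.P249.Tail

/-!
Mean of `|2 T sin (S / (2 T))| ^ p` for a power-tailed linear form `S`.
-/

namespace Vale.Agent.P249

open MeasureTheory Real Finset

/-- Level of index `i`. -/
noncomputable def level (K ρ : ℝ) (i : ℕ) : ℝ := K * ρ ^ i

lemma min_level_le {v : ℝ} {u : ℕ → ℝ} (hu : Monotone u) {i₀ J : ℕ} (h : i₀ ≤ J) :
    min v (u J) ≤ u i₀ + ∑ i ∈ Ico i₀ J, (u (i + 1) - u i) * (if u i < v then 1 else 0) := by
  induction J, h using Nat.le_induction with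
  | base => simp
  | succ J hJ ih =>
    rw [sum_Ico_succ_top hJ]
    have h1 := hu (Nat.le_succ J)
    have h3 : min v (u (J + 1)) ≤
        min v (u J) + (u (J + 1) - u J) * (if u J < v then 1 else 0) := by
      split_ifs with h2
      · rw [min_eq_right h2.le, mul_one]; linarith [min_le_right v (u (J + 1))]
      · push Not at h2
        rw [min_eq_left h2, mul_zero, add_zero]; exact min_le_left _ _
    linarith

lemma le_min_level {v : ℝ} {u : ℕ → ℝ} (hu : Monotone u) (hu0 : ∀ i, 0 ≤ u i) (hv : 0 ≤ v)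
    {i₀ J : ℕ} (h : i₀ ≤ J) :
    ∑ i ∈ Ico i₀ J, (u (i + 1) - u i) * (if u (i + 1) < v then 1 else 0) ≤ min v (u J) := by
  induction J, h using Nat.le_induction with
  | base => simpa using le_min hv (hu0 _)
  | succ J hJ ih =>
    rw [sum_Ico_succ_top hJ]
    have h1 := hu (Nat.le_succ J)
    split_ifs with h2
    · rw [min_eq_right h2.le, mul_one]; linarith [min_le_right v (u J)]
    · rw [mul_zero, add_zero]; exact ih.trans (min_le_min_left v h1)

/-- The phase-averaged feature, up to a constant. -/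
noncomputable def wave (p T s : ℝ) : ℝ := |2 * T * sin (s / (2 * T))| ^ p

lemma abs_sin_ge {z : ℝ} (hz : |z| ≤ 1) : |z| * (1 - |z| / 2) ≤ |sin z| := by
  rcases eq_or_ne z 0 with rfl | hne
  · simp
  have h0 : 0 < |z| := abs_pos.mpr hne
  have h := sin_gt_sub_cube h0
  have h2 : |sin z| = |sin (|z|)| := by
    rcases abs_choice z with h | h <;> rw [h]
    rw [sin_neg, abs_neg]
  rw [h2]
  refine le_trans ?_ (le_abs_self _)
  nlinarith [mul_le_of_le_one_left h0.le hz, sq_nonneg |z|]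

lemma mean_constants {δ K J j₀ j₁ : ℝ} (hδ : 0 < δ) (hδ1 : δ ≤ 1 / 40) (hK : 0 ≤ K)
    (hj₁ : 0 ≤ j₁) (hJbig : j₁ + K / δ + 4 ≤ δ ^ 2 * J) (hj : j₀ ≤ δ * J) :
    let α := (1 - δ) * ((1 - δ) * (δ / (1 + δ)) * (J - j₀) - (1 + δ))
    1 ≤ α ∧ (1 + δ) * δ * (J + j₁) + K * (1 + δ) ≤ (1 + 20 * δ) * α := by
  intro α
  have hK' : 0 ≤ K / δ := by positivity
  have hJ0 : 0 < J := by
    by_contra h
    push Not at h
    nlinarith [sq_nonneg δ]
  have hδJ : 4 ≤ δ ^ 2 * J := by linarith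
  have h4 : 4 ≤ δ * J := hδJ.trans (by
    rw [sq, mul_assoc]; exact mul_le_of_le_one_left (by positivity) (by linarith))
  have e : δ * (1 - δ) ≤ δ / (1 + δ) := by
    rw [le_div_iff₀ (by positivity)]; nlinarith [pow_nonneg hδ.le 3]
  have h1δ : 0 ≤ 1 - δ := by linarith
  have h1 : (1 - δ) * (δ * (1 - δ)) * ((1 - δ) * J) ≤ (1 - δ) * (δ / (1 + δ)) * (J - j₀) := by
    have : (1 - δ) * J ≤ J - j₀ := by linarith
    gcongr
  have h2 : 1 + δ ≤ δ * (δ * J) := by rw [← mul_assoc, ← sq]; linarith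
  have hpoly : 1 - 5 * δ ≤ (1 - δ) * ((1 - δ) ^ 3 - δ) := by
    nlinarith [pow_nonneg hδ.le 3, pow_le_pow_of_le_one hδ.le (by linarith) (show 2 ≤ 3 by norm_num)]
  have hbase : δ * J * (1 - 5 * δ) ≤ α := by
    calc δ * J * (1 - 5 * δ) ≤ δ * J * ((1 - δ) * ((1 - δ) ^ 3 - δ)) := by gcongr
      _ = (1 - δ) * ((1 - δ) * (δ * (1 - δ)) * ((1 - δ) * J) - δ * (δ * J)) := by ring
      _ ≤ _ := mul_le_mul_of_nonneg_left (by linarith) h1δ
  refine ⟨?_, ?_⟩
  · have : 4 * (1 - 5 * δ) ≤ δ * J * (1 - 5 * δ) := mul_le_mul_of_nonneg_right h4 (by linarith)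
    linarith
  have hKJ : K ≤ δ ^ 2 * J := by
    have h : K ≤ δ ^ 2 * J * δ := (div_le_iff₀ hδ).mp (by linarith)
    exact h.trans (mul_le_of_le_one_right (by positivity) (by linarith))
  have hjJ : j₁ ≤ δ * J := by
    have : δ ^ 2 * J ≤ δ * J := by
      rw [sq, mul_assoc]; exact mul_le_of_le_one_left (by positivity) (by linarith)
    linarith
  calc (1 + δ) * δ * (J + j₁) + K * (1 + δ)
      ≤ (1 + δ) * δ * (J + δ * J) + δ ^ 2 * J * (1 + δ) := by gcongr
    _ = δ * J * ((1 + δ) * (1 + 2 * δ)) := by ring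
    _ ≤ δ * J * ((1 + 20 * δ) * (1 - 5 * δ)) :=
        mul_le_mul_of_nonneg_left (by nlinarith) (by positivity)
    _ = (1 + 20 * δ) * (δ * J * (1 - 5 * δ)) := by ring
    _ ≤ _ := mul_le_mul_of_nonneg_left hbase (by linarith)

lemma wave_nonneg (p T s : ℝ) : 0 ≤ wave p T s := rpow_nonneg (abs_nonneg _) _

lemma wave_le_top {p T : ℝ} (hp : 0 ≤ p) (hT : 0 < T) (s : ℝ) : wave p T s ≤ (2 * T) ^ p := by
  refine rpow_le_rpow (abs_nonneg _) ?_ hp
  rw [abs_mul, abs_of_pos (by positivity : 0 < 2 * T)]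
  exact mul_le_of_le_one_right (by positivity) (abs_sin_le_one _)

lemma wave_le_self {p T : ℝ} (hp : 0 ≤ p) (hT : 0 < T) (s : ℝ) : wave p T s ≤ |s| ^ p := by
  refine rpow_le_rpow (abs_nonneg _) ?_ hp
  rw [abs_mul, abs_of_pos (by positivity : 0 < 2 * T)]
  calc 2 * T * |sin (s / (2 * T))| ≤ 2 * T * |s / (2 * T)| :=
        mul_le_mul_of_nonneg_left abs_sin_le_abs (by positivity)
    _ = _ := by rw [abs_div, abs_of_pos (by positivity : 0 < 2 * T)]; field_simp

lemma le_wave {p T δ s : ℝ} (hp : 0 ≤ p) (hp2 : p ≤ 2) (hT : 0 < T) (hδ : 0 < δ) (hδ1 : δ ≤ 1)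
    (hs : |s| ≤ δ * T) : (1 - δ) * |s| ^ p ≤ wave p T s := by
  have hz : |s / (2 * T)| ≤ δ / 2 := by
    rw [abs_div, abs_of_pos (by positivity : 0 < 2 * T), div_le_iff₀ (by positivity)]
    linarith
  have hsin := abs_sin_ge (hz.trans (by linarith))
  have hge : |s| * (1 - δ / 4) ≤ |2 * T * sin (s / (2 * T))| := by
    rw [abs_mul, abs_of_pos (by positivity : 0 < 2 * T)]
    calc |s| * (1 - δ / 4) = 2 * T * (|s / (2 * T)| * (1 - δ / 4)) := by
          rw [abs_div, abs_of_pos (by positivity : 0 < 2 * T)]; field_simp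
      _ ≤ 2 * T * (|s / (2 * T)| * (1 - |s / (2 * T)| / 2)) :=
          mul_le_mul_of_nonneg_left (mul_le_mul_of_nonneg_left (by linarith) (abs_nonneg _))
            (by positivity)
      _ ≤ _ := mul_le_mul_of_nonneg_left hsin (by positivity)
  calc (1 - δ) * |s| ^ p ≤ (1 - δ / 4) ^ p * |s| ^ p := by
        refine mul_le_mul_of_nonneg_right ?_ (rpow_nonneg (abs_nonneg _) _)
        calc 1 - δ ≤ (1 - δ / 4) ^ 2 := by nlinarith
          _ ≤ (1 - δ / 4) ^ p := by
            rw [← rpow_two]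
            exact rpow_le_rpow_of_exponent_ge (by linarith) (by linarith) hp2
    _ = (|s| * (1 - δ / 4)) ^ p := by rw [mul_rpow (abs_nonneg _) (by linarith), mul_comm]
    _ ≤ _ := rpow_le_rpow (mul_nonneg (abs_nonneg _) (by linarith)) hge hp

lemma integral_lower {Ω : Type*} [MeasurableSpace Ω] {μ : Measure Ω} {g : Ω → ℝ} {f : ℕ → Ω → ℝ}
    (hg : Integrable g μ) (hf : ∀ i, Integrable (f i) μ) (s : Finset ℕ) (c : ℕ → ℝ) (a b : ℝ)
    (k : ℕ) (h : ∀ w, a * ((∑ i ∈ s, c i * f (i + 1) w) - b * f k w) ≤ g w) :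
    a * ((∑ i ∈ s, c i * ∫ w, f (i + 1) w ∂μ) - b * ∫ w, f k w ∂μ) ≤ ∫ w, g w ∂μ := by
  have h1 : Integrable (fun w => ∑ i ∈ s, c i * f (i + 1) w) μ :=
    integrable_finsetSum _ fun i _ => (hf (i + 1)).const_mul _
  have h2 : Integrable (fun w => b * f k w) μ := (hf k).const_mul _
  have := integral_mono ((h1.sub' h2).const_mul a) hg h
  rw [integral_const_mul, integral_sub h1 h2,
    integral_finsetSum _ fun i _ => (hf (i + 1)).const_mul _] at this
  simpa only [integral_const_mul] using this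

lemma integral_upper {Ω : Type*} [MeasurableSpace Ω] {μ : Measure Ω} [IsProbabilityMeasure μ]
    {g : Ω → ℝ} {f : ℕ → Ω → ℝ} (hg : Integrable g μ) (hf : ∀ i, Integrable (f i) μ)
    (s : Finset ℕ) (c : ℕ → ℝ) (b : ℝ) (h : ∀ w, g w ≤ b + ∑ i ∈ s, c i * f i w) :
    ∫ w, g w ∂μ ≤ b + ∑ i ∈ s, c i * ∫ w, f i w ∂μ := by
  have h1 : Integrable (fun w => ∑ i ∈ s, c i * f i w) μ :=
    integrable_finsetSum _ fun i _ => (hf i).const_mul _
  have := integral_mono (g := fun w => b + ∑ i ∈ s, c i * f i w) hg ((integrable_const b).add h1) h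
  rw [integral_add (integrable_const b) h1, integral_const,
    integral_finsetSum _ fun i _ => (hf i).const_mul _] at this
  simpa [integral_const_mul] using this

lemma exists_mean {p : ℝ} (hp1 : 1 ≤ p) (hp2 : p < 2) {δ : ℝ} (hδ : 0 < δ) (hδ1 : δ ≤ 1 / 40) :
    ∃ K, 1 ≤ K ∧ ∃ j₁ Q : ℕ, ∀ (j₀ : ℕ) (M : ℝ), M ≤ (1 + δ) ^ j₀ →
      ∀ T : ℝ, T = level K (1 + δ) (Q * (j₀ + 1)) ^ (1 / p) / δ →
        (2 * T) ^ p ≤ level K (1 + δ) (Q * (j₀ + 1) + j₁) ∧ ∃ α, 1 ≤ α ∧
          ∀ (N : ℕ) (a : Fin N → ℝ), 1 ≤ ∑ i, |a i| ^ p → ∑ i, |a i| ^ p ≤ M →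
            α * ∑ i, |a i| ^ p ≤ ∫ w, wave p T (form p a w) ∂law N ∧
              ∫ w, wave p T (form p a w) ∂law N ≤ (1 + 20 * δ) * α * ∑ i, |a i| ^ p := by
  have hp : 0 < p := by linarith
  obtain ⟨K, hK1, htail⟩ := exists_tail hp1 hp2 hδ (by linarith)
  obtain ⟨j₁, hj₁⟩ := pow_unbounded_of_one_lt ((2 / δ) ^ p) (show 1 < 1 + δ by linarith)
  set Q := ⌈(((j₁ : ℝ) + K / δ + 4) / δ ^ 2)⌉₊ + 1 with hQ
  refine ⟨K, hK1, j₁, Q, ?_⟩
  intro j₀ M hM T hT
  set ρ := 1 + δ with hρ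
  set u := level K ρ with hu
  set J := Q * (j₀ + 1) with hJ
  have hρ1 : 1 ≤ ρ := by linarith
  have hK0 : 0 < K := by linarith
  have humono : Monotone u := fun i k hik =>
    mul_le_mul_of_nonneg_left (pow_le_pow_right₀ hρ1 hik) hK0.le
  have hupos : ∀ i, 0 < u i := fun i => by simp only [hu, level]; positivity
  have hT0 : 0 < T := by rw [hT]; have := hupos J; positivity
  have hTp : (2 * T) ^ p ≤ u (J + j₁) := by
    rw [hT, ← mul_div_assoc, mul_comm 2 (u J ^ (1 / p)), mul_div_assoc,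
      mul_rpow (rpow_nonneg (hupos J).le _) (by positivity), ← rpow_mul (hupos J).le,
      one_div_mul_cancel hp.ne', rpow_one]
    calc u J * (2 / δ) ^ p ≤ u J * ρ ^ j₁ := mul_le_mul_of_nonneg_left hj₁.le (hupos J).le
      _ = u (J + j₁) := by simp only [hu, level, pow_add]; ring
  have hQ1 : ((j₁ : ℝ) + K / δ + 4) / δ ^ 2 ≤ Q := by
    rw [hQ]; push_cast
    linarith [Nat.le_ceil (((j₁ : ℝ) + K / δ + 4) / δ ^ 2)]
  have hJR : (J : ℝ) = (Q : ℝ) * ((j₀ : ℝ) + 1) := by rw [hJ]; push_cast; ring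
  have hJbig : (j₁ : ℝ) + K / δ + 4 ≤ δ ^ 2 * J := by
    rw [div_le_iff₀ (by positivity)] at hQ1
    have hj0 : (0 : ℝ) ≤ j₀ := Nat.cast_nonneg _
    rw [hJR]
    nlinarith [mul_nonneg (mul_nonneg (Nat.cast_nonneg Q : (0 : ℝ) ≤ Q) hj0) (sq_nonneg δ)]
  have hδQ : 1 ≤ δ * (Q : ℝ) := by
    rw [div_le_iff₀ (by positivity)] at hQ1
    have h1 : (Q : ℝ) * δ ^ 2 ≤ δ * Q := by
      rw [sq, ← mul_assoc, mul_comm δ (Q : ℝ)]
      exact mul_le_of_le_one_right (by positivity) (by linarith)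
    have h2 : (0 : ℝ) ≤ K / δ := by positivity
    linarith [(Nat.cast_nonneg j₁ : (0 : ℝ) ≤ j₁)]
  have hj0J : (j₀ : ℝ) ≤ δ * J := by
    rw [hJR, ← mul_assoc]
    have hj0 : (0 : ℝ) ≤ j₀ := Nat.cast_nonneg _
    nlinarith
  have hj0J' : j₀ ≤ J := by
    have : (j₀ : ℝ) ≤ J := hj0J.trans (mul_le_of_le_one_left (Nat.cast_nonneg _) (by linarith))
    exact_mod_cast this
  set α := (1 - δ) * ((1 - δ) * (δ / (1 + δ)) * ((J : ℝ) - j₀) - (1 + δ)) with hα
  set β := (1 + δ) * δ * ((J : ℝ) + j₁) + K * (1 + δ) with hβ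
  obtain ⟨hα1, hβα⟩ : 1 ≤ α ∧ β ≤ (1 + 20 * δ) * α :=
    mean_constants hδ hδ1 hK0.le (Nat.cast_nonneg j₁) hJbig hj0J
  refine ⟨hTp, α, hα1, ?_⟩
  intro N a hm1 hmM
  set m := ∑ i, |a i| ^ p with hm
  have hm0 : 0 < m := by linarith
  set v : (Fin N → ℝ) → ℝ := fun w => |form p a w| ^ p with hv
  set I : ℕ → (Fin N → ℝ) → ℝ := fun i w => if u i < v w then (1 : ℝ) else 0 with hI
  have hvmeas : Measurable v := ((measurable_form p a).norm).pow_const p
  have hIint : ∀ i, Integrable (I i) (law N) := fun i =>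
    Integrable.of_bound (Measurable.ite (measurableSet_lt measurable_const hvmeas)
      measurable_const measurable_const).aestronglyMeasurable 1
      (.of_forall fun w => by simp only [hI]; split_ifs <;> norm_num)
  have hEI : ∀ i, m ≤ ρ ^ i →
      (1 - δ) * (m / u i) ≤ ∫ w, I i w ∂law N ∧ ∫ w, I i w ∂law N ≤ (1 + δ) * (m / u i) := by
    intro i hi
    set t := u i ^ (1 / p) with ht
    have ht0 : 0 < t := rpow_pos_of_pos (hupos i) _
    have htp : t ^ p = u i := by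
      rw [ht, ← rpow_mul (hupos i).le, one_div_mul_cancel hp.ne', rpow_one]
    have h := htail N a t ht0 (by
      rw [htp]; simp only [hu, level]; exact mul_le_mul_of_nonneg_left hi hK0.le)
    have e : ∀ w, I i w = if t < |form p a w| then (1 : ℝ) else 0 := by
      intro w
      simp only [hI, hv]
      congr 1
      rw [← htp, rpow_lt_rpow_iff ht0.le (abs_nonneg _) hp]
    simp only [e]
    rwa [htp] at h
  have hex : ∃ j, m ≤ ρ ^ j := ⟨j₀, hmM.trans hM⟩
  set i₁ := Nat.find hex with hi₁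
  have hi₁m : m ≤ ρ ^ i₁ := Nat.find_spec hex
  have hi₁le : ρ ^ i₁ ≤ ρ * m := by
    rcases Nat.eq_zero_or_pos i₁ with h | h
    · rw [h, pow_zero]; exact one_le_mul_of_one_le_of_one_le hρ1 hm1
    · obtain ⟨k, hk⟩ := Nat.exists_eq_succ_of_ne_zero h.ne'
      have := Nat.find_min hex (show k < i₁ by omega)
      push Not at this
      rw [hk, pow_succ']
      exact mul_le_mul_of_nonneg_left this.le (by linarith)
  have hi₁J : i₁ ≤ J + j₁ := by
    have : i₁ ≤ j₀ := Nat.find_min' hex (hmM.trans hM)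
    omega
  have hGint : Integrable (fun w => wave p T (form p a w)) (law N) :=
    Integrable.of_bound ((((measurable_form p a).div_const _).sin.const_mul _).norm.pow_const p
      ).aestronglyMeasurable ((2 * T) ^ p)
      (.of_forall fun w => by
        rw [Real.norm_eq_abs, abs_of_nonneg (wave_nonneg ..)]
        exact wave_le_top hp.le hT0 _)
  have hstep : ∀ i, u (i + 1) - u i = δ * u i := fun i => by
    simp only [hu, level, hρ, pow_succ]; ring
  constructor
  · have h := integral_lower hGint hIint (Ico j₀ J) (fun i => u (i + 1) - u i) (1 - δ) (u J) J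
      fun w => by
        have hmin := le_min_level (v := v w) humono (fun i => (hupos i).le)
          (rpow_nonneg (abs_nonneg _) _) hj0J'
        simp only [hI]
        by_cases hvJ : u J < v w
        · rw [min_eq_right hvJ.le] at hmin
          rw [if_pos hvJ]
          exact (mul_nonpos_of_nonneg_of_nonpos (by linarith) (by linarith)).trans
            (wave_nonneg ..)
        · rw [if_neg hvJ, mul_zero, sub_zero]
          rw [min_eq_left (not_lt.mp hvJ)] at hmin
          refine (mul_le_mul_of_nonneg_left hmin (by linarith)).trans ?_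
          refine le_wave hp.le hp2.le hT0 hδ (by linarith) ?_
          rw [hT, mul_div_cancel₀ _ hδ.ne']
          have := rpow_le_rpow (rpow_nonneg (abs_nonneg _) _) (not_lt.mp hvJ)
            (show 0 ≤ 1 / p by positivity)
          rwa [show v w ^ (1 / p) = |form p a w| by
            simp only [hv]
            rw [← rpow_mul (abs_nonneg _), mul_one_div_cancel hp.ne', rpow_one]] at this
    refine le_trans ?_ h
    have hmle : ∀ i, j₀ ≤ i → m ≤ ρ ^ i := fun i hi =>
      (hmM.trans hM).trans (pow_le_pow_right₀ hρ1 hi)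
    have h1 : ((J : ℝ) - j₀) * ((1 - δ) * (δ / (1 + δ)) * m) ≤
        ∑ i ∈ Ico j₀ J, (u (i + 1) - u i) * ∫ w, I (i + 1) w ∂law N := by
      rw [show ((J : ℝ) - j₀) * ((1 - δ) * (δ / (1 + δ)) * m)
        = ∑ i ∈ Ico j₀ J, (1 - δ) * (δ / (1 + δ)) * m by
          rw [sum_const, Nat.card_Ico, nsmul_eq_mul, Nat.cast_sub hj0J']]
      refine sum_le_sum fun i hi => ?_
      rw [hstep]
      have hle := (hEI (i + 1) (hmle _ ((mem_Ico.mp hi).1.trans (Nat.le_succ i)))).1
      refine le_trans (le_of_eq ?_) (mul_le_mul_of_nonneg_left hle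
        (mul_nonneg hδ.le (hupos i).le))
      have := hupos i
      rw [show u (i + 1) = (1 + δ) * u i by linarith [hstep i]]
      field_simp
    have h2 : u J * ∫ w, I J w ∂law N ≤ (1 + δ) * m := by
      refine (mul_le_mul_of_nonneg_left (hEI J (hmle J hj0J')).2 (hupos J).le).trans (le_of_eq ?_)
      have := hupos J
      field_simp
    rw [hα, mul_assoc]
    refine mul_le_mul_of_nonneg_left ?_ (by linarith)
    rw [sub_mul]
    linarith
  · have h := integral_upper hGint hIint (Ico i₁ (J + j₁)) (fun i => u (i + 1) - u i) (u i₁)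
      fun w => le_trans (le_min (wave_le_self hp.le hT0 _) ((wave_le_top hp.le hT0 _).trans hTp))
        (min_level_le humono hi₁J)
    refine h.trans ?_
    have h1 : ∑ i ∈ Ico i₁ (J + j₁), (u (i + 1) - u i) * ∫ w, I i w ∂law N ≤
        ((J : ℝ) + j₁) * ((1 + δ) * δ * m) := by
      calc _ ≤ ∑ i ∈ Ico i₁ (J + j₁), (1 + δ) * δ * m := by
            refine sum_le_sum fun i hi => ?_
            rw [hstep]
            refine (mul_le_mul_of_nonneg_left
              (hEI i (hi₁m.trans (pow_le_pow_right₀ hρ1 (mem_Ico.mp hi).1))).2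
              (mul_nonneg hδ.le (hupos i).le)).trans (le_of_eq ?_)
            have := hupos i
            field_simp
        _ = ((J + j₁ - i₁ : ℕ) : ℝ) * ((1 + δ) * δ * m) := by
            rw [sum_const, Nat.card_Ico, nsmul_eq_mul]
        _ ≤ _ := by
            gcongr
            rw [← Nat.cast_add]
            exact_mod_cast Nat.sub_le _ _
    have h2 : u i₁ ≤ K * ((1 + δ) * m) := by
      simp only [hu, level]; exact mul_le_mul_of_nonneg_left hi₁le hK0.le
    calc _ ≤ K * ((1 + δ) * m) + ((J : ℝ) + j₁) * ((1 + δ) * δ * m) := add_le_add h2 h1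
      _ = β * m := by rw [hβ]; ring
      _ ≤ _ := mul_le_mul_of_nonneg_right hβα hm0.le

end Vale.Agent.P249
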