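import Vale.Agent.P249.Spanner
import Vale.Agent.P249.Sampling

namespace Vale.Agent.P249.NearLinear

open MeasureTheory Real Vale.Agent.P249

set_option maxHeartbeats 1000000 in
/-- For every `p ≥ 1` and `D > 1`, any `n`-point subset of any `L_p` embeds into `ℓ_p^N` with
distortion `D`, where `N ≤ C n (log n)^(p+1)`. -/
theorem near_linear : ∀ p : ℝ, 1 ≤ p → ∀ D : ℝ, 1 < D → ∃ C : ℝ, ∀ n : ℕ, 2 ≤ n →
    ∃ N : ℕ, (N : ℝ) ≤ C * n * Real.log n ^ (p + 1) ∧
      ∀ (Ω : Type) (mΩ : MeasurableSpace Ω) (μ : @Measure Ω mΩ)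
        (x : Fin n → Lp ℝ (ENNReal.ofReal p) μ), Function.Injective x →
        ∃ F : Fin n → Fin N → ℝ, ∃ c : ℝ, 0 < c ∧ ∀ i j,
          c * ‖x i - x j‖ ≤ (∑ k, |F i k - F j k| ^ p) ^ (1 / p) ∧
          (∑ k, |F i k - F j k| ^ p) ^ (1 / p) ≤ D * c * ‖x i - x j‖ := by
  intro p hp D hD
  have hp0 : 0 < p := by linarith
  have hDp : 1 < D ^ p := one_lt_rpow hD hp0
  set ε := (D ^ p - 1) / (D ^ p + 1) with hεdef
  have hε : 0 < ε := div_pos (by linarith) (by linarith)
  have hε1 : ε < 1 := by rw [hεdef, div_lt_one (by linarith)]; linarith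
  have hratio : 1 + ε ≤ D ^ p * (1 - ε) := le_of_eq (by
    rw [hεdef]; field_simp; ring)
  set A := 8 * (6 : ℝ) ^ p / ε ^ 2 * 3 with hA
  refine ⟨2 * A + 2 / (2 * Real.log 2 ^ (p + 1)), fun n hn => ?_⟩
  set k := Nat.log 2 n + 1 with hk
  set T : ℝ := (2 * (k : ℝ)) ^ p with hT
  have hT0 : 0 < T := by positivity
  refine ⟨⌈4 * (2 * (n : ℝ) * T) / ε ^ 2 * Real.log (2 * (n : ℝ) ^ 2 + 1)⌉₊ + 1, ?_, ?_⟩
  · -- the numerical bound
    have hn2 : (2 : ℝ) ≤ n := by exact_mod_cast hn
    have hl2 : (0.69 : ℝ) ≤ Real.log 2 := by linarith [Real.log_two_gt_d9]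
    set L := Real.log (n : ℝ) with hL
    have hL2 : Real.log 2 ≤ L := Real.log_le_log (by norm_num) hn2
    have hL0 : 0 < L := by linarith
    have hkL : 2 * (k : ℝ) ≤ 6 * L := by
      have h1 : ((Nat.log 2 n : ℕ) : ℝ) * Real.log 2 ≤ L := by
        rw [← Real.log_pow, hL]
        refine Real.log_le_log (by positivity) ?_
        exact_mod_cast Nat.pow_log_le_self 2 (by omega)
      rw [hk]; push_cast
      have h2 := mul_le_mul_of_nonneg_left hl2 (Nat.cast_nonneg' (Nat.log 2 n) : (0 : ℝ) ≤ _)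
      linarith
    have hTL : T ≤ 6 ^ p * L ^ p := by
      rw [hT, ← mul_rpow (by norm_num) hL0.le]; gcongr
    have hlog : Real.log (2 * (n : ℝ) ^ 2 + 1) ≤ 3 * L + Real.log 2 := by
      rw [show 3 * L + Real.log 2 = Real.log ((n : ℝ) ^ 3 * 2) by
        rw [Real.log_mul (by positivity) (by norm_num), Real.log_pow]; push_cast; ring]
      refine Real.log_le_log (by positivity) ?_
      have : (4 : ℝ) ≤ (n : ℝ) ^ 2 := by nlinarith
      nlinarith
    have hlog0 : 0 ≤ Real.log (2 * (n : ℝ) ^ 2 + 1) := Real.log_nonneg (by nlinarith)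
    have hpow : L ^ (p + 1) = L ^ p * L := by rw [rpow_add hL0, rpow_one]
    have hmain : 4 * (2 * (n : ℝ) * T) / ε ^ 2 * Real.log (2 * (n : ℝ) ^ 2 + 1)
        ≤ 8 * (6 : ℝ) ^ p / ε ^ 2 * 4 * n * L ^ (p + 1) := by
      calc 4 * (2 * (n : ℝ) * T) / ε ^ 2 * Real.log (2 * (n : ℝ) ^ 2 + 1)
          ≤ 4 * (2 * (n : ℝ) * (6 ^ p * L ^ p)) / ε ^ 2 * (4 * L) := by
            gcongr; linarith
        _ = _ := by rw [hpow]; ring
    have hsmall : 2 ≤ 2 / (2 * Real.log 2 ^ (p + 1)) * (n : ℝ) * L ^ (p + 1) := by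
      have hb : Real.log 2 ^ (p + 1) ≤ L ^ (p + 1) := by gcongr
      have hb0 : 0 < Real.log 2 ^ (p + 1) := by positivity
      rw [div_mul_eq_mul_div, div_mul_eq_mul_div, le_div_iff₀ (by positivity)]
      nlinarith [mul_le_mul hn2 hb hb0.le (by linarith)]
    push_cast
    refine (add_le_add (Nat.ceil_lt_add_one (by positivity)).le le_rfl).trans ?_
    have hA' : A = 8 * (6 : ℝ) ^ p / ε ^ 2 * 3 := hA
    have h43 : 8 * (6 : ℝ) ^ p / ε ^ 2 * 4 * n * L ^ (p + 1) ≤ 2 * A * n * L ^ (p + 1) := by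
      rw [hA']; gcongr ?_ * _ * _
      have : 0 ≤ 8 * (6 : ℝ) ^ p / ε ^ 2 := by positivity
      linarith
    linarith [h43]
  · intro Ω mΩ μ x hx
    classical
    set g : Fin n → Ω → ℝ := fun i => (x i : Ω → ℝ) with hg
    set d : Fin n → Fin n → ℝ := fun i j => ‖x i - x j‖ with hd
    have hdpos : ∀ i j, i ≠ j → 0 < d i j := fun i j hij => by
      have : ENNReal.ofReal p ≠ 0 := by simp [hp0]
      simp only [hd]
      have : Fact (1 ≤ ENNReal.ofReal p) := ⟨ENNReal.one_le_ofReal.mpr hp⟩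
      exact norm_pos_iff.mpr (sub_ne_zero.mpr (hx.ne hij))
    have : Fact (1 ≤ ENNReal.ofReal p) := ⟨ENNReal.one_le_ofReal.mpr hp⟩
    have hd0 : ∀ i j, 0 ≤ d i j := fun i j => norm_nonneg _
    have hdsymm : ∀ i j, d i j = d j i := fun i j => norm_sub_rev _ _
    have hint : ∀ i j, Integrable (fun ω => |g i ω - g j ω| ^ p) μ ∧
        ∫ ω, |g i ω - g j ω| ^ p ∂μ = d i j ^ p := by
      intro i j
      have hmem : MemLp (fun ω => g i ω - g j ω) (ENNReal.ofReal p) μ :=
        (Lp.memLp (x i)).sub (Lp.memLp (x j))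
      have hne : ENNReal.ofReal p ≠ 0 := by simp [hp0]
      have hI := hmem.integrable_norm_rpow hne ENNReal.ofReal_ne_top
      simp only [ENNReal.toReal_ofReal hp0.le, Real.norm_eq_abs] at hI
      refine ⟨hI, ?_⟩
      have hnorm : d i j = (eLpNorm (fun ω => g i ω - g j ω) (ENNReal.ofReal p) μ).toReal := by
        simp only [hd, Lp.norm_def]
        rw [eLpNorm_congr_ae (Lp.coeFn_sub (x i) (x j))]
        rfl
      rw [hnorm, hmem.eLpNorm_eq_integral_rpow_norm hne ENNReal.ofReal_ne_top,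
        ENNReal.toReal_ofReal hp0.le, ENNReal.toReal_ofReal (by positivity)]
      simp only [Real.norm_eq_abs]
      rw [Real.rpow_inv_rpow (integral_nonneg fun ω => by positivity) hp0.ne']
    have hkn : Fintype.card (Fin n) < 2 ^ k := by
      simpa [hk] using Nat.lt_pow_succ_log_self (by norm_num : 1 < 2) n
    obtain ⟨E, hEc, hEd, hET⟩ := exists_spanner d hd0 hdsymm k hkn (by omega)
    set r : Sym2 (Fin n) → Ω → ℝ := fun e ω => Sym2.lift
      ⟨fun a b => |g a ω - g b ω| ^ p / d a b ^ p,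
        fun a b => by simp only [abs_sub_comm, hdsymm a b]⟩ e with hr
    have hr0 : ∀ e ω, 0 ≤ r e ω := by
      intro e ω
      induction e using Sym2.inductionOn with
      | _ a b => simp only [hr, Sym2.lift_mk]; have := hd0 a b; positivity
    have hri : ∀ e ∈ E, Integrable (r e) μ ∧ ∫ ω, r e ω ∂μ = 1 := by
      intro e he
      induction e using Sym2.inductionOn with
      | _ a b =>
        have hab : a ≠ b := by simpa using hEd _ he
        have := hdpos a b hab
        simp only [hr, Sym2.lift_mk]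
        refine ⟨(hint a b).1.div_const _, ?_⟩
        rw [integral_div, (hint a b).2, div_self (by positivity)]
    set h : Ω → ℝ := fun ω => ∑ e ∈ E, r e ω with hh
    have hhint : Integrable h μ := integrable_finsetSum _ fun e he => (hri e he).1
    have hhsum : ∫ ω, h ω ∂μ = (E.card : ℝ) := by
      rw [hh, integral_finsetSum _ fun e he => (hri e he).1,
        Finset.sum_congr rfl fun e he => (hri e he).2]
      simp
    have hEpos : (0 : ℝ) < E.card := by
      rcases E.eq_empty_or_nonempty with hE | hE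
      · exfalso
        let i : Fin n := ⟨0, by omega⟩
        let j : Fin n := ⟨1, by omega⟩
        have := hET i j (fun l => if l = i then 1 else 0) 0 le_rfl (by simp [hE])
        simp [i, j] at this
        norm_num at this
      · exact_mod_cast hE.card_pos
    let Q := { q : Fin n × Fin n // q.1 ≠ q.2 }
    set s : Q → Ω → ℝ := fun q ω => |g q.1.1 ω - g q.1.2 ω| ^ p / d q.1.1 q.1.2 ^ p with hs
    have hdom : ∀ q ω, s q ω ≤ T * h ω := by
      intro q ω
      have hh0 : 0 ≤ h ω := Finset.sum_nonneg fun e _ => hr0 e ω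
      have hdq := hdpos _ _ q.2
      have hb := hET q.1.1 q.1.2 (fun i => g i ω) (h ω ^ (1 / p)) (by positivity) ?_
      · simp only [hs]
        rw [div_le_iff₀ (by positivity)]
        calc |g q.1.1 ω - g q.1.2 ω| ^ p
            ≤ (2 * (k : ℝ) * h ω ^ (1 / p) * d q.1.1 q.1.2) ^ p := by gcongr
          _ = T * h ω * d q.1.1 q.1.2 ^ p := by
              rw [mul_rpow (by positivity) hdq.le, mul_rpow (by positivity) (by positivity),
                ← rpow_mul hh0, one_div_mul_cancel hp0.ne', rpow_one]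
      · intro a b hab
        have hne : a ≠ b := by simpa using hEd _ hab
        have hdab := hdpos a b hne
        have h1 : r s(a, b) ω ≤ h ω := Finset.single_le_sum (fun e _ => hr0 e ω) hab
        simp only [hr, Sym2.lift_mk] at h1
        rw [div_le_iff₀ (by positivity)] at h1
        have h2 := rpow_le_rpow (by positivity) h1 (show 0 ≤ 1 / p by positivity)
        rwa [mul_rpow hh0 (by positivity), ← rpow_mul (abs_nonneg _), ← rpow_mul hdab.le,
          mul_one_div_cancel hp0.ne', rpow_one, rpow_one] at h2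
    set N := ⌈4 * (2 * (n : ℝ) * T) / ε ^ 2 * Real.log (2 * (n : ℝ) ^ 2 + 1)⌉₊ + 1 with hN
    obtain ⟨w, hw, hwq⟩ := exists_sample s h (E.card : ℝ) T ε hEpos hT0 hε hε1.le hhint hhsum
      (fun ω => Finset.sum_nonneg fun e _ => hr0 e ω)
      (fun q => (hint q.1.1 q.1.2).1.div_const _)
      (fun q => by
        simp only [hs]
        have := hdpos _ _ q.2
        rw [integral_div, (hint q.1.1 q.1.2).2, div_self (by positivity)])
      (fun q ω => by simp only [hs]; have := hd0 q.1.1 q.1.2; positivity) hdom N (by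
        have hQ : (Fintype.card Q : ℝ) ≤ (n : ℝ) ^ 2 := by
          have := Fintype.card_subtype_le (fun q : Fin n × Fin n => q.1 ≠ q.2)
          rw [Fintype.card_prod, Fintype.card_fin] at this
          rw [sq]; exact_mod_cast this
        have hE2 : (E.card : ℝ) ≤ 2 * n := by
          have := hEc
          rw [Fintype.card_fin] at this
          exact_mod_cast this
        have hl0 : 0 ≤ Real.log (2 * (Fintype.card Q : ℝ) + 1) :=
          Real.log_nonneg (by have : (0 : ℝ) ≤ Fintype.card Q := Nat.cast_nonneg _; linarith)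
        calc 4 * ((E.card : ℝ) * T) / ε ^ 2 * Real.log (2 * (Fintype.card Q : ℝ) + 1)
            ≤ 4 * (2 * (n : ℝ) * T) / ε ^ 2 * Real.log (2 * (n : ℝ) ^ 2 + 1) := by
              gcongr
          _ < (N : ℝ) := by
              rw [hN]; push_cast
              have := Nat.le_ceil (4 * (2 * (n : ℝ) * T) / ε ^ 2 * Real.log (2 * (n : ℝ) ^ 2 + 1))
              linarith)
    set θ : Fin N → ℝ := fun m => ((E.card : ℝ) / ((N : ℝ) * h (w m))) ^ (1 / p) with hθ
    refine ⟨fun i m => g i (w m) * θ m, (1 - ε) ^ (1 / p), rpow_pos_of_pos (by linarith) _, ?_⟩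
    intro i j
    by_cases hij : i = j
    · subst hij
      simp [hp0.ne', Real.zero_rpow, Real.zero_rpow (inv_ne_zero hp0.ne')]
    have hdij := hdpos i j hij
    have hNpos : (0 : ℝ) < N := by rw [hN]; positivity
    set S := ∑ m, (E.card : ℝ) * s ⟨(i, j), hij⟩ (w m) / h (w m) with hS
    have hsum : ∑ m, |g i (w m) * θ m - g j (w m) * θ m| ^ p = S / N * d i j ^ p := by
      rw [hS, Finset.sum_div, Finset.sum_mul]
      refine Finset.sum_congr rfl fun m _ => ?_
      have hhm := hw m
      rw [← sub_mul, abs_mul, abs_of_pos (show 0 < θ m by simp only [hθ]; positivity),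
        mul_rpow (abs_nonneg _) (by simp only [hθ]; positivity), hθ, ← rpow_mul (by positivity),
        one_div_mul_cancel hp0.ne', rpow_one]
      simp only [hs]
      field_simp
    obtain ⟨hlo, hhi⟩ := hwq ⟨(i, j), hij⟩
    have e1 : ∀ a : ℝ, 0 ≤ a → a ^ (1 / p) * d i j = (a * d i j ^ p) ^ (1 / p) := by
      intro a ha
      rw [mul_rpow ha (by positivity), ← rpow_mul hdij.le, mul_one_div_cancel hp0.ne', rpow_one]
    show (1 - ε) ^ (1 / p) * d i j ≤ _ ∧ _ ≤ D * (1 - ε) ^ (1 / p) * d i j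
    rw [hsum]
    constructor
    · rw [e1 _ (by linarith)]
      gcongr
      rw [le_div_iff₀ hNpos]; exact hlo
    · have hD' : D * (1 - ε) ^ (1 / p) = (D ^ p * (1 - ε)) ^ (1 / p) := by
        rw [mul_rpow (by positivity) (by linarith), ← rpow_mul (by linarith),
          mul_one_div_cancel hp0.ne', rpow_one]
      rw [hD', e1 _ (by nlinarith)]
      have hS0 : 0 ≤ S := le_trans (mul_nonneg (by linarith) hNpos.le) hlo
      gcongr
      refine le_trans ?_ hratio
      rw [div_le_iff₀ hNpos]; exact hhi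

end Vale.Agent.P249.NearLinear
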