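import Mathlib

/-!
A symmetric random variable with exact power tail `s ^ (-p)`.
-/

namespace Vale.Agent.P249

open MeasureTheory Real Set

/-- The uniform probability measure on `(-1, 1]`. -/
noncomputable def unif : Measure ℝ := (2⁻¹ : ENNReal) • volume.restrict (Ioc (-1) 1)

instance : IsProbabilityMeasure unif := by
  refine ⟨?_⟩
  simp only [unif, Measure.smul_apply, Measure.restrict_apply_univ, Real.volume_Ioc, smul_eq_mul]
  norm_num
  exact ENNReal.inv_mul_cancel (by norm_num) (by norm_num)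

lemma integral_unif (f : ℝ → ℝ) :
    ∫ v, f v ∂unif = (1 / 2) * ∫ v in (-1 : ℝ)..1, f v := by
  rw [unif, integral_smul_measure, intervalIntegral.integral_of_le (by norm_num)]
  simp

/-- Symmetric power-tail transform. -/
noncomputable def pareto (p v : ℝ) : ℝ := if 0 ≤ v then v ^ (-(1 / p)) else -((-v) ^ (-(1 / p)))

lemma measurable_pareto (p : ℝ) : Measurable (pareto p) :=
  Measurable.ite measurableSet_Ici (measurable_id.pow_const _) ((measurable_neg.pow_const _).neg)

lemma abs_pareto (p v : ℝ) : |pareto p v| = |v| ^ (-(1 / p)) := by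
  unfold pareto
  split_ifs with h
  · rw [abs_of_nonneg (rpow_nonneg h _), abs_of_nonneg h]
  · push Not at h
    rw [abs_neg, abs_of_nonneg (rpow_nonneg (by linarith) _), abs_of_neg h]

lemma pareto_neg {p : ℝ} (hp : p ≠ 0) (v : ℝ) : pareto p (-v) = -pareto p v := by
  rcases lt_trichotomy v 0 with h | h | h
  · simp [pareto, h.not_ge, h.le]
  · subst h
    simp only [pareto, neg_zero, le_refl, if_true]
    rw [zero_rpow (show -(1 / p) ≠ 0 by simp [hp])]; simp
  · simp [pareto, h.le, h]

lemma abs_pareto_lt_iff {p c s v : ℝ} (hp : 0 < p) (hc : c ≠ 0) (hs : 0 < s) (hv : v ≠ 0) :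
    s < |c * pareto p v| ↔ |v| < |c| ^ p / s ^ p := by
  have hv' : 0 < |v| := abs_pos.mpr hv
  have hc' : 0 < |c| := abs_pos.mpr hc
  have e : (|c| * |v| ^ (-(1 / p))) ^ p = |c| ^ p / |v| := by
    rw [mul_rpow hc'.le (by positivity), ← rpow_mul hv'.le, show -(1 / p) * p = -1 by field_simp,
      rpow_neg_one, div_eq_mul_inv]
  rw [abs_mul, abs_pareto, ← rpow_lt_rpow_iff hs.le (by positivity) hp, e,
    lt_div_iff₀ hv', lt_div_iff₀ (by positivity), mul_comm]

lemma integral_tail {p c s : ℝ} (hp : 0 < p) (hs : 0 < s) (hcs : |c| ^ p ≤ s ^ p) :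
    ∫ v, (if s < |c * pareto p v| then (1 : ℝ) else 0) ∂unif = |c| ^ p / s ^ p := by
  rcases eq_or_ne c 0 with rfl | hc
  · simp [hs.le.not_gt, zero_rpow hp.ne']
  set r := |c| ^ p / s ^ p with hr
  have hr0 : 0 < r := by
    have := abs_pos.mpr hc
    positivity
  have hr1 : r ≤ 1 := (div_le_one (by positivity)).mpr hcs
  have hae : ∀ᵐ v ∂unif, v ≠ (0 : ℝ) := by
    refine Measure.ae_smul_measure ?_ _
    exact ae_restrict_of_ae (Measure.ae_ne volume 0)
  have : ∫ v, (if s < |c * pareto p v| then (1 : ℝ) else 0) ∂unif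
      = ∫ v, (Ioo (-r) r).indicator (fun _ => (1 : ℝ)) v ∂unif := by
    refine integral_congr_ae ?_
    filter_upwards [hae] with v hv
    simp only [Set.indicator_apply, mem_Ioo, ← abs_lt, abs_pareto_lt_iff hp hc hs hv, hr]
  rw [this, integral_indicator_const _ measurableSet_Ioo]
  have hi : Ioo (-r) r ∩ Ioc (-1) 1 = Ioo (-r) r := by
    refine inter_eq_left.mpr fun v hv => ⟨?_, ?_⟩ <;> linarith [hv.1, hv.2]
  simp only [unif, measureReal_def, Measure.smul_apply, Measure.restrict_apply measurableSet_Ioo,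
    hi, Real.volume_Ioo, smul_eq_mul, mul_one, ENNReal.toReal_mul, ENNReal.toReal_inv,
    ENNReal.toReal_ofReal (show 0 ≤ r - -r by linarith), ENNReal.toReal_ofNat]
  ring

/-- Truncation at level `s`. -/
noncomputable def trunc (s x : ℝ) : ℝ := if s < |x| then 0 else x

lemma measurable_trunc (s : ℝ) : Measurable (trunc s) :=
  Measurable.ite (measurableSet_lt measurable_const continuous_abs.measurable) measurable_const
    measurable_id

lemma abs_trunc_le {s : ℝ} (hs : 0 ≤ s) (x : ℝ) : |trunc s x| ≤ s := by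
  unfold trunc
  split_ifs with h
  · simpa using hs
  · exact not_lt.mp h

lemma integral_trunc {p c : ℝ} (hp : p ≠ 0) (s : ℝ) :
    ∫ v, trunc s (c * pareto p v) ∂unif = 0 := by
  rw [integral_unif]
  have h : ∫ v in (-1 : ℝ)..1, trunc s (c * pareto p (-v))
      = ∫ v in (-1 : ℝ)..1, trunc s (c * pareto p v) := by
    rw [intervalIntegral.integral_comp_neg (fun v => trunc s (c * pareto p v))]
    simp
  have h2 : ∀ v, trunc s (c * pareto p (-v)) = -trunc s (c * pareto p v) := fun v => by
    rw [pareto_neg hp, mul_neg]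
    unfold trunc
    rw [abs_neg]
    split_ifs <;> simp
  simp only [h2, intervalIntegral.integral_neg] at h
  linarith

lemma integral_trunc_sq {p c s : ℝ} (hp : 0 < p) (hp1 : 1 ≤ p) (hp2 : p < 2) (hs : 0 < s)
    (hcs : |c| ^ p ≤ s ^ p) :
    ∫ v, trunc s (c * pareto p v) ^ 2 ∂unif ≤ 4 / (2 / p - 1) * (|c| ^ p * s ^ (2 - p)) := by
  rcases eq_or_ne c 0 with rfl | hc
  · simp [trunc, zero_rpow hp.ne']
  have hc' : 0 < |c| := abs_pos.mpr hc
  set r := |c| ^ p / s ^ p with hr
  have hr0 : 0 < r := by positivity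
  set e := -(2 / p) with he
  have he1 : e + 1 < 0 := by
    have : 1 < 2 / p := by rw [lt_div_iff₀ hp]; linarith
    linarith
  have hcont : Continuous fun v : ℝ => (|v| + r) ^ e :=
    (continuous_abs.add continuous_const).rpow_const fun v => Or.inl (ne_of_gt
      (by positivity : (0 : ℝ) < |v| + r))
  have hpt : ∀ v, trunc s (c * pareto p v) ^ 2 ≤ 4 * c ^ 2 * (|v| + r) ^ e := by
    intro v
    rcases eq_or_ne v 0 with rfl | hv
    · have : pareto p 0 = 0 := by
        simp only [pareto, le_refl, if_true]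
        rw [zero_rpow (show -(1 / p) ≠ 0 by simp [hp.ne'])]
      simp only [this, mul_zero, trunc, abs_zero, not_lt.mpr hs.le, if_false]
      norm_num
      positivity
    by_cases h : s < |c * pareto p v|
    · rw [trunc, if_pos h, sq, mul_zero]; positivity
    · have hrv : r ≤ |v| := by
        rw [abs_pareto_lt_iff hp hc hs hv] at h
        exact not_lt.mp h
      have hv' : 0 < |v| := abs_pos.mpr hv
      rw [trunc, if_neg h, ← sq_abs, abs_mul, abs_pareto, mul_pow, sq_abs, ← rpow_natCast
        (|v| ^ (-(1 / p))) 2, ← rpow_mul hv'.le, show -(1 / p) * ((2 : ℕ) : ℝ) = e by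
          rw [he]; push_cast; ring]
      have h2 : |v| ^ e ≤ ((|v| + r) / 2) ^ e :=
        rpow_le_rpow_of_nonpos (by positivity) (by linarith) (by linarith)
      rw [div_rpow (by positivity) (by norm_num)] at h2
      have h3 : (1 : ℝ) / 2 ^ e ≤ 4 := by
        rw [one_div, ← rpow_neg (by norm_num), he, neg_neg]
        calc (2 : ℝ) ^ (2 / p) ≤ 2 ^ (2 : ℝ) :=
              rpow_le_rpow_of_exponent_le one_le_two (div_le_self (by norm_num) hp1)
          _ = 4 := by norm_num
      calc c ^ 2 * |v| ^ e ≤ c ^ 2 * ((|v| + r) ^ e / 2 ^ e) := by gcongr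
        _ = c ^ 2 * ((|v| + r) ^ e * (1 / 2 ^ e)) := by ring
        _ ≤ c ^ 2 * ((|v| + r) ^ e * 4) := by gcongr
        _ = _ := by ring
  have hYint : IntervalIntegrable (fun v => trunc s (c * pareto p v) ^ 2) volume (-1) 1 := by
    rw [intervalIntegrable_iff, IntegrableOn]
    have : IsFiniteMeasure (volume.restrict (uIoc (-1 : ℝ) 1)) :=
      ⟨by simp⟩
    refine Integrable.of_bound
      (((measurable_trunc s).comp (measurable_const.mul (measurable_pareto p))).pow_const 2
        ).aestronglyMeasurable (s ^ 2) (.of_forall fun v => ?_)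
    have h := abs_trunc_le hs.le (c * pareto p v)
    rw [Real.norm_eq_abs, abs_pow]
    exact pow_le_pow_left₀ (abs_nonneg _) h 2
  have hbound : ∫ v in (-1 : ℝ)..1, (|v| + r) ^ e ≤ 2 * (r ^ (e + 1) / (-(e + 1))) := by
    have hint : ∀ a b : ℝ, IntervalIntegrable (fun v : ℝ => (|v| + r) ^ e) volume a b :=
      fun a b => hcont.intervalIntegrable a b
    rw [← intervalIntegral.integral_add_adjacent_intervals (hint (-1) 0) (hint 0 1)]
    have hpos : ∫ v in (0 : ℝ)..1, (|v| + r) ^ e = ∫ v in (0 : ℝ) + r..1 + r, v ^ e := by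
      rw [← intervalIntegral.integral_comp_add_right (fun x : ℝ => x ^ e) r]
      refine intervalIntegral.integral_congr fun v hv => ?_
      rw [Set.uIcc_of_le zero_le_one] at hv
      simp [abs_of_nonneg hv.1]
    have hneg : ∫ v in (-1 : ℝ)..0, (|v| + r) ^ e = ∫ v in (0 : ℝ)..1, (|v| + r) ^ e := by
      have := intervalIntegral.integral_comp_neg (fun v : ℝ => (|v| + r) ^ e) (a := 0) (b := 1)
      simp only [abs_neg, neg_zero] at this
      exact this.symm
    rw [hneg, hpos, zero_add, integral_rpow (Or.inr ⟨by linarith, ?_⟩)]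
    · have h1 : 0 < (1 + r) ^ (e + 1) := by positivity
      rw [show ((1 + r) ^ (e + 1) - r ^ (e + 1)) / (e + 1)
        = (r ^ (e + 1) - (1 + r) ^ (e + 1)) / (-(e + 1)) by rw [div_neg, ← neg_div]; ring]
      have : (r ^ (e + 1) - (1 + r) ^ (e + 1)) / (-(e + 1)) ≤ r ^ (e + 1) / (-(e + 1)) := by
        gcongr <;> linarith
      linarith
    · rw [Set.uIcc_of_le (by linarith)]
      intro h; linarith [h.1]
  have hkey : c ^ 2 * r ^ (e + 1) = |c| ^ p * s ^ (2 - p) := by
    rw [hr, div_rpow (by positivity) (by positivity), ← rpow_mul hc'.le, ← rpow_mul hs.le]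
    have : p * (e + 1) = p - 2 := by rw [he]; field_simp; ring
    rw [this, show (2 - p) = -(p - 2) by ring, rpow_neg hs.le, ← sq_abs c,
      ← rpow_natCast |c| 2, div_eq_mul_inv, ← mul_assoc, ← rpow_add hc']
    norm_num
  rw [integral_unif]
  calc (1 / 2) * ∫ v in (-1 : ℝ)..1, trunc s (c * pareto p v) ^ 2
      ≤ (1 / 2) * ∫ v in (-1 : ℝ)..1, 4 * c ^ 2 * (|v| + r) ^ e := by
        gcongr
        exact intervalIntegral.integral_mono_on (by norm_num) hYint
          ((continuous_const.mul hcont).intervalIntegrable _ _) fun v _ => hpt v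
    _ ≤ (1 / 2) * (4 * c ^ 2 * (2 * (r ^ (e + 1) / (-(e + 1))))) := by
        rw [intervalIntegral.integral_const_mul]; gcongr
    _ = 4 / (2 / p - 1) * (c ^ 2 * r ^ (e + 1)) := by
        rw [show -(e + 1) = 2 / p - 1 by rw [he]; ring]
        ring
    _ = _ := by rw [hkey]

end Vale.Agent.P249
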