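import Vale.Agent.P249.NearLinear
import Vale.Agent.P249.GlueWindows

namespace Vale.Agent.P249

open MeasureTheory Real

/-- For `1 ≤ p < 2`, every `n` points of any `L_p` embed into `ℓ_p^N`, `N ≤ C n ^ ε`,
with distortion `K / ε`. -/
theorem small_dimension : ∀ p : ℝ, 1 ≤ p → p < 2 → ∃ K : ℝ, 0 < K ∧ ∀ ε : ℝ, 0 < ε → ε ≤ 1 →
    ∃ C : ℝ, ∀ n : ℕ, 2 ≤ n → ∃ N : ℕ, (N : ℝ) ≤ C * (n : ℝ) ^ ε ∧
      ∀ (Ω : Type) (mΩ : MeasurableSpace Ω) (μ : @Measure Ω mΩ)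
        (x : Fin n → Lp ℝ (ENNReal.ofReal p) μ), Function.Injective x →
        ∃ F : Fin n → Fin N → ℝ, ∃ c : ℝ, 0 < c ∧ ∀ i j,
          c * ‖x i - x j‖ ≤ (∑ k, |F i k - F j k| ^ p) ^ (1 / p) ∧
          (∑ k, |F i k - F j k| ^ p) ^ (1 / p) ≤ K / ε * (c * ‖x i - x j‖) := by
  intro p hp1 hp2
  have hp : 0 < p := by linarith
  have : Fact (1 ≤ ENNReal.ofReal p) := ⟨ENNReal.one_le_ofReal.mpr hp1⟩
  obtain ⟨C₁, hC₁⟩ := Vale.Agent.P249.NearLinear.near_linear p hp1 2 one_lt_two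
  obtain ⟨C, K, hC0, hK0, k, hglue⟩ := exists_glued (p := p) hp1 hp2
  refine ⟨4 * K * (2 * k + 3), by positivity, fun ε hε hε1 => ?_⟩
  set ε' := ε / (2 * (k + 1)) with hε'
  have hε'0 : 0 < ε' := by positivity
  refine ⟨C * 4 ^ k / (ε / 4) ^ 2, fun n hn => ?_⟩
  have hn1 : (1 : ℝ) ≤ n := by exact_mod_cast (show 1 ≤ n by omega)
  have hn0 : (0 : ℝ) < n := by linarith
  set A := 4 * (n : ℝ) ^ ε' with hA
  have hA4 : 4 ≤ A := le_mul_of_one_le_right (by norm_num) (one_le_rpow hn1 hε'0.le)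
  obtain ⟨N, hN, hF⟩ := hglue n hn A hA4
  refine ⟨N, hN.trans ?_, ?_⟩
  · have hlog : Real.log (n : ℝ) ≤ (n : ℝ) ^ (ε / 4) / (ε / 4) :=
      Real.log_le_rpow_div hn0.le (by positivity)
    have hl0 : 0 ≤ Real.log (n : ℝ) := Real.log_nonneg hn1
    calc C * A ^ k * Real.log n ^ 2 ≤ C * A ^ k * ((n : ℝ) ^ (ε / 4) / (ε / 4)) ^ 2 := by gcongr
      _ = C * 4 ^ k / (ε / 4) ^ 2 * ((n : ℝ) ^ (ε' * k) * (n : ℝ) ^ (ε / 4 * 2)) := by
          rw [hA, mul_pow, ← rpow_natCast ((n : ℝ) ^ ε') k, ← rpow_mul hn0.le,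
            rpow_mul hn0.le (ε / 4) 2, rpow_two]
          ring
      _ ≤ C * 4 ^ k / (ε / 4) ^ 2 * (n : ℝ) ^ ε := by
          gcongr
          rw [← rpow_add hn0]
          refine rpow_le_rpow_of_exponent_le hn1 ?_
          have : ε' * k ≤ ε / 2 := by
            rw [hε', div_mul_eq_mul_div, div_le_iff₀ (by positivity)]
            calc ε * (k : ℝ) ≤ ε * (k + 1) := mul_le_mul_of_nonneg_left (by linarith) hε.le
              _ = _ := by ring
          linarith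
  intro Ω mΩ μ x hx
  obtain ⟨M, -, hM⟩ := hC₁ n hn
  obtain ⟨G, c₁, hc₁, hG⟩ := hM Ω mΩ μ x hx
  set X : Fin n → Lq p M := fun i => WithLp.toLp _ (G i) with hX
  have hXn : ∀ i j, ‖X i - X j‖ = (∑ l, |G i l - G j l| ^ p) ^ (1 / p) := fun i j => by
    rw [lq_norm hp]; rfl
  obtain ⟨F, hF'⟩ := hF M X (fun i j hij => by
    by_contra hne
    have h1 := (hG i j).1
    rw [← hXn, hij, sub_self, norm_zero] at h1
    have h2 : 0 < ‖x i - x j‖ := norm_pos_iff.mpr (sub_ne_zero.mpr (hx.ne hne))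
    linarith [mul_pos hc₁ h2])
  refine ⟨F, c₁ / 2, by positivity, fun i j => ?_⟩
  obtain ⟨f1, f2⟩ := hF' i j
  obtain ⟨g1, g2⟩ := hG i j
  rw [← hXn] at g1 g2
  refine ⟨by linarith, f2.trans ?_⟩
  have hlA : ε' * Real.log n ≤ Real.log A := by
    rw [hA, Real.log_mul (by norm_num) (by positivity), Real.log_rpow hn0]
    linarith [Real.log_nonneg (show (1 : ℝ) ≤ 4 by norm_num)]
  have hlA0 : 0 < Real.log A := Real.log_pos (by linarith)
  have hr : 1 + Real.log n / Real.log A ≤ (2 * k + 3) / ε := by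
    have : Real.log n / Real.log A ≤ (2 * k + 2) / ε := by
      rw [div_le_div_iff₀ hlA0 hε]
      rw [hε'] at hlA
      rw [div_mul_eq_mul_div, div_le_iff₀ (by positivity)] at hlA
      linarith
    have h1 : 1 ≤ 1 / ε := by rw [le_div_iff₀ hε]; linarith
    calc _ ≤ 1 / ε + (2 * k + 2) / ε := add_le_add h1 this
      _ = _ := by ring
  have hl0 : 0 ≤ Real.log (n : ℝ) / Real.log A := div_nonneg (Real.log_nonneg hn1) hlA0.le
  calc K * (1 + Real.log n / Real.log A) * ‖X i - X j‖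
      ≤ K * ((2 * k + 3) / ε) * (2 * c₁ * ‖x i - x j‖) := by gcongr
    _ = _ := by ring

end Vale.Agent.P249
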