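import Mathlib

namespace Vale.Agent.P249

open Finset

variable {m : ℕ}

/-- Euclidean length of an integer vector -/
noncomputable def len (v : Fin m → ℤ) : ℝ := Real.sqrt (∑ i, (v i : ℝ) ^ 2)

lemma len_nonneg (v : Fin m → ℤ) : 0 ≤ len v := Real.sqrt_nonneg _

lemma len_add (v w : Fin m → ℤ) : len (v + w) ≤ len v + len w := by
  have h := norm_add_le (WithLp.toLp 2 (fun i => (v i : ℝ))) (WithLp.toLp 2 (fun i => (w i : ℝ)))
  simp only [← WithLp.toLp_add, EuclideanSpace.norm_eq, Real.norm_eq_abs, sq_abs, Pi.add_apply] at h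
  simpa [len] using h

lemma len_single (i : Fin m) : len (Pi.single i (1 : ℤ)) = 1 := by
  simp [len, Pi.single_apply, ite_pow]

lemma len_neg (v : Fin m → ℤ) : len (-v) = len v := by simp [len]

/-- `ℓ¹` size -/
def size1 (v : Fin m → ℤ) : ℕ := ∑ i, (v i).natAbs

lemma size1_zero_iff {v : Fin m → ℤ} : size1 v = 0 ↔ v = 0 := by
  simp [size1, funext_iff]

lemma exists_step {v : Fin m → ℤ} (hv : v ≠ 0) :
    ∃ i, (size1 (v - Pi.single i 1) + 1 = size1 v) ∨ (size1 (v + Pi.single i 1) + 1 = size1 v) := by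
  obtain ⟨i, hi⟩ := Function.ne_iff.mp hv
  refine ⟨i, ?_⟩
  have hs : ∀ w : Fin m → ℤ, (∀ j ≠ i, w j = v j) → (w i).natAbs + 1 = (v i).natAbs →
      size1 w + 1 = size1 v := by
    intro w hw hwi
    simp only [size1]
    rw [← Finset.add_sum_erase _ _ (Finset.mem_univ i), ← Finset.add_sum_erase _ _ (Finset.mem_univ i),
      Finset.sum_congr rfl fun j hj => by rw [hw j (Finset.mem_erase.mp hj).1]]
    omega
  rcases lt_or_gt_of_ne hi with h | h
  · exact Or.inr (hs _ (fun j hj => by simp [hj]) (by simp at h ⊢; omega))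
  · exact Or.inl (hs _ (fun j hj => by simp [hj]) (by simp at h ⊢; omega))

/-- Sum of unit increments along a lattice path staying close to `x`. -/
lemma path_bound (φ : (Fin m → ℤ) → ℝ) (c : ℝ) (x : Fin m → ℤ) (W : ℕ)
    (hφ : ∀ y j, size1 (y - x) ≤ W → |φ (y + Pi.single j 1) - φ y| ≤ c) :
    ∀ k : ℕ, ∀ w, size1 w = k → k ≤ W → |φ (x + w) - φ x| ≤ c * k := by
  intro k
  induction k with
  | zero => intro w hw _; simp [size1_zero_iff.mp hw]
  | succ k ih =>
    intro w hw hW
    obtain ⟨i, h | h⟩ := exists_step (v := w) (fun h0 => by simp [h0, size1] at hw)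
    · have h1 := ih (w - Pi.single i 1) (by omega) (by omega)
      have h2 := hφ (x + (w - Pi.single i 1)) i (by simp; omega)
      rw [show x + (w - Pi.single i 1) + Pi.single i 1 = x + w by abel] at h2
      have := abs_sub_le (φ (x + w)) (φ (x + (w - Pi.single i 1))) (φ x)
      push_cast; linarith
    · have h1 := ih (w + Pi.single i 1) (by omega) (by omega)
      have h2 := hφ (x + w) i (by simp; omega)
      rw [show x + w + Pi.single i 1 = x + (w + Pi.single i 1) by abel, abs_sub_comm] at h2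
      have := abs_sub_le (φ (x + w)) (φ (x + (w + Pi.single i 1))) (φ x)
      push_cast; linarith

/-- the averaging box -/
noncomputable def cube (m s : ℕ) : Finset (Fin m → ℤ) :=
  Fintype.piFinset fun _ => Finset.Ico (0 : ℤ) s

lemma card_cube (m s : ℕ) : (cube m s).card = s ^ m := by
  simp [cube, Fintype.card_piFinset]

/-- box average -/
noncomputable def avg (s : ℕ) (f : (Fin m → ℤ) → ℝ) (x : Fin m → ℤ) : ℝ :=
  (∑ z ∈ cube m s, f (x + z)) / (s : ℝ) ^ m

/-- averaging bounded functions gives small increments -/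
lemma avg_step {s : ℕ} (hs : 1 ≤ s) (h : (Fin m → ℤ) → ℝ) (B : ℝ) (hB : ∀ x, |h x| ≤ B)
    (x : Fin m → ℤ) (j : Fin m) :
    |avg s h (x + Pi.single j 1) - avg s h x| ≤ 2 * B / s := by
  set e : Fin m → ℤ := Pi.single j 1 with he
  set S := cube m s
  set S' := S.map (addLeftEmbedding e) with hS'
  have hsum : ∑ z ∈ S, h (x + e + z) = ∑ z ∈ S', h (x + z) := by
    rw [hS', Finset.sum_map]; simp [add_assoc]
  have hinter : S ∩ S' = Fintype.piFinset
      (Function.update (fun _ : Fin m => Finset.Ico (0 : ℤ) s) j (Finset.Ico (1 : ℤ) s)) := by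
    ext z
    simp only [S, hS', Finset.mem_inter, Finset.mem_map, addLeftEmbedding_apply, cube,
      Fintype.mem_piFinset]
    constructor
    · rintro ⟨h1, w, hw, rfl⟩ i
      rcases eq_or_ne i j with rfl | hij
      · have := h1 i; have := hw i
        simp [he] at *; omega
      · simpa [Function.update_of_ne hij] using h1 i
    · intro hz
      refine ⟨fun i => ?_, z - e, fun i => ?_, by abel⟩
      · rcases eq_or_ne i j with rfl | hij
        · have := hz i; simp at *; omega
        · simpa [Function.update_of_ne hij] using hz i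
      · rcases eq_or_ne i j with rfl | hij
        · have := hz i; simp [he] at *; omega
        · have := hz i; simp [Function.update_of_ne hij, he, hij] at *; omega
  have hcard : ((S ∩ S').card : ℝ) = ((s : ℝ) - 1) * (s : ℝ) ^ (m - 1) := by
    rw [hinter, Fintype.card_piFinset, ← Finset.mul_prod_erase _ _ (Finset.mem_univ j)]
    rw [Finset.prod_congr rfl (g := fun _ => s) (fun i hi => by
      rw [Function.update_of_ne (Finset.mem_erase.mp hi).1]; simp)]
    simp [Nat.cast_sub hs]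
  have hpow : (s : ℝ) ^ m = (s : ℝ) ^ (m - 1) * s := by
    rw [← pow_succ]; congr 1; have := j.pos; omega
  have hd : ∀ T : Finset (Fin m → ℤ), T.card = S.card → S ∩ S' ⊆ T →
      |∑ z ∈ T \ (S ∩ S'), h (x + z)| ≤ B * (s : ℝ) ^ (m - 1) := by
    intro T hT hsub
    refine (Finset.abs_sum_le_sum_abs _ _).trans ?_
    refine (Finset.sum_le_sum fun z _ => hB (x + z)).trans (le_of_eq ?_)
    rw [Finset.sum_const, nsmul_eq_mul, Finset.card_sdiff_of_subset hsub,
      Nat.cast_sub (Finset.card_le_card hsub), hT, hcard]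
    simp only [S, card_cube]; push_cast; rw [hpow]; ring
  have h1 := hd S rfl Finset.inter_subset_left
  have h2 := hd S' (by simp [hS']) Finset.inter_subset_right
  have e1 := Finset.sum_sdiff (f := fun z => h (x + z)) (Finset.inter_subset_left (s₁ := S) (s₂ := S'))
  have e2 := Finset.sum_sdiff (f := fun z => h (x + z)) (Finset.inter_subset_right (s₁ := S) (s₂ := S'))
  have hs0 : (0 : ℝ) < s := by exact_mod_cast hs
  simp only [avg]
  rw [hsum, ← sub_div, abs_div, abs_of_pos (by positivity : (0 : ℝ) < (s : ℝ) ^ m),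
    div_le_div_iff₀ (by positivity) hs0, hpow]
  have h3 : |∑ z ∈ S', h (x + z) - ∑ z ∈ S, h (x + z)| ≤ 2 * B * (s : ℝ) ^ (m - 1) := by
    rw [abs_le] at h1 h2 ⊢
    constructor <;> linarith
  nlinarith

/-- discrete gradient of the smoothed function -/
noncomputable def grad (s : ℕ) (f : (Fin m → ℤ) → ℝ) (x : Fin m → ℤ) (i : Fin m) : ℝ :=
  avg s f (x + Pi.single i 1) - avg s f x

lemma avg_lip {s : ℕ} (hs : 1 ≤ s) (f : (Fin m → ℤ) → ℝ) (K : ℝ)
    (hf : ∀ x w, |f (x + w) - f x| ≤ K * len w) (x w : Fin m → ℤ) :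
    |avg s f (x + w) - avg s f x| ≤ K * len w := by
  have hs0 : (0 : ℝ) < (s : ℝ) ^ m := by
    have : (0 : ℝ) < s := by exact_mod_cast hs
    positivity
  simp only [avg]
  rw [← sub_div, abs_div, abs_of_pos hs0, div_le_iff₀ hs0, ← Finset.sum_sub_distrib]
  refine (Finset.abs_sum_le_sum_abs _ _).trans ?_
  calc ∑ z ∈ cube m s, |f (x + w + z) - f (x + z)| ≤ ∑ _z ∈ cube m s, K * len w := by
        refine Finset.sum_le_sum fun z _ => ?_
        rw [show x + w + z = x + z + w by abel]; exact hf _ _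
    _ = _ := by rw [Finset.sum_const, card_cube, nsmul_eq_mul]; push_cast; ring

/-- linearisation of the smoothed function -/
lemma avg_linear {s : ℕ} (hs : 1 ≤ s) (f : (Fin m → ℤ) → ℝ) (K : ℝ) (hK : 0 ≤ K)
    (hf : ∀ x w, |f (x + w) - f x| ≤ K * len w) (x w : Fin m → ℤ) :
    |avg s f (x + w) - avg s f x - ∑ i, (w i : ℝ) * grad s f x i|
      ≤ 2 * K * (size1 w : ℝ) ^ 2 / s := by
  set W := size1 w with hW
  have hgrad : ∀ y i, |grad s f (y + x) i - grad s f x i| ≤ 2 * K / s * size1 y := by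
    intro y i
    have := path_bound (fun z => grad s f z i) (2 * K / s) x (size1 y) ?_ (size1 y) y rfl le_rfl
    · rwa [add_comm y x]
    intro z j _
    have h := avg_step hs (fun u => f (u + Pi.single i 1) - f u) K
      (fun u => by have := hf u (Pi.single i 1); rwa [len_single, mul_one] at this) z j
    have e : ∀ z, avg s (fun u => f (u + Pi.single i 1) - f u) z = grad s f z i := by
      intro z
      simp only [avg, grad, ← sub_div, ← Finset.sum_sub_distrib]
      congr 1; exact Finset.sum_congr rfl fun u _ => by rw [add_right_comm]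
    rwa [e, e] at h
  set ψ : (Fin m → ℤ) → ℝ := fun y => avg s f y - ∑ i, (y i : ℝ) * grad s f x i with hψ
  have hstep : ∀ y j, size1 (y - x) ≤ W → |ψ (y + Pi.single j 1) - ψ y| ≤ 2 * K / s * W := by
    intro y j hy
    have e : ψ (y + Pi.single j 1) - ψ y = grad s f y j - grad s f x j := by
      simp only [hψ, grad, Pi.add_apply, Int.cast_add, add_mul, Finset.sum_add_distrib]
      simp [Pi.single_apply, ite_mul]
      ring
    rw [e]
    have h := hgrad (y - x) j
    rw [sub_add_cancel] at h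
    refine h.trans (mul_le_mul_of_nonneg_left (by exact_mod_cast hy) (by positivity))
  have h := path_bound ψ _ x W hstep W w hW.symm le_rfl
  have e : ψ (x + w) - ψ x = avg s f (x + w) - avg s f x - ∑ i, (w i : ℝ) * grad s f x i := by
    simp only [hψ, Pi.add_apply, Int.cast_add, add_mul, Finset.sum_add_distrib]; ring
  rw [e] at h
  exact h.trans (le_of_eq (by ring))

/-- the gradient of a smoothed Lipschitz function is short -/
lemma grad_bound {s : ℕ} (hs : 8 * m ^ 2 ≤ s) (hs1 : 1 ≤ s) (f : (Fin m → ℤ) → ℝ) (K : ℝ) (hK : 0 ≤ K)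
    (hf : ∀ x w, |f (x + w) - f x| ≤ K * len w) (x : Fin m → ℤ) :
    Real.sqrt (∑ i, grad s f x i ^ 2) ≤ 6 * K := by
  set a := grad s f x
  set A := Real.sqrt (∑ i, a i ^ 2) with hA
  rcases (Real.sqrt_nonneg (∑ i, a i ^ 2)).eq_or_lt with h | hA0
  · rw [hA, ← h]; positivity
  rw [← hA] at hA0
  have hAsq : A ^ 2 = ∑ i, a i ^ 2 := Real.sq_sqrt (Finset.sum_nonneg fun i _ => sq_nonneg _)
  rcases Nat.eq_zero_or_pos m with hm | hm
  · subst hm; simp at hAsq; rw [hAsq]; positivity
  set q := Real.sqrt (m : ℝ) with hq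
  have hq0 : 0 < q := Real.sqrt_pos.mpr (by exact_mod_cast hm)
  have hq2 : q ^ 2 = m := Real.sq_sqrt (by positivity)
  set w : Fin m → ℤ := fun i => round (q / A * a i) with hw
  set δ : Fin m → ℝ := fun i => (w i : ℝ) - q / A * a i with hδ
  have hδi : ∀ i, |δ i| ≤ 1 / 2 := fun i => by
    rw [hδ, abs_sub_comm]; exact abs_sub_round _
  have hδ2 : ∑ i, δ i ^ 2 ≤ (q / 2) ^ 2 := by
    calc ∑ i, δ i ^ 2 ≤ ∑ _i : Fin m, (1 / 2 : ℝ) ^ 2 := Finset.sum_le_sum fun i _ => by
          rw [← sq_abs]; gcongr; exact hδi i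
      _ = _ := by simp [div_pow, hq2]; ring
  have hCS : ∀ u v : Fin m → ℝ, |∑ i, u i * v i| ≤
      Real.sqrt (∑ i, u i ^ 2) * Real.sqrt (∑ i, v i ^ 2) := by
    intro u v
    rw [← Real.sqrt_mul (Finset.sum_nonneg fun i _ => sq_nonneg _)]
    exact Real.abs_le_sqrt (Finset.sum_mul_sq_le_sq_mul_sq _ _ _)
  have hδa : |∑ i, δ i * a i| ≤ q / 2 * A := by
    refine (hCS δ a).trans (mul_le_mul_of_nonneg_right ?_ (Real.sqrt_nonneg _))
    exact Real.sqrt_le_iff.mpr ⟨by positivity, hδ2⟩
  have hdot : ∑ i, (w i : ℝ) * a i = q * A + ∑ i, δ i * a i := by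
    simp only [hδ, sub_mul, Finset.sum_sub_distrib, mul_assoc, ← Finset.mul_sum, ← sq, ← hAsq]
    field_simp; ring
  have hwlen : len w ≤ 2 * q := by
    refine Real.sqrt_le_iff.mpr ⟨by positivity, ?_⟩
    calc ∑ i, (w i : ℝ) ^ 2 ≤ ∑ i, (2 * (q / A * a i) ^ 2 + 2 * δ i ^ 2) :=
          Finset.sum_le_sum fun i _ => by
            have : (w i : ℝ) = q / A * a i + δ i := by rw [hδ]; ring
            rw [this]; nlinarith [sq_nonneg (q / A * a i - δ i)]
      _ = 2 * (q / A) ^ 2 * A ^ 2 + 2 * ∑ i, δ i ^ 2 := by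
          rw [Finset.sum_add_distrib, hAsq, Finset.mul_sum, Finset.mul_sum]
          congr 1; exact Finset.sum_congr rfl fun i _ => by ring
      _ ≤ (2 * q) ^ 2 := by
          have : (q / A) ^ 2 * A ^ 2 = q ^ 2 := by field_simp
          nlinarith
  have hsize : (size1 w : ℝ) ≤ 2 * m := by
    have h1 := hCS (fun i => |(w i : ℝ)|) (fun _ => 1)
    simp only [mul_one, one_pow, sq_abs, Finset.sum_const, Finset.card_univ, Fintype.card_fin,
      nsmul_eq_mul] at h1
    have h2 : (size1 w : ℝ) = ∑ i, |(w i : ℝ)| := by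
      simp only [size1, Nat.cast_sum, Nat.cast_natAbs, Int.cast_abs]
    rw [h2]
    calc ∑ i, |(w i : ℝ)| ≤ |(∑ i, |(w i : ℝ)|)| := le_abs_self _
      _ ≤ len w * q := h1
      _ ≤ 2 * q * q := by gcongr
      _ = 2 * m := by rw [mul_assoc, ← sq, hq2]
  have h1 := avg_linear hs1 f K hK hf x w
  have h2 := avg_lip hs1 f K hf x w
  have hs0 : (0 : ℝ) < s := by exact_mod_cast hs1
  have herr : 2 * K * (size1 w : ℝ) ^ 2 / s ≤ K := by
    rw [div_le_iff₀ hs0]
    calc 2 * K * (size1 w : ℝ) ^ 2 ≤ 2 * K * (2 * (m : ℝ)) ^ 2 := by gcongr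
      _ = K * (8 * (m : ℝ) ^ 2) := by ring
      _ ≤ K * s := mul_le_mul_of_nonneg_left (by exact_mod_cast hs) hK
  have hq1 : 1 ≤ q := by
    rw [hq]; exact Real.one_le_sqrt.mpr (by exact_mod_cast hm)
  have hKw : K * len w ≤ K * (2 * q) := mul_le_mul_of_nonneg_left hwlen hK
  rw [abs_le] at h1 h2 hδa
  have hmain : q * A / 2 ≤ 3 * K * q := by
    have := mul_le_mul_of_nonneg_left hq1 hK
    linarith [h1.1, h2.2, hδa.1]
  refine le_of_mul_le_mul_left (a := q) ?_ hq0
  linarith

end Vale.Agent.P249
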