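import Mathlib

namespace Vale.Agent.P249

open SimpleGraph Finset

variable {V : Type*}

/-- Every walk has telescoping variation. -/
lemma walk_bound {G : SimpleGraph V} (u : V → ℝ) (B : ℝ) :
    ∀ {a b : V} (w : G.Walk a b), (∀ x y, s(x, y) ∈ w.edges → |u x - u y| ≤ B) →
      |u a - u b| ≤ w.length * B
  | _, _, .nil, _ => by simp
  | a, b, .cons (v := c) _ w, hB => by
    have h1 := hB a c (by simp [Walk.edges_cons])
    have h2 := walk_bound u B w fun x y hxy => hB x y (by simp [Walk.edges_cons, hxy])
    have h3 := abs_sub_le (u a) (u c) (u b)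
    simp only [Walk.length_cons]; push_cast; linarith

/-- If all cycles are longer than `2 k`, short paths are unique. -/
lemma short_path_unique {G : SimpleGraph V} {k : ℕ}
    (hG : ∀ (v : V) (c : G.Walk v v), c.IsCycle → 2 * k < c.length)
    {a b : V} (p q : G.Walk a b) (hp : p.IsPath) (hq : q.IsPath)
    (hpk : p.length ≤ k) (hqk : q.length ≤ k) : p = q := by
  classical
  set H : SimpleGraph V := SimpleGraph.fromEdgeSet {e | e ∈ p.edges ++ q.edges} with hH
  have hHe : ∀ e, e ∈ H.edgeSet → e ∈ p.edges ++ q.edges := by
    intro e he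
    rw [hH, edgeSet_fromEdgeSet] at he
    exact he.1
  have hle : H ≤ G := by
    intro x y hxy
    have h := hHe s(x, y) hxy
    rcases List.mem_append.mp h with h | h
    · exact p.adj_of_mem_edges h
    · exact q.adj_of_mem_edges h
  have hac : H.IsAcyclic := by
    intro v c hc
    have h1 := hG v (c.mapLe hle) ((Walk.isCycle_mapLe hle).mpr hc)
    have h2 : c.length ≤ 2 * k := by
      rw [← Walk.length_edges]
      calc c.edges.length = c.edges.toFinset.card := (List.toFinset_card_of_nodup hc.edges_nodup).symm
        _ ≤ (p.edges ++ q.edges).toFinset.card := by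
            refine Finset.card_le_card fun e he => ?_
            rw [List.mem_toFinset] at he ⊢
            exact hHe e (c.edges_subset_edgeSet he)
        _ ≤ (p.edges ++ q.edges).length := List.toFinset_card_le _
        _ ≤ 2 * k := by simp [Walk.length_edges]; omega
    simp at h1; omega
  have hin : ∀ w : G.Walk a b, (∀ e ∈ w.edges, e ∈ p.edges ++ q.edges) →
      ∀ e ∈ w.edges, e ∈ H.edgeSet := by
    intro w hw e he
    rw [hH, edgeSet_fromEdgeSet]
    exact ⟨hw e he, G.not_isDiag_of_mem_edgeSet (w.edges_subset_edgeSet he)⟩
  have hp' := hin p fun e he => List.mem_append_left _ he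
  have hq' := hin q fun e he => List.mem_append_right _ he
  have := hac.path_unique ⟨p.transfer H hp', hp.transfer hp'⟩ ⟨q.transfer H hq', hq.transfer hq'⟩
  have h2 := congrArg Walk.support (congrArg Subtype.val this)
  simp only [Walk.support_transfer] at h2
  exact Walk.ext_support h2

/-- A graph whose cycles are longer than `2 k`, on fewer than `2 ^ k` vertices, has, inside every
nonempty set of vertices, a vertex with at most two neighbours in that set. -/
lemma exists_low_degree [Fintype V] [DecidableEq V] {G : SimpleGraph V} [DecidableRel G.Adj] {k : ℕ}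
    (hG : ∀ (v : V) (c : G.Walk v v), c.IsCycle → 2 * k < c.length)
    (hk : Fintype.card V < 2 ^ k) (S : Finset V) (hS : S.Nonempty) :
    ∃ v ∈ S, (S.filter fun w => G.Adj v w).card ≤ 2 := by
  by_contra hc
  push Not at hc
  obtain ⟨v, hv⟩ := hS
  have grow : ∀ j, j ≤ k → ∃ R : Finset V, 2 ^ j ≤ R.card ∧
      ∀ y ∈ R, y ∈ S ∧ ∃ w : G.Walk v y, w.IsPath ∧ w.length = j := by
    intro j
    induction j with
    | zero =>
      exact fun _ => ⟨{v}, by simp, fun y hy => by
        rw [Finset.mem_singleton] at hy; subst hy
        exact ⟨hv, Walk.nil, by simp, rfl⟩⟩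
    | succ j ih =>
      intro hj
      obtain ⟨R, hR, hRp⟩ := ih (by omega)
      choose! hyS wk hwk hwl using hRp
      -- children of `y`: neighbours in `S` off the chosen path
      let ch : V → Finset V := fun y =>
        if hy : y ∈ R then S.filter fun z => G.Adj y z ∧ z ∉ (wk y hy).support else ∅
      have hext : ∀ y ∈ R, ∀ z ∈ ch y, z ∈ S ∧ ∃ w : G.Walk v z, w.IsPath ∧ w.length = j + 1 ∧
          w.penultimate = y := by
        intro y hy z hz
        simp only [ch, hy, ↓reduceDIte, Finset.mem_filter] at hz
        refine ⟨hz.1, (wk y hy).concat hz.2.1, (hwk y hy).concat hz.2.2 hz.2.1, ?_,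
          Walk.penultimate_concat _ _⟩
        simp [hwl y hy]
      have hch : ∀ y ∈ R, 2 ≤ (ch y).card := by
        intro y hy
        have h3 := hc y (hyS y hy)
        have hsub : (S.filter fun z => G.Adj y z) ⊆ insert (wk y hy).penultimate (ch y) := by
          intro z hz
          obtain ⟨hzS, hza⟩ := Finset.mem_filter.mp hz
          by_cases hzs : z ∈ (wk y hy).support
          · refine Finset.mem_insert.mpr (Or.inl ?_)
            have hd : ((wk y hy).dropUntil z hzs).length ≤ k :=
              le_trans (Walk.length_dropUntil_le_length _ _) (by rw [hwl y hy]; omega)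
            have heq := short_path_unique hG ((wk y hy).dropUntil z hzs)
              (Walk.cons hza.symm Walk.nil) ((hwk y hy).dropUntil hzs)
              (by simp [hza.ne']) hd (by simp; omega)
            have hsplit := (wk y hy).take_spec hzs
            rw [heq] at hsplit
            rw [← hsplit, ← Walk.concat_eq_append, Walk.penultimate_concat]
          · refine Finset.mem_insert.mpr (Or.inr ?_)
            simp [ch, hy, hzS, hza, hzs]
        have := Finset.card_le_card hsub
        have := Finset.card_insert_le (wk y hy).penultimate (ch y)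
        omega
      refine ⟨R.biUnion ch, ?_, ?_⟩
      · have hdisj : (R : Set V).PairwiseDisjoint ch := by
          intro y hy y' hy' hne
          simp only [Function.onFun, Finset.disjoint_left]
          intro z hz hz'
          obtain ⟨-, w, hw, hwl1, hwp⟩ := hext y hy z hz
          obtain ⟨-, w', hw', hwl2, hwp'⟩ := hext y' hy' z hz'
          have := short_path_unique hG w w' hw hw' (by omega) (by omega)
          exact hne (by rw [← hwp, this, hwp'])
        rw [Finset.card_biUnion hdisj]
        calc 2 ^ (j + 1) ≤ R.card * 2 := by rw [pow_succ]; gcongr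
          _ ≤ ∑ y ∈ R, (ch y).card := by
              rw [← smul_eq_mul]; exact Finset.card_nsmul_le_sum _ _ _ hch
      · intro z hz
        obtain ⟨y, hy, hz⟩ := Finset.mem_biUnion.mp hz
        obtain ⟨h1, w, hw, hl, -⟩ := hext y hy z hz
        exact ⟨h1, w, hw, hl⟩
  obtain ⟨R, hR, -⟩ := grow k le_rfl
  have := Finset.card_le_univ R
  omega

/-- Moore-type bound: at most `2 * #V` edges. -/
lemma edge_bound [Fintype V] [DecidableEq V] {E : Finset (Sym2 V)} (hE : ∀ e ∈ E, ¬ e.IsDiag)
    {k : ℕ} (hG : ∀ (v : V) (c : (fromEdgeSet (E : Set (Sym2 V))).Walk v v),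
      c.IsCycle → 2 * k < c.length)
    (hk : Fintype.card V < 2 ^ k) : E.card ≤ 2 * Fintype.card V := by
  classical
  suffices h : ∀ S : Finset V, (E.filter fun e => ∀ x ∈ e, x ∈ S).card ≤ 2 * S.card by
    have := h Finset.univ
    simpa [Finset.filter_true_of_mem] using this
  intro S
  induction S using Finset.strongInduction with
  | H S ih =>
    rcases S.eq_empty_or_nonempty with rfl | hS
    · simp only [Finset.card_empty, mul_zero, nonpos_iff_eq_zero, Finset.card_eq_zero,
        Finset.filter_eq_empty_iff]
      intro e _ h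
      induction e using Sym2.inductionOn with
      | _ a b => exact Finset.notMem_empty a (h a (by simp))
    · obtain ⟨v, hv, hdeg⟩ := exists_low_degree hG hk S hS
      have h1 := ih (S.erase v) (Finset.erase_ssubset hv)
      have hsub : (E.filter fun e => ∀ x ∈ e, x ∈ S) ⊆
          (E.filter fun e => ∀ x ∈ e, x ∈ S.erase v) ∪
            (S.filter fun w => (fromEdgeSet (E : Set (Sym2 V))).Adj v w).image fun w => s(v, w) := by
        intro e he
        obtain ⟨heE, heS⟩ := Finset.mem_filter.mp he
        by_cases hve : v ∈ e
        · refine Finset.mem_union_right _ (Finset.mem_image.mpr ?_)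
          obtain ⟨w, rfl⟩ := Sym2.mem_iff_exists.mp hve
          refine ⟨w, Finset.mem_filter.mpr ⟨heS w (by simp), ?_⟩, rfl⟩
          rw [fromEdgeSet_adj]
          exact ⟨heE, by simpa using hE _ heE⟩
        · refine Finset.mem_union_left _ (Finset.mem_filter.mpr ⟨heE, fun x hx => ?_⟩)
          exact Finset.mem_erase.mpr ⟨fun h => hve (h ▸ hx), heS x hx⟩
      have := Finset.card_le_card hsub
      have := Finset.card_union_le (E.filter fun e => ∀ x ∈ e, x ∈ S.erase v)
        ((S.filter fun w => (fromEdgeSet (E : Set (Sym2 V))).Adj v w).image fun w => s(v, w))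
      have := Finset.card_image_le (s := S.filter fun w => (fromEdgeSet (E : Set (Sym2 V))).Adj v w)
        (f := fun w => s(v, w))
      have := Finset.card_erase_add_one hv
      omega

/-- `E` transfers the Lipschitz bound with loss `T` to the pairs `q`. -/
def Transfers (d : V → V → ℝ) (T : ℝ) (E : Finset (Sym2 V)) (x y : V) : Prop :=
  ∀ (u : V → ℝ) (B : ℝ), 0 ≤ B →
    (∀ a b, s(a, b) ∈ E → |u a - u b| ≤ B * d a b) → |u x - u y| ≤ T * B * d x y

/-- Greedy spanner. -/
lemma greedy [DecidableEq V] (d : V → V → ℝ) (hd0 : ∀ x y, 0 ≤ d x y)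
    (hdsymm : ∀ x y, d x y = d y x) (k : ℕ) (hk : 1 ≤ k) (Q : Finset (Sym2 V)) :
    ∃ E ⊆ Q, (∀ e ∈ E, ¬ e.IsDiag) ∧
      (∀ (v : V) (c : (fromEdgeSet (E : Set (Sym2 V))).Walk v v),
        c.IsCycle → 2 * k < c.length) ∧
      ∀ x y, s(x, y) ∈ Q → Transfers d (2 * k) E x y := by
  classical
  let len : Sym2 V → ℝ := Sym2.lift ⟨d, hdsymm⟩
  induction Q using Finset.induction_on_max_value len with
  | empty =>
    refine ⟨∅, subset_rfl, by simp, ?_, by simp⟩
    intro v c hc
    cases c with
    | nil => exact absurd hc (by simp)
    | cons h w => simp at h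
  | @insert q Q hq hmax ih =>
    obtain ⟨E, hEQ, hEd, hEg, hET⟩ := ih
    induction q using Sym2.inductionOn with
    | _ a b =>
    have hsym : ∀ x y, Transfers d (2 * k) E x y → Transfers d (2 * k) E y x := by
      intro x y h u B hB hu
      rw [abs_sub_comm, hdsymm y x]; exact h u B hB hu
    by_cases hab : Transfers d (2 * k) E a b
    · refine ⟨E, hEQ.trans (Finset.subset_insert _ _), hEd, hEg, fun x y hxy => ?_⟩
      rcases Finset.mem_insert.mp hxy with h | h
      · rcases Sym2.eq_iff.mp h with ⟨rfl, rfl⟩ | ⟨rfl, rfl⟩
        · exact hab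
        · exact hsym _ _ hab
      · exact hET x y h
    have hne : a ≠ b := by
      rintro rfl
      exact hab fun u B hB _ => by simp; have := hd0 a a; positivity
    have h2k : (1 : ℝ) ≤ 2 * k := by
      have : (1 : ℝ) ≤ k := by exact_mod_cast hk
      linarith
    refine ⟨insert s(a, b) E, Finset.insert_subset_insert _ hEQ, ?_, ?_, ?_⟩
    · intro e he
      rcases Finset.mem_insert.mp he with rfl | he
      · simpa using hne
      · exact hEd e he
    · intro v c hc
      by_contra hlen
      push Not at hlen
      by_cases hin : s(a, b) ∈ c.edges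
      swap
      · have hce : ∀ e ∈ c.edges, e ∈ (fromEdgeSet (E : Set (Sym2 V))).edgeSet := by
          intro e he
          have := c.edges_subset_edgeSet he
          rw [edgeSet_fromEdgeSet] at this ⊢
          refine ⟨?_, this.2⟩
          rcases Finset.mem_insert.mp (Finset.mem_coe.mp this.1) with rfl | h
          · exact absurd he hin
          · exact h
        have := hEg v (c.transfer _ hce) (hc.transfer hce)
        simp at this; omega
      · have hav := c.fst_mem_support_of_mem_edges hin
        set c' := c.rotate a hav with hc'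
        have hc'c : c'.IsCycle := hc.rotate hav
        have hlen' : c'.length ≤ 2 * k := by simpa [hc'] using hlen
        have hbv : b ∈ c'.support := by
          rw [hc']
          exact Walk.snd_mem_support_of_mem_edges _ ((c.rotate_edges a hav).mem_iff.mpr hin)
        have hnodup := hc'c.edges_nodup
        have hsplit := c'.take_spec hbv
        rw [← hsplit, Walk.edges_append] at hnodup
        obtain ⟨-, -, hdisj⟩ := List.nodup_append.mp hnodup
        refine hab fun u B hB hu => ?_
        have hT : ∀ {x y : V} (w : (fromEdgeSet ((insert s(a, b) E : Finset _) : Set (Sym2 V))).Walk x y),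
            s(a, b) ∉ w.edges → w.length ≤ 2 * k → |u x - u y| ≤ 2 * k * B * d a b := by
          intro x y w hw hwl
          refine (walk_bound u (B * d a b) w ?_).trans ?_
          · intro p r hpr
            have := w.edges_subset_edgeSet hpr
            rw [edgeSet_fromEdgeSet] at this
            rcases Finset.mem_insert.mp (Finset.mem_coe.mp this.1) with h | h
            · rw [h] at hpr; exact absurd hpr hw
            · refine (hu p r h).trans (mul_le_mul_of_nonneg_left ?_ hB)
              exact hmax _ (hEQ h)
          · have : (w.length : ℝ) ≤ 2 * k := by exact_mod_cast hwl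
            have := hd0 a b
            rw [mul_assoc]; gcongr
        by_cases h1 : s(a, b) ∈ (c'.takeUntil b hbv).edges
        · rw [abs_sub_comm]
          refine hT (c'.dropUntil b hbv) (fun h => hdisj _ h1 _ h rfl) ?_
          exact le_trans (Walk.length_dropUntil_le_length _ _) hlen'
        · refine hT (c'.takeUntil b hbv) h1 ?_
          exact le_trans (Walk.length_takeUntil_le_length _ _) hlen'
    · intro x y hxy u B hB hu
      rcases Finset.mem_insert.mp hxy with h | h
      · have := hu x y (h ▸ Finset.mem_insert_self _ _)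
        refine this.trans ?_
        have := hd0 x y
        nlinarith [mul_nonneg hB this]
      · exact hET x y h u B hB fun p r hpr => hu p r (Finset.mem_insert_of_mem hpr)

/-- Sparse spanner in the form used for sampling. -/
lemma exists_spanner [Fintype V] [DecidableEq V] (d : V → V → ℝ) (hd0 : ∀ x y, 0 ≤ d x y)
    (hdsymm : ∀ x y, d x y = d y x) (k : ℕ) (hk : Fintype.card V < 2 ^ k) (hk1 : 1 ≤ k) :
    ∃ E : Finset (Sym2 V), E.card ≤ 2 * Fintype.card V ∧ (∀ e ∈ E, ¬ e.IsDiag) ∧
      ∀ x y, Transfers d (2 * k) E x y := by
  obtain ⟨E, -, hEd, hEg, hET⟩ := greedy d hd0 hdsymm k hk1 Finset.univ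
  exact ⟨E, edge_bound hEd hEg hk, hEd, fun x y => hET x y (Finset.mem_univ _)⟩

end Vale.Agent.P249
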