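import Vale.Agent.P249.Pareto

/-!
Tail of a sum of independent power-tailed variables: `t ^ (-p) * ∑ |a i| ^ p` up to `1 ± δ`.
-/

namespace Vale.Agent.P249

open MeasureTheory Real Finset

variable {N : ℕ}

/-- The product law. -/
noncomputable def law (N : ℕ) : Measure (Fin N → ℝ) := Measure.pi fun _ => unif

instance : IsProbabilityMeasure (law N) := by unfold law; infer_instance

/-- The random linear form. -/
noncomputable def form (p : ℝ) (a w : Fin N → ℝ) : ℝ := ∑ i, a i * pareto p (w i)

lemma measurable_form (p : ℝ) (a : Fin N → ℝ) : Measurable (form p a) :=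
  Finset.measurable_sum _ fun i _ =>
    measurable_const.mul ((measurable_pareto p).comp (measurable_pi_apply i))

lemma form_sub (p : ℝ) (a b w : Fin N → ℝ) : form p (a - b) w = form p a w - form p b w := by
  simp [form, sub_mul]

lemma integral_coord (i : Fin N) {f : ℝ → ℝ} (hf : Measurable f) :
    ∫ w, f (w i) ∂law N = ∫ v, f v ∂unif :=
  integral_comp_eval (μ := fun _ : Fin N => unif) hf.aestronglyMeasurable

lemma integral_coord_mul {i j : Fin N} (hij : i ≠ j) (f g : ℝ → ℝ) :
    ∫ w, f (w i) * g (w j) ∂law N = (∫ v, f v ∂unif) * ∫ v, g v ∂unif := by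
  classical
  set F : Fin N → ℝ → ℝ := fun k v => if k = i then f v else if k = j then g v else 1 with hF
  have h : ∀ w : Fin N → ℝ, f (w i) * g (w j) = ∏ k, F k (w k) := by
    intro w
    rw [Finset.prod_eq_mul i j hij (fun c _ hc => by simp [hF, hc.1, hc.2])
      (by simp) (by simp)]
    simp [hF, hij.symm]
  simp only [h]
  rw [law, integral_fintype_prod_eq_prod F, Finset.prod_eq_mul i j hij
    (fun c _ hc => by simp [hF, hc.1, hc.2]) (by simp) (by simp)]
  simp [hF, hij.symm]

section pointwise

variable (p : ℝ) (a : Fin N → ℝ) (σ : ℝ)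

/-- Indicator that coordinate `i` is above level `s`. -/
noncomputable def big (s : ℝ) (i : Fin N) (w : Fin N → ℝ) : ℝ :=
  if s < |a i * pareto p (w i)| then 1 else 0

/-- Ordered pairs of coordinates above level `σ`. -/
noncomputable def pairs (w : Fin N → ℝ) : ℝ :=
  ∑ i, ∑ j, if i = j then 0 else big p a σ i w * big p a σ j w

/-- Sum of the truncated coordinates. -/
noncomputable def rest (w : Fin N → ℝ) : ℝ := ∑ i, trunc σ (a i * pareto p (w i))

lemma big_nonneg (s : ℝ) (i : Fin N) (w : Fin N → ℝ) : 0 ≤ big p a s i w := by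
  unfold big; split_ifs <;> norm_num

lemma pairs_term_nonneg (i j : Fin N) (w : Fin N → ℝ) :
    0 ≤ if i = j then 0 else big p a σ i w * big p a σ j w := by
  split_ifs
  · exact le_rfl
  · exact mul_nonneg (big_nonneg ..) (big_nonneg ..)

lemma pairs_nonneg (w : Fin N → ℝ) : 0 ≤ pairs p a σ w :=
  sum_nonneg fun i _ => sum_nonneg fun j _ => pairs_term_nonneg p a σ i j w

lemma form_eq_of_single {i : Fin N} {w : Fin N → ℝ} (hi : σ < |a i * pareto p (w i)|)
    (h : ∀ j, j ≠ i → ¬ σ < |a j * pareto p (w j)|) :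
    form p a w = a i * pareto p (w i) + rest p a σ w := by
  simp only [form, rest]
  rw [← add_sum_erase _ _ (mem_univ i), ← add_sum_erase _ _ (mem_univ i)]
  have : trunc σ (a i * pareto p (w i)) = 0 := by rw [trunc, if_pos hi]
  rw [this, zero_add]
  congr 1
  refine sum_congr rfl fun j hj => ?_
  rw [trunc, if_neg (h j (ne_of_mem_erase hj))]

lemma one_le_pairs {i j : Fin N} {w : Fin N → ℝ} (hij : i ≠ j)
    (hi : σ < |a i * pareto p (w i)|) (hj : σ < |a j * pareto p (w j)|) :
    1 ≤ pairs p a σ w := by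
  refine le_trans ?_ (single_le_sum (fun k _ => sum_nonneg fun l _ =>
    pairs_term_nonneg p a σ k l w) (mem_univ i))
  refine le_trans ?_ (single_le_sum (fun l _ => pairs_term_nonneg p a σ i l w) (mem_univ j))
  rw [if_neg hij, big, big, if_pos hi, if_pos hj, mul_one]

lemma ind_le {η t : ℝ} (hη : 0 < η) (hη1 : η < 1) (ht : 0 < t) (_hσ : σ ≤ (1 - η) * t)
    (w : Fin N → ℝ) :
    (if t < |form p a w| then (1 : ℝ) else 0) ≤
      (∑ i, big p a ((1 - η) * t) i w) + pairs p a σ w + (rest p a σ w / (η * t)) ^ 2 := by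
  have h1 : 0 ≤ ∑ i, big p a ((1 - η) * t) i w := sum_nonneg fun i _ => big_nonneg ..
  have h2 := pairs_nonneg p a σ w
  have h3 := sq_nonneg (rest p a σ w / (η * t))
  split_ifs with hS
  swap
  · positivity
  by_cases hR : η * t ≤ |rest p a σ w|
  · have : 1 ≤ (rest p a σ w / (η * t)) ^ 2 := by
      rw [one_le_sq_iff_one_le_abs, abs_div, abs_of_pos (by positivity : 0 < η * t),
        one_le_div (by positivity)]
      exact hR
    linarith
  push Not at hR
  by_cases hex : ∃ i, σ < |a i * pareto p (w i)|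
  · obtain ⟨i, hi⟩ := hex
    by_cases huniq : ∀ j, j ≠ i → ¬ σ < |a j * pareto p (w j)|
    · rw [form_eq_of_single p a σ hi huniq] at hS
      have h4 := abs_add_le (a i * pareto p (w i)) (rest p a σ w)
      have h5 : (1 - η) * t < |a i * pareto p (w i)| := by linarith
      have h6 := single_le_sum (fun k _ => big_nonneg p a ((1 - η) * t) k w) (mem_univ i)
      rw [big, if_pos h5] at h6
      linarith
    · push Not at huniq
      obtain ⟨j, hji, hj⟩ := huniq
      linarith [one_le_pairs p a σ hji hj hi]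
  · push Not at hex
    have : form p a w = rest p a σ w := by
      refine sum_congr rfl fun i _ => ?_
      rw [trunc, if_neg (not_lt.mpr (hex i))]
    rw [this] at hS
    have : η * t ≤ t := mul_le_of_le_one_left ht.le hη1.le
    linarith

lemma le_ind {η t : ℝ} (hη : 0 < η) (ht : 0 < t) (hσ : σ ≤ (1 + η) * t) (w : Fin N → ℝ) :
    ∑ i, big p a ((1 + η) * t) i w ≤
      (if t < |form p a w| then (1 : ℝ) else 0) + pairs p a σ w
        + (rest p a σ w / (η * t)) ^ 2 := by
  have h0 : (0 : ℝ) ≤ if t < |form p a w| then (1 : ℝ) else 0 := by split_ifs <;> norm_num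
  have h2 := pairs_nonneg p a σ w
  have h3 := sq_nonneg (rest p a σ w / (η * t))
  have hmono : ∀ k, big p a ((1 + η) * t) k w ≤ big p a σ k w := by
    intro k
    unfold big
    split_ifs with hb hc
    · exact le_rfl
    · exact absurd (lt_of_le_of_lt hσ hb) hc
    · norm_num
    · norm_num
  by_cases hex : ∃ i, σ < |a i * pareto p (w i)|
  · obtain ⟨i, hi⟩ := hex
    by_cases huniq : ∀ j, j ≠ i → ¬ σ < |a j * pareto p (w j)|
    · have hsum : ∑ k, big p a ((1 + η) * t) k w = big p a ((1 + η) * t) i w := by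
        refine sum_eq_single i (fun k _ hk => le_antisymm ((hmono k).trans ?_) (big_nonneg ..))
          (by simp)
        rw [big, if_neg (huniq k hk)]
      rw [hsum, big]
      split_ifs with hb hS hS
      · linarith
      · have hR : η * t ≤ |rest p a σ w| := by
          by_contra hc
          push Not at hc
          rw [form_eq_of_single p a σ hi huniq] at hS
          have h4 := abs_sub_abs_le_abs_sub (a i * pareto p (w i)) (-rest p a σ w)
          rw [sub_neg_eq_add, abs_neg] at h4
          exact hS (by linarith)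
        have : 1 ≤ (rest p a σ w / (η * t)) ^ 2 := by
          rw [one_le_sq_iff_one_le_abs, abs_div, abs_of_pos (by positivity : 0 < η * t),
            one_le_div (by positivity)]
          exact hR
        linarith
      · linarith
      · linarith
    · push Not at huniq
      obtain ⟨j, hji, hj⟩ := huniq
      have : ∑ k, big p a ((1 + η) * t) k w ≤ pairs p a σ w := by
        refine sum_le_sum fun k _ => (hmono k).trans ?_
        by_cases hk : σ < |a k * pareto p (w k)|
        · obtain ⟨l, hkl, hl⟩ : ∃ l, k ≠ l ∧ σ < |a l * pareto p (w l)| := by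
            by_cases hki : k = i
            · exact ⟨j, hki ▸ hji.symm, hj⟩
            · exact ⟨i, hki, hi⟩
          refine le_trans ?_ (single_le_sum (fun l _ => pairs_term_nonneg p a σ k l w)
            (mem_univ l))
          rw [if_neg hkl, big, big, if_pos hk, if_pos hl, mul_one]
        · exact le_trans (le_of_eq (by rw [big, if_neg hk]))
            (sum_nonneg fun l _ => pairs_term_nonneg p a σ k l w)
      linarith
  · push Not at hex
    have : ∑ k, big p a ((1 + η) * t) k w ≤ 0 :=
      sum_nonpos fun k _ => (hmono k).trans (le_of_eq (by rw [big, if_neg (not_lt.mpr (hex k))]))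
    linarith

lemma measurable_big (s : ℝ) (i : Fin N) : Measurable (big p a s i) :=
  Measurable.ite (measurableSet_lt measurable_const (continuous_abs.measurable.comp
    (measurable_const.mul ((measurable_pareto p).comp (measurable_pi_apply i)))))
    measurable_const measurable_const

lemma abs_big_le (s : ℝ) (i : Fin N) (w : Fin N → ℝ) : |big p a s i w| ≤ 1 := by
  unfold big; split_ifs <;> norm_num

lemma integrable_big (s : ℝ) (i : Fin N) : Integrable (big p a s i) (law N) :=
  Integrable.of_bound (measurable_big p a s i).aestronglyMeasurable 1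
    (.of_forall fun w => by simpa using abs_big_le p a s i w)

lemma integral_big {s : ℝ} (hp : 0 < p) (hs : 0 < s) (i : Fin N) (h : |a i| ^ p ≤ s ^ p) :
    ∫ w, big p a s i w ∂law N = |a i| ^ p / s ^ p := by
  rw [← integral_tail hp hs h]
  exact integral_coord i (f := fun v => if s < |a i * pareto p v| then (1 : ℝ) else 0)
    (Measurable.ite (measurableSet_lt measurable_const (continuous_abs.measurable.comp
      (measurable_const.mul (measurable_pareto p)))) measurable_const measurable_const)

end pointwise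

lemma integrable_pairs (p : ℝ) (a : Fin N → ℝ) (σ : ℝ) :
    Integrable (pairs p a σ) (law N) := by
  unfold pairs
  refine integrable_finsetSum _ fun i _ => integrable_finsetSum _ fun j _ => ?_
  split_ifs
  · exact integrable_zero _ _ _
  · exact (integrable_big p a σ j).bdd_mul (c := 1) (measurable_big p a σ i).aestronglyMeasurable
      (.of_forall fun w => by simpa using abs_big_le p a σ i w)

lemma integral_pairs_le {p : ℝ} {a : Fin N → ℝ} {σ m : ℝ} (hp : 0 < p) (hσ : 0 < σ)
    (hm : m = ∑ i, |a i| ^ p) (hmσ : m ≤ σ ^ p) :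
    ∫ w, pairs p a σ w ∂law N ≤ (m / σ ^ p) ^ 2 := by
  have hai : ∀ i, |a i| ^ p ≤ σ ^ p := fun i => le_trans (hm ▸ single_le_sum
    (f := fun i => |a i| ^ p) (fun i _ => rpow_nonneg (abs_nonneg _) _) (mem_univ i)) hmσ
  have hint : ∀ i j : Fin N,
      Integrable (fun w => if i = j then 0 else big p a σ i w * big p a σ j w) (law N) := by
    intro i j
    split_ifs
    · exact integrable_zero _ _ _
    · exact (integrable_big p a σ j).bdd_mul (c := 1)
        (measurable_big p a σ i).aestronglyMeasurable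
        (.of_forall fun w => by simpa using abs_big_le p a σ i w)
  simp only [pairs]
  rw [integral_finsetSum _ fun i _ => integrable_finsetSum _ fun j _ => hint i j]
  have : (m / σ ^ p) ^ 2 = ∑ i, ∑ j, (|a i| ^ p / σ ^ p) * (|a j| ^ p / σ ^ p) := by
    rw [sq, hm, Finset.sum_div, Finset.sum_mul_sum]
  rw [this]
  refine sum_le_sum fun i _ => ?_
  rw [integral_finsetSum _ fun j _ => hint i j]
  refine sum_le_sum fun j _ => ?_
  by_cases hij : i = j
  · simp only [if_pos hij, integral_zero]; positivity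
  · simp only [if_neg hij]
    refine le_of_eq ?_
    rw [← integral_big p a hp hσ i (hai i), ← integral_big p a hp hσ j (hai j)]
    rw [show (∫ w, big p a σ i w ∂law N) = ∫ v, (if σ < |a i * pareto p v| then (1 : ℝ) else 0)
        ∂unif by rw [integral_big p a hp hσ i (hai i), integral_tail hp hσ (hai i)],
      show (∫ w, big p a σ j w ∂law N) = ∫ v, (if σ < |a j * pareto p v| then (1 : ℝ) else 0)
        ∂unif by rw [integral_big p a hp hσ j (hai j), integral_tail hp hσ (hai j)]]
    exact integral_coord_mul hij (fun v => if σ < |a i * pareto p v| then (1 : ℝ) else 0)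
      (fun v => if σ < |a j * pareto p v| then (1 : ℝ) else 0)

lemma measurable_trunc_term (p c σ : ℝ) : Measurable fun v => trunc σ (c * pareto p v) :=
  (measurable_trunc σ).comp (measurable_const.mul (measurable_pareto p))

lemma measurable_rest (p : ℝ) (a : Fin N → ℝ) (σ : ℝ) : Measurable (rest p a σ) :=
  Finset.measurable_sum _ fun i _ =>
    (measurable_trunc_term p (a i) σ).comp (measurable_pi_apply i)

lemma integrable_rest_sq (p : ℝ) (a : Fin N → ℝ) {σ : ℝ} (hσ : 0 ≤ σ) (c : ℝ) :
    Integrable (fun w => (rest p a σ w / c) ^ 2) (law N) := by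
  refine Integrable.of_bound
    (((measurable_rest p a σ).div_const c).pow_const 2).aestronglyMeasurable
    ((∑ _i : Fin N, σ) ^ 2 / c ^ 2) (.of_forall fun w => ?_)
  rw [Real.norm_eq_abs, abs_pow, abs_div, div_pow, sq_abs c]
  gcongr
  exact (abs_sum_le_sum_abs _ _).trans (sum_le_sum fun i _ => abs_trunc_le hσ _)

lemma integral_rest_sq_le {p : ℝ} {a : Fin N → ℝ} {σ m : ℝ} (hp1 : 1 ≤ p) (hp2 : p < 2)
    (hσ : 0 < σ) (hm : m = ∑ i, |a i| ^ p) (hmσ : m ≤ σ ^ p) (c : ℝ) :
    ∫ w, (rest p a σ w / c) ^ 2 ∂law N ≤ 4 / (2 / p - 1) * (m * σ ^ (2 - p)) / c ^ 2 := by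
  have hp : 0 < p := by linarith
  have hai : ∀ i, |a i| ^ p ≤ σ ^ p := fun i => le_trans (hm ▸ single_le_sum
    (f := fun i => |a i| ^ p) (fun i _ => rpow_nonneg (abs_nonneg _) _) (mem_univ i)) hmσ
  simp only [div_pow, integral_div]
  gcongr
  set Y : Fin N → ℝ → ℝ := fun i v => trunc σ (a i * pareto p v) with hY
  have hint : ∀ i j, Integrable (fun w : Fin N → ℝ => Y i (w i) * Y j (w j)) (law N) := by
    intro i j
    refine Integrable.of_bound (((measurable_trunc_term p (a i) σ).comp (measurable_pi_apply i)).mul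
      ((measurable_trunc_term p (a j) σ).comp (measurable_pi_apply j))).aestronglyMeasurable
      (σ * σ) (.of_forall fun w => ?_)
    rw [Real.norm_eq_abs, abs_mul]
    exact mul_le_mul (abs_trunc_le hσ.le _) (abs_trunc_le hσ.le _) (abs_nonneg _) hσ.le
  have hsq : ∀ w, rest p a σ w ^ 2 = ∑ i, ∑ j, Y i (w i) * Y j (w j) := fun w => by
    rw [rest, sq, Finset.sum_mul_sum]
  simp only [hsq]
  rw [integral_finsetSum _ fun i _ => integrable_finsetSum _ fun j _ => hint i j, hm,
    Finset.sum_mul, Finset.mul_sum]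
  refine sum_le_sum fun i _ => ?_
  rw [integral_finsetSum _ fun j _ => hint i j, sum_eq_single i]
  · simp only [← sq]
    rw [integral_coord i ((measurable_trunc_term p (a i) σ).pow_const 2)]
    exact integral_trunc_sq hp hp1 hp2 hσ (hai i)
  · intro j _ hj
    rw [integral_coord_mul hj.symm, integral_trunc hp.ne', zero_mul]
  · simp

lemma exists_tail {p : ℝ} (hp1 : 1 ≤ p) (hp2 : p < 2) {δ : ℝ} (hδ : 0 < δ) (hδ1 : δ < 1) :
    ∃ K, 1 ≤ K ∧ ∀ (N : ℕ) (a : Fin N → ℝ) (t : ℝ), 0 < t → K * ∑ i, |a i| ^ p ≤ t ^ p →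
      (1 - δ) * ((∑ i, |a i| ^ p) / t ^ p) ≤
          ∫ w, (if t < |form p a w| then (1 : ℝ) else 0) ∂law N ∧
        ∫ w, (if t < |form p a w| then (1 : ℝ) else 0) ∂law N
          ≤ (1 + δ) * ((∑ i, |a i| ^ p) / t ^ p) := by
  have hp : 0 < p := by linarith
  set η := δ / 24 with hη
  have hη0 : 0 < η := by positivity
  have hη1 : η < 1 / 24 := by linarith
  set Cv := 4 / (2 / p - 1) with hCv
  have hCv0 : 0 < Cv := by
    have : 1 < 2 / p := by rw [lt_div_iff₀ hp]; linarith
    exact div_pos (by norm_num) (by linarith)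
  set τ := min η ((δ * η ^ 2 / (3 * Cv)) ^ (1 / (2 - p))) with hτ
  have hτ0 : 0 < τ := lt_min hη0 (by positivity)
  have hτη : τ ≤ η := min_le_left _ _
  have hτv : Cv * τ ^ (2 - p) / η ^ 2 ≤ δ / 3 := by
    have h := rpow_le_rpow hτ0.le (min_le_right η ((δ * η ^ 2 / (3 * Cv)) ^ (1 / (2 - p))))
      (show 0 ≤ 2 - p by linarith)
    rw [← rpow_mul (by positivity), one_div_mul_cancel (by linarith), rpow_one] at h
    rw [div_le_iff₀ (by positivity)]
    calc Cv * τ ^ (2 - p) ≤ Cv * (δ * η ^ 2 / (3 * Cv)) := by gcongr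
      _ = _ := by field_simp
  refine ⟨max 1 (max (1 / τ ^ p) (3 / (δ * (τ ^ p) ^ 2))), le_max_left _ _, ?_⟩
  intro N a t ht hK
  set m := ∑ i, |a i| ^ p with hm
  have hm0 : 0 ≤ m := sum_nonneg fun i _ => rpow_nonneg (abs_nonneg _) _
  set σ := τ * t with hσ
  have hσ0 : 0 < σ := by positivity
  have htp : 0 < t ^ p := by positivity
  set x := m / t ^ p with hx
  have hx0 : 0 ≤ x := by positivity
  have hKx : ∀ L, L ≤ max 1 (max (1 / τ ^ p) (3 / (δ * (τ ^ p) ^ 2))) → L * x ≤ 1 := by
    intro L hL
    rw [hx, ← mul_div_assoc, div_le_one htp]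
    exact le_trans (mul_le_mul_of_nonneg_right hL hm0) hK
  have hmσ : m ≤ σ ^ p := by
    have := hKx (1 / τ ^ p) (le_max_of_le_right (le_max_left _ _))
    rw [hx, div_mul_div_comm, one_mul, div_le_one (by positivity)] at this
    rwa [hσ, mul_rpow hτ0.le ht.le]
  have hpair : (m / σ ^ p) ^ 2 ≤ δ / 3 * x := by
    have := hKx (3 / (δ * (τ ^ p) ^ 2)) (le_max_of_le_right (le_max_right _ _))
    rw [hσ, mul_rpow hτ0.le ht.le, div_mul_eq_div_div_swap, ← hx, div_pow]
    rw [div_mul_eq_mul_div, div_le_one (by positivity)] at this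
    rw [div_le_iff₀ (by positivity), sq]
    have h2 : x * (3 * x) ≤ x * (δ * (τ ^ p) ^ 2) := mul_le_mul_of_nonneg_left this hx0
    nlinarith [h2]
  have hrest : Cv * (m * σ ^ (2 - p)) / (η * t) ^ 2 ≤ δ / 3 * x := by
    have e : Cv * (m * σ ^ (2 - p)) / (η * t) ^ 2 = Cv * τ ^ (2 - p) / η ^ 2 * x := by
      rw [hσ, mul_rpow hτ0.le ht.le, hx, rpow_sub ht, rpow_two]
      field_simp
    rw [e]
    gcongr
  have hP := integral_pairs_le hp hσ0 hm hmσ
  have hR := integral_rest_sq_le hp1 hp2 hσ0 hm hmσ (η * t)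
  rw [← hCv] at hR
  have hbig : ∀ θ, τ ≤ θ → ∫ w, ∑ i, big p a (θ * t) i w ∂law N = x / θ ^ p := by
    intro θ hθ
    have hθ0 : 0 < θ := lt_of_lt_of_le hτ0 hθ
    rw [integral_finsetSum _ fun i _ => integrable_big p a _ i, hx, hm, div_div, Finset.sum_div]
    refine sum_congr rfl fun i _ => ?_
    rw [integral_big p a hp (by positivity) i, mul_rpow hθ0.le ht.le, mul_comm]
    refine le_trans (single_le_sum (f := fun i => |a i| ^ p)
      (fun i _ => rpow_nonneg (abs_nonneg _) _) (mem_univ i)) (le_trans hmσ ?_)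
    rw [hσ]; gcongr
  have hsq1 : ((1 : ℝ) + η) ^ p ≤ (1 + η) ^ 2 := by
    rw [← rpow_two]; exact rpow_le_rpow_of_exponent_le (by linarith) hp2.le
  have hsq2 : ((1 : ℝ) - η) ^ 2 ≤ (1 - η) ^ p := by
    rw [← rpow_two]; exact rpow_le_rpow_of_exponent_ge (by linarith) (by linarith) hp2.le
  have hind : Integrable (fun w => if t < |form p a w| then (1 : ℝ) else 0) (law N) :=
    Integrable.of_bound (Measurable.ite (measurableSet_lt measurable_const
      (continuous_abs.measurable.comp (measurable_form p a))) measurable_const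
      measurable_const).aestronglyMeasurable 1
      (.of_forall fun w => by split_ifs <;> norm_num)
  have i1 : ∀ θ, Integrable (fun w => ∑ i, big p a (θ * t) i w) (law N) :=
    fun θ => integrable_finsetSum _ fun i _ => integrable_big p a _ i
  have i2 := integrable_pairs p a σ
  have i3 := integrable_rest_sq p a hσ0.le (η * t)
  constructor
  · have h := integral_mono (i1 (1 + η)) ((hind.add i2).add i3) fun w =>
      le_ind p a σ hη0 ht (by rw [hσ]; gcongr; linarith) w
    rw [hbig _ (by linarith), integral_add' (hind.add i2) i3, integral_add' hind i2] at h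
    have h1 : (1 - δ / 3) * x ≤ x / (1 + η) ^ p := by
      rw [le_div_iff₀ (by positivity)]
      calc (1 - δ / 3) * x * (1 + η) ^ p ≤ (1 - δ / 3) * x * (1 + η) ^ 2 :=
            mul_le_mul_of_nonneg_left hsq1 (mul_nonneg (by linarith) hx0)
        _ = x * ((1 - δ / 3) * (1 + η) ^ 2) := by ring
        _ ≤ x * 1 := by gcongr; nlinarith
        _ = x := mul_one x
    linarith
  · have h := integral_mono hind (((i1 (1 - η)).add i2).add i3) fun w =>
      ind_le p a σ hη0 (by linarith) ht (by rw [hσ]; gcongr; linarith) w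
    rw [integral_add' ((i1 (1 - η)).add i2) i3, integral_add' (i1 (1 - η)) i2,
      hbig _ (by linarith)] at h
    have hsq0 : 0 < ((1 : ℝ) - η) ^ p := rpow_pos_of_pos (by linarith) _
    have h1 : x / (1 - η) ^ p ≤ (1 + δ / 3) * x := by
      rw [div_le_iff₀ hsq0]
      calc x = x * 1 := (mul_one x).symm
        _ ≤ x * ((1 + δ / 3) * (1 - η) ^ 2) := by gcongr; nlinarith
        _ = (1 + δ / 3) * x * (1 - η) ^ 2 := by ring
        _ ≤ (1 + δ / 3) * x * (1 - η) ^ p :=
            mul_le_mul_of_nonneg_left hsq2 (mul_nonneg (by linarith) hx0)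
    linarith

end Vale.Agent.P249
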